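import Mathlib
import Vale.Agent.P361.LRO.Trot.Uniform

/-!
P361, stage R2/R3: the one-particle walk through `r` layers of gates against the continuous time
walk: `T ^ r` and `exp (r p G)`, `T = ∏_{e ∈ L} (1 + p G_e)`, uniformly in `r ≤ N`; and the total
mass with weight `s` for every move.
-/

namespace Vale.Agent.P361.LRO.Bloch.Disc

open Finset Matrix NormedSpace

attribute [local instance] Matrix.linftyOpNormedRing Matrix.linftyOpNormedAlgebra

noncomputable section

section ring

variable {𝔸 : Type*} [NormedRing 𝔸]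

lemma prod_one_add_bounds (h1 : ‖(1 : 𝔸)‖ ≤ 1) (l : List 𝔸) :
    ‖(l.map fun x => 1 + x).prod‖ ≤ Real.exp (l.map norm).sum ∧
    ‖(l.map fun x => 1 + x).prod - 1‖ ≤ Real.exp (l.map norm).sum - 1 ∧
    ‖(l.map fun x => 1 + x).prod - 1 - l.sum‖ ≤
      Real.exp (l.map norm).sum - 1 - (l.map norm).sum := by
  induction l with
  | nil => simp [h1]
  | cons x l ih =>
    obtain ⟨ih1, ih2, ih3⟩ := ih
    simp only [List.map_cons, List.prod_cons, List.sum_cons]
    set P := (l.map fun x => 1 + x).prod with hP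
    set σ := (l.map norm).sum with hσ
    set S := l.sum with hS
    have hσ0 : 0 ≤ σ := by
      rw [hσ]
      apply List.sum_nonneg
      intro r hr
      rw [List.mem_map] at hr
      obtain ⟨y, _, rfl⟩ := hr
      exact norm_nonneg _
    have hx := norm_nonneg x
    have he : (1 + ‖x‖) * Real.exp σ ≤ Real.exp (‖x‖ + σ) := by
      rw [Real.exp_add]
      exact mul_le_mul_of_nonneg_right (by linarith [Real.add_one_le_exp ‖x‖])
        (Real.exp_pos _).le
    refine ⟨?_, ?_, ?_⟩
    · calc ‖(1 + x) * P‖ = ‖P + x * P‖ := by rw [add_mul, one_mul]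
        _ ≤ ‖P‖ + ‖x‖ * ‖P‖ := (norm_add_le _ _).trans (by gcongr; exact norm_mul_le _ _)
        _ ≤ Real.exp σ + ‖x‖ * Real.exp σ := by gcongr
        _ = (1 + ‖x‖) * Real.exp σ := by ring
        _ ≤ _ := he
    · calc ‖(1 + x) * P - 1‖ = ‖(P - 1) + x * P‖ := by
            congr 1; noncomm_ring
        _ ≤ ‖P - 1‖ + ‖x‖ * ‖P‖ := (norm_add_le _ _).trans (by gcongr; exact norm_mul_le _ _)
        _ ≤ (Real.exp σ - 1) + ‖x‖ * Real.exp σ := by gcongr
        _ = (1 + ‖x‖) * Real.exp σ - 1 := by ring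
        _ ≤ _ := by linarith
    · calc ‖(1 + x) * P - 1 - (x + S)‖ = ‖(P - 1 - S) + x * (P - 1)‖ := by
            congr 1; noncomm_ring
        _ ≤ ‖P - 1 - S‖ + ‖x‖ * ‖P - 1‖ :=
            (norm_add_le _ _).trans (by gcongr; exact norm_mul_le _ _)
        _ ≤ (Real.exp σ - 1 - σ) + ‖x‖ * (Real.exp σ - 1) := by gcongr
        _ = (1 + ‖x‖) * Real.exp σ - 1 - (‖x‖ + σ) := by ring
        _ ≤ _ := by linarith

lemma norm_sum_le (l : List 𝔸) : ‖l.sum‖ ≤ (l.map norm).sum := by
  induction l with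
  | nil => simp
  | cons x l ih =>
    simp only [List.map_cons, List.sum_cons]
    exact (norm_add_le _ _).trans (by gcongr)

variable [NormedAlgebra ℝ 𝔸] [CompleteSpace 𝔸]

/-- Powers of a product of `1 + p B` against the exponential. -/
theorem disc_bound (h1 : ‖(1 : 𝔸)‖ ≤ 1) (l : List 𝔸) {c p : ℝ} (hp : 0 ≤ p)
    (hc : (l.map norm).sum ≤ c) (r : ℕ) :
    ‖(l.map fun x => 1 + p • x).prod ^ r - exp ((r * p : ℝ) • l.sum)‖ ≤
      2 * r * (p * c) ^ 2 * Real.exp ((r + 1) * (p * c)) := by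
  set T := (l.map fun x => 1 + p • x).prod with hT
  have hmap : (l.map fun x => 1 + p • x) = ((l.map fun x => p • x).map fun x => 1 + x) := by
    rw [List.map_map]; rfl
  have hsum : (l.map fun x => p • x).sum = p • l.sum := by
    rw [List.smul_sum]
  have hnorm : ((l.map fun x => p • x).map norm).sum = p * (l.map norm).sum := by
    rw [List.map_map, ← List.sum_map_mul_left]
    congr 1
    refine List.map_congr_left fun x _ => ?_
    simp only [Function.comp]
    rw [norm_smul, Real.norm_eq_abs, abs_of_nonneg hp]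
  set σ := p * (l.map norm).sum with hσ
  have hσ0 : 0 ≤ σ := by
    refine mul_nonneg hp (List.sum_nonneg ?_)
    intro r hr
    rw [List.mem_map] at hr
    obtain ⟨y, _, rfl⟩ := hr
    exact norm_nonneg _
  have hσc : σ ≤ p * c := mul_le_mul_of_nonneg_left hc hp
  have hb := prod_one_add_bounds h1 (l.map fun x => p • x)
  rw [← hmap, hnorm, hsum] at hb
  obtain ⟨b1, _, b3⟩ := hb
  have hE : ‖p • l.sum‖ ≤ σ := by
    rw [norm_smul, Real.norm_eq_abs, abs_of_nonneg hp]
    exact mul_le_mul_of_nonneg_left (norm_sum_le l) hp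
  have hmono : Real.exp ‖p • l.sum‖ - 1 - ‖p • l.sum‖ ≤ σ ^ 2 * Real.exp σ := by
    refine (Trot.exp_rem_le (norm_nonneg _)).trans ?_
    have := norm_nonneg (p • l.sum)
    gcongr
  have h2 : ‖exp (p • l.sum) - 1 - p • l.sum‖ ≤ σ ^ 2 * Real.exp σ :=
    (Trot.norm_exp_sub_one_sub_le _).trans hmono
  have h3 : ‖T - exp (p • l.sum)‖ ≤ 2 * (σ ^ 2 * Real.exp σ) := by
    have e : T - exp (p • l.sum) = (T - 1 - p • l.sum) - (exp (p • l.sum) - 1 - p • l.sum) := by
      noncomm_ring
    rw [e]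
    have b4 := b3.trans (Trot.exp_rem_le hσ0)
    calc _ ≤ ‖T - 1 - p • l.sum‖ + ‖exp (p • l.sum) - 1 - p • l.sum‖ := norm_sub_le _ _
      _ ≤ _ := by linarith
  have hM : 1 ≤ Real.exp (p * c) := Real.one_le_exp (hσ0.trans hσc)
  have hTn : ‖T‖ ≤ Real.exp (p * c) := b1.trans (Real.exp_le_exp.2 hσc)
  have hEn : ‖exp (p • l.sum)‖ ≤ Real.exp (p * c) :=
    (Trot.norm_exp_le h1 _).trans (Real.exp_le_exp.2 (hE.trans hσc))
  have h4 := Trot.norm_pow_sub_pow_le hM hTn hEn r h1
  have e5 : exp ((r * p : ℝ) • l.sum) = exp (p • l.sum) ^ r := by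
    let _ : NormedAlgebra ℚ 𝔸 := NormedAlgebra.restrictScalars ℚ ℝ 𝔸
    rw [← NormedSpace.exp_nsmul, ← smul_assoc, nsmul_eq_mul]
  rw [e5]
  refine h4.trans ?_
  have h6 : 2 * (σ ^ 2 * Real.exp σ) ≤ 2 * ((p * c) ^ 2 * Real.exp (p * c)) := by gcongr
  calc (r : ℝ) * Real.exp (p * c) ^ r * ‖T - exp (p • l.sum)‖
      ≤ r * Real.exp (p * c) ^ r * (2 * ((p * c) ^ 2 * Real.exp (p * c))) := by
        gcongr; exact h3.trans h6
    _ = 2 * r * (p * c) ^ 2 * (Real.exp (p * c) ^ r * Real.exp (p * c)) := by ring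
    _ = _ := by
      rw [← Real.exp_nat_mul, ← Real.exp_add]
      ring_nf

end ring

section mat

variable {V : Type} [Fintype V] [DecidableEq V]

lemma entry_le_norm (A : Matrix V V ℝ) (x y : V) : |A x y| ≤ ‖A‖ := by
  rw [Matrix.linfty_opNorm_def]
  have h1 : ‖A x y‖₊ ≤ ∑ j, ‖A x j‖₊ :=
    Finset.single_le_sum (f := fun j => ‖A x j‖₊) (fun _ _ => zero_le) (mem_univ y)
  have h2 : ∑ j, ‖A x j‖₊ ≤ (Finset.univ : Finset V).sup fun i => ∑ j, ‖A i j‖₊ :=
    Finset.le_sup (f := fun i => ∑ j, ‖A i j‖₊) (mem_univ x)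
  have h3 := h1.trans h2
  rw [← Real.norm_eq_abs]
  exact_mod_cast h3

lemma norm_one_le : ‖(1 : Matrix V V ℝ)‖ ≤ 1 := by
  rw [Matrix.linfty_opNorm_def]
  have : ((Finset.univ : Finset V).sup fun i => ∑ j, ‖(1 : Matrix V V ℝ) i j‖₊) ≤ 1 := by
    refine Finset.sup_le fun i _ => ?_
    rw [Finset.sum_eq_single i]
    · simp
    · intro j _ hj; simp [Ne.symm hj]
    · simp
  exact_mod_cast this

/-- Generator of one gate, a move has weight `s`. -/
def genE (s : ℝ) (e : V × V) : Matrix V V ℝ := Matrix.of fun x y =>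
  if x = e.1 ∨ x = e.2 then
    (if y = Equiv.swap e.1 e.2 x then s else 0) - (if y = x then 1 else 0) else 0

/-- Generator of the walk. -/
def genL (s : ℝ) (L : List (V × V)) : Matrix V V ℝ := (L.map (genE s)).sum

/-- One layer of gates. -/
def layW (s p : ℝ) (L : List (V × V)) : Matrix V V ℝ :=
  (L.map fun e => 1 + p • genE s e).prod

lemma norm_genE {s : ℝ} (hs : 0 ≤ s) (e : V × V) : ‖genE s e‖ ≤ s + 1 := by
  rw [Matrix.linfty_opNorm_def]
  have key : ∀ i, ∑ j, ‖genE s e i j‖ ≤ s + 1 := by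
    intro i
    by_cases h : i = e.1 ∨ i = e.2
    · have h1 : ∀ j, ‖genE s e i j‖ ≤ (if j = Equiv.swap e.1 e.2 i then s else 0) +
          (if j = i then 1 else 0) := by
        intro j
        simp only [genE, Matrix.of_apply, if_pos h]
        refine (norm_sub_le _ _).trans ?_
        apply add_le_add
        · split_ifs
          · rw [Real.norm_eq_abs, abs_of_nonneg hs]
          · simp
        · split_ifs <;> simp
      refine (Finset.sum_le_sum fun j _ => h1 j).trans ?_
      rw [Finset.sum_add_distrib]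
      simp
    · have h1 : ∀ j, ‖genE s e i j‖ = 0 := by
        intro j
        simp [genE, h]
      simp only [h1, Finset.sum_const_zero]
      linarith
  have h5 : ((Finset.univ : Finset V).sup fun i => ∑ j, ‖genE s e i j‖₊) ≤
      (s + 1).toNNReal := by
    refine Finset.sup_le fun i _ => ?_
    rw [Real.le_toNNReal_iff_coe_le (by linarith)]
    push_cast
    exact key i
  have h6 := NNReal.coe_le_coe.2 h5
  rw [Real.coe_toNNReal _ (by linarith)] at h6
  exact h6

/-- **Discrete walk against the continuous one**, uniformly in `r`. -/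
theorem layW_pow (s p : ℝ) (hs : 0 ≤ s) (hp : 0 ≤ p) (L : List (V × V)) (r : ℕ) (x y : V) :
    |(layW s p L ^ r) x y - (exp ((r * p : ℝ) • genL s L)) x y| ≤
      2 * r * (p * ((s + 1) * L.length)) ^ 2 *
        Real.exp ((r + 1) * (p * ((s + 1) * L.length))) := by
  have hc : ((L.map (genE s)).map norm).sum ≤ (s + 1) * L.length := by
    rw [List.map_map]
    induction L with
    | nil => simp
    | cons e L ih =>
      simp only [List.map_cons, List.sum_cons, Function.comp, List.length_cons]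
      push_cast
      have := norm_genE hs e
      linarith
  have h := disc_bound (norm_one_le (V := V)) (L.map (genE s)) hp hc r
  have e1 : ((L.map (genE s)).map fun x => 1 + p • x).prod = layW s p L := by
    unfold layW
    rw [List.map_map]
    rfl
  rw [e1] at h
  have h2 := entry_le_norm (layW s p L ^ r - exp ((r * p : ℝ) • (L.map (genE s)).sum)) x y
  rw [Matrix.sub_apply] at h2
  exact h2.trans h

end mat

end

end Vale.Agent.P361.LRO.Bloch.Disc
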