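import Vale.Agent.P361.LRO.Bloch.LongLoc
import Vale.Agent.P361.LRO.Bloch.Disc
import Vale.Agent.P361.LRO.Mag.TrMag

/-!
P361, stage 3, K2: the bound `δ` of the defects in `LongLoc` (hypothesis `hX` of `long_trace`), for
`N ≥ N0`, from the bound for `N = ∞` (`TX`) and the uniform Trotter estimate.
-/

namespace Vale.Agent.P361.LRO.Bloch.Delta

open Finset Matrix NormedSpace Vale.Agent.P361.LRO Vale.Agent.P361.LRO.Bloch

attribute [local instance] Matrix.linftyOpNormedRing Matrix.linftyOpNormedAlgebra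

noncomputable section

set_option linter.unusedSectionVars false

variable {V : Type} [Fintype V] [DecidableEq V]

/-- `mt l - 1`. -/
def lg (l : Lt V) : MM V := mt l - 1

lemma wd_eq (w : List (Lt V)) : wd w = ((w.map lg).map fun x => 1 + x).prod := by
  unfold wd
  rw [List.map_map]
  congr 1
  refine List.map_congr_left fun l _ => ?_
  simp [lg]

lemma wd_append (w w' : List (Lt V)) : wd (w ++ w') = wd w * wd w' := by
  unfold wd
  rw [List.map_append, List.prod_append]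

lemma one_norm : ‖(1 : MM V)‖ ≤ 1 := Disc.norm_one_le

/-- Total size of the letters. -/
def sz (w : List (Lt V)) : ℝ := ((w.map lg).map norm).sum

lemma sz_append (w w' : List (Lt V)) : sz (w ++ w') = sz w + sz w' := by
  unfold sz
  simp

lemma sz_nonneg (w : List (Lt V)) : 0 ≤ sz w := by
  unfold sz
  apply List.sum_nonneg
  intro r hr
  rw [List.mem_map] at hr
  obtain ⟨y, _, rfl⟩ := hr
  exact norm_nonneg _

lemma wd_bounds (w : List (Lt V)) :
    ‖wd w‖ ≤ Real.exp (sz w) ∧ ‖wd w - 1‖ ≤ Real.exp (sz w) - 1 := by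
  have h := Disc.prod_one_add_bounds (one_norm (V := V)) (w.map lg)
  rw [← wd_eq] at h
  exact ⟨h.1, h.2.1⟩

lemma exp_sub_one_le {x : ℝ} (_h0 : 0 ≤ x) : Real.exp x - 1 ≤ x * Real.exp x := by
  have h1 := Real.add_one_le_exp (-x)
  have h2 := Real.exp_pos x
  have h3 : Real.exp (-x) * Real.exp x = 1 := by rw [← Real.exp_add]; simp
  nlinarith

/-! ### Near -/

/-- `M` is close to `exp (-s H)`. -/
def Near (H : MM V) (C : ℝ) (N : ℕ) (M : MM V) (s : ℝ) : Prop :=
  ‖M‖ ≤ C ∧ ‖exp (-s • H)‖ ≤ C ∧ ‖M - exp (-s • H)‖ ≤ C / N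

lemma Near.pos {H : MM V} {C : ℝ} {N : ℕ} {M : MM V} {s : ℝ} (h : Near H C N M s) : 0 ≤ C :=
  (norm_nonneg _).trans h.1

lemma exp_add_H (H : MM V) (s t : ℝ) :
    exp (-(s + t) • H) = exp (-s • H) * exp (-t • H) := by
  rw [← Matrix.exp_add_of_commute, ← add_smul]
  · congr 2; ring
  · exact ((Commute.refl H).smul_left _).smul_right _

lemma Near.mul {H : MM V} {C C' : ℝ} {N : ℕ} {M M' : MM V} {s s' : ℝ} (h : Near H C N M s)
    (h' : Near H C' N M' s') : Near H (2 * (C * C')) N (M * M') (s + s') := by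
  have hC := h.pos
  have hC' := h'.pos
  have hCC : 0 ≤ C * C' := mul_nonneg hC hC'
  refine ⟨?_, ?_, ?_⟩
  · have := (norm_mul_le M M').trans (mul_le_mul h.1 h'.1 (norm_nonneg _) hC)
    linarith
  · rw [exp_add_H]
    have := (norm_mul_le (exp (-s • H)) (exp (-s' • H))).trans
      (mul_le_mul h.2.1 h'.2.1 (norm_nonneg _) hC)
    linarith
  · rw [exp_add_H]
    have e : M * M' - exp (-s • H) * exp (-s' • H) =
        (M - exp (-s • H)) * M' + exp (-s • H) * (M' - exp (-s' • H)) := by noncomm_ring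
    rw [e]
    have h1 : ‖(M - exp (-s • H)) * M'‖ ≤ C / N * C' :=
      (norm_mul_le _ _).trans (mul_le_mul h.2.2 h'.1 (norm_nonneg _) (by positivity))
    have h2 : ‖exp (-s • H) * (M' - exp (-s' • H))‖ ≤ C * (C' / N) :=
      (norm_mul_le _ _).trans (mul_le_mul h.2.1 h'.2.2 (norm_nonneg _) hC)
    calc _ ≤ C / N * C' + C * (C' / N) := (norm_add_le _ _).trans (add_le_add h1 h2)
      _ = _ := by ring

lemma Near.mono {H : MM V} {C C' : ℝ} {N : ℕ} {M : MM V} {s : ℝ} (h : Near H C N M s)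
    (hC : C ≤ C') : Near H C' N M s :=
  ⟨h.1.trans hC, h.2.1.trans hC, h.2.2.trans (by gcongr)⟩

lemma near_small {H : MM V} {c : ℝ} (hc : 0 ≤ c) {N : ℕ} (hN : 1 ≤ N) {X : MM V}
    (hX : ‖X - 1‖ ≤ c / N) : Near H (1 + c) N X 0 := by
  have hN' : (1 : ℝ) ≤ N := by exact_mod_cast hN
  have h0 : exp (-(0 : ℝ) • H) = 1 := by simp
  have hcN : c / N ≤ c := div_le_self hc hN'
  refine ⟨?_, ?_, ?_⟩
  · calc ‖X‖ = ‖1 + (X - 1)‖ := by congr 1; abel
      _ ≤ 1 + c := (norm_add_le _ _).trans (add_le_add one_norm (hX.trans hcN))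
  · rw [h0]; exact one_norm.trans (by linarith)
  · rw [h0]
    refine hX.trans ?_
    gcongr
    linarith

lemma near_wd {H : MM V} {c : ℝ} (hc : 0 ≤ c) {N : ℕ} (hN : 1 ≤ N) {w : List (Lt V)}
    (hw : sz w ≤ c / N) : Near H (1 + c * Real.exp c) N (wd w) 0 := by
  have hN' : (1 : ℝ) ≤ N := by exact_mod_cast hN
  have hcN : c / N ≤ c := div_le_self hc hN'
  refine near_small (by positivity) hN ?_
  refine (wd_bounds w).2.trans ((exp_sub_one_le (sz_nonneg w)).trans ?_)
  calc sz w * Real.exp (sz w) ≤ c / N * Real.exp c := by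
        gcongr
        exact hw.trans hcN
    _ = _ := by ring

/-- The layer hypothesis. -/
structure Lay (H : MM V) (β c : ℝ) (N : ℕ) (l : List (Lt V)) : Prop where
  sum : (l.map lg).sum = -((β / N : ℝ) • H)
  size : sz l ≤ c / N

lemma Lay.norm {H : MM V} {β c : ℝ} {N : ℕ} {l : List (Lt V)} (h : Lay H β c N l) (hN : 1 ≤ N) :
    ‖β • H‖ ≤ c := by
  have hN' : (0 : ℝ) < N := by exact_mod_cast hN
  have h1 : ‖(β / N : ℝ) • H‖ ≤ c / N := by
    rw [← norm_neg, ← h.sum]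
    exact (Disc.norm_sum_le _).trans h.size
  have h2 : β • H = (N : ℝ) • ((β / N : ℝ) • H) := by
    rw [smul_smul]; congr 1; field_simp
  rw [h2, norm_smul, Real.norm_natCast]
  calc (N : ℝ) * ‖(β / N : ℝ) • H‖ ≤ N * (c / N) := by gcongr
    _ = c := by field_simp

lemma norm_expH {H : MM V} {β c s : ℝ} (hβ : 0 < β) (hc : ‖β • H‖ ≤ c) (hs : |s| ≤ β) :
    ‖exp (-s • H)‖ ≤ Real.exp c := by
  refine (Trot.norm_exp_le one_norm _).trans (Real.exp_le_exp.2 ?_)
  have h2 : -s • H = (-s / β) • (β • H) := by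
    rw [smul_smul]; congr 1; field_simp
  rw [h2, norm_smul, Real.norm_eq_abs, abs_div, abs_neg, abs_of_pos hβ]
  have h3 : |s| / β ≤ 1 := by rw [div_le_one hβ]; exact hs
  calc |s| / β * ‖β • H‖ ≤ 1 * c := mul_le_mul h3 hc (norm_nonneg _) zero_le_one
    _ = c := one_mul c

lemma near_pow {H : MM V} {β c : ℝ} (hβ : 0 < β) (hc0 : 0 ≤ c) {N : ℕ} (hN : 1 ≤ N)
    {l : List (Lt V)} (h : Lay H β c N l) {r : ℕ} (hr : r ≤ N) :
    Near H ((1 + 2 * c ^ 2) * Real.exp (2 * c)) N (wd l ^ r) (r * (β / N)) := by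
  have hN' : (0 : ℝ) < N := by exact_mod_cast hN
  have hN1 : (1 : ℝ) ≤ N := by exact_mod_cast hN
  have hr' : (r : ℝ) ≤ N := by exact_mod_cast hr
  have hcN : c / N ≤ c := div_le_self hc0 hN1
  have hec : Real.exp c ≤ Real.exp (2 * c) := Real.exp_le_exp.2 (by linarith)
  have he1 : 0 < Real.exp (2 * c) := Real.exp_pos _
  refine ⟨?_, ?_, ?_⟩
  · have h1 : ‖wd l ^ r‖ ≤ Real.exp c := by
      have hM := (wd_bounds l).1.trans (Real.exp_le_exp.2 h.size)
      have : ‖wd l ^ r‖ ≤ Real.exp (c / N) ^ r := by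
        clear hr hr'
        induction r with
        | zero => rw [pow_zero, pow_zero]; exact one_norm
        | succ r ih =>
          rw [pow_succ, pow_succ]
          exact (norm_mul_le _ _).trans (mul_le_mul ih hM (norm_nonneg _) (by positivity))
      refine this.trans ?_
      rw [← Real.exp_nat_mul]
      apply Real.exp_le_exp.2
      calc (r : ℝ) * (c / N) ≤ N * (c / N) := by gcongr
        _ = c := by field_simp
    nlinarith [sq_nonneg c]
  · have h1 := norm_expH (s := r * (β / N)) hβ (h.norm hN) (by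
      rw [abs_of_nonneg (by positivity)]
      calc (r : ℝ) * (β / N) ≤ N * (β / N) := by gcongr
        _ = β := by field_simp)
    nlinarith [sq_nonneg c]
  · have hd := Disc.disc_bound (one_norm (V := V)) (l.map lg) (p := 1) (c := c / N) zero_le_one
      (by exact h.size) r
    have e1 : ((l.map lg).map fun x => 1 + (1 : ℝ) • x).prod = wd l := by
      rw [wd_eq]; congr 1
      refine List.map_congr_left fun x _ => ?_
      rw [one_smul]
    have e2 : ((r : ℝ) * 1) • (l.map lg).sum = -((r : ℝ) * (β / N)) • H := by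
      rw [h.sum, mul_one, smul_neg, smul_smul, neg_smul]
    rw [e1, e2, one_mul] at hd
    refine hd.trans ?_
    have e3 : ((r : ℝ) + 1) * (c / N) ≤ 2 * c := by
      have : ((r : ℝ) + 1) * (c / N) ≤ (N + N) * (c / N) := by gcongr
      have e4 : ((N : ℝ) + N) * (c / N) = 2 * c := by field_simp; ring
      linarith
    calc 2 * (r : ℝ) * (c / N) ^ 2 * Real.exp ((r + 1) * (c / N))
        ≤ 2 * N * (c / N) ^ 2 * Real.exp (2 * c) := by gcongr
      _ = 2 * c ^ 2 * Real.exp (2 * c) / N := by field_simp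
      _ ≤ (1 + 2 * c ^ 2) * Real.exp (2 * c) / N := by
        gcongr
        linarith

lemma near_shift {H : MM V} {β c : ℝ} (hβ : 0 < β) (hc0 : 0 ≤ c) (hH : ‖β • H‖ ≤ c) {N : ℕ}
    (hN : 1 ≤ N) {C s s' : ℝ} {M : MM V} (h : Near H C N M s) (hs' : |s'| ≤ β) {k : ℝ}
    (hk : 0 ≤ k) (hss : |s' - s| ≤ k * (β / N)) (hkN : k ≤ N) :
    Near H (C + C * (k * c * Real.exp c) + Real.exp c) N M s' := by
  have hN' : (0 : ℝ) < N := by exact_mod_cast hN
  have hC := h.pos
  have hec := Real.exp_pos c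
  have hX : 0 ≤ C * (k * c * Real.exp c) := by positivity
  refine ⟨h.1.trans (by linarith), (norm_expH hβ hH hs').trans (by linarith), ?_⟩
  have e0 : s' = s + (s' - s) := by ring
  have e1 : M - exp (-s' • H) = (M - exp (-s • H)) -
      exp (-s • H) * (exp (-(s' - s) • H) - 1) := by
    conv_lhs => rw [e0, exp_add_H]
    noncomm_ring
  have h1 : ‖exp (-(s' - s) • H) - 1‖ ≤ k * c * Real.exp c / N := by
    refine (Trot.norm_exp_sub_one_le _).trans ((exp_sub_one_le (norm_nonneg _)).trans ?_)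
    have h2 : -(s' - s) • H = (-(s' - s) / β) • (β • H) := by
      rw [smul_smul]; congr 1; field_simp
    have h3 : ‖-(s' - s) • H‖ ≤ k * c / N := by
      rw [h2, norm_smul, Real.norm_eq_abs, abs_div, abs_neg, abs_of_pos hβ]
      have h4 : |s' - s| / β ≤ k / N := by
        rw [div_le_iff₀ hβ]
        calc |s' - s| ≤ k * (β / N) := hss
          _ = k / N * β := by ring
      calc |s' - s| / β * ‖β • H‖ ≤ k / N * c :=
            mul_le_mul h4 hH (norm_nonneg _) (by positivity)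
        _ = _ := by ring
    have h5 : k * c / N ≤ c := by
      rw [div_le_iff₀ hN']
      nlinarith
    calc ‖-(s' - s) • H‖ * Real.exp ‖-(s' - s) • H‖ ≤ k * c / N * Real.exp c := by
          gcongr
          exact h3.trans h5
      _ = _ := by ring
  rw [e1]
  have h6 : ‖exp (-s • H) * (exp (-(s' - s) • H) - 1)‖ ≤ C * (k * c * Real.exp c / N) :=
    (norm_mul_le _ _).trans (mul_le_mul h.2.1 h1 (norm_nonneg _) hC)
  calc _ ≤ C / N + C * (k * c * Real.exp c / N) :=
        (norm_sub_le _ _).trans (add_le_add h.2.2 h6)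
    _ = (C + C * (k * c * Real.exp c)) / N := by ring
    _ ≤ _ := div_le_div_of_nonneg_right (by linarith) hN'.le

/-! ### Traces -/

/-- Entry `(0, 0)` (all up) of a product. -/
lemma entry_zero_mul {A B : MM V} (hA : Le 0 A) (hB : Le 0 B) (h1 : 1 ≤ A 0 0)
    (h2 : 1 ≤ B 0 0) : 1 ≤ (A * B) 0 0 := by
  rw [Matrix.mul_apply]
  have h3 : A 0 0 * B 0 0 ≤ ∑ j, A 0 j * B j 0 :=
    Finset.single_le_sum (f := fun j => A 0 j * B j 0)
      (fun j _ => mul_nonneg (hA 0 j) (hB j 0)) (mem_univ 0)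
  nlinarith

lemma mt_zero {l : Lt V} (h : Ok l) : 1 ≤ mt l 0 0 := by
  cases l with
  | gate a b p =>
    have : swapM a b (0 : V → Fin 2) 0 = 1 := by simp [swapM]
    change 1 ≤ ((1 - p) • (1 : MM V) + p • swapM a b) 0 0
    simp only [Matrix.add_apply, Matrix.smul_apply, Matrix.one_apply_eq, this, smul_eq_mul]
    linarith
  | node z t =>
    have h' : 0 ≤ t ∧ t ≤ 1 := h
    have : szM z (0 : V → Fin 2) 0 = 1 := by simp [szM]
    change 1 ≤ ((1 : MM V) + t • szM z) 0 0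
    simp only [Matrix.add_apply, Matrix.smul_apply, Matrix.one_apply_eq, this, smul_eq_mul]
    linarith [h'.1]

lemma wd_zero {w : List (Lt V)} (h : ∀ l ∈ w, Ok l) : 1 ≤ wd w 0 0 := by
  induction w with
  | nil => simp [wd]
  | cons l w ih =>
    rw [wd_cons]
    exact entry_zero_mul (mt_nonneg (h l (by simp))) (wd_nonneg fun l' hl' => h l' (by simp [hl']))
      (mt_zero (h l (by simp))) (ih fun l' hl' => h l' (by simp [hl']))

lemma trace_ge_entry {A : MM V} (hA : Le 0 A) : A 0 0 ≤ trace A := by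
  unfold Matrix.trace
  exact Finset.single_le_sum (f := fun i => A.diag i) (fun i _ => hA i i) (mem_univ 0)

lemma abs_trace_le (A : MM V) : |trace A| ≤ Fintype.card (V → Fin 2) * ‖A‖ := by
  unfold Matrix.trace
  calc |∑ i, A.diag i| ≤ ∑ i, |A.diag i| := Finset.abs_sum_le_sum_abs _ _
    _ ≤ ∑ _i : V → Fin 2, ‖A‖ := Finset.sum_le_sum fun i _ => Disc.entry_le_norm A i i
    _ = _ := by rw [Finset.sum_const, Finset.card_univ, nsmul_eq_mul]


/-- Comparison of the traces with an insertion. -/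
lemma insert_le {H T X : MM V} {C : ℝ} {N : ℕ} (hN : 1 ≤ N) {Lf Rt Fu : MM V} {s t β δ : ℝ}
    (hst : s + t = β) (hL : Near H C N Lf s) (hR : Near H C N Rt t) (hF : Near H C N Fu β)
    (hX : ‖X‖ ≤ 2) (hδ : 0 < δ)
    (hTX : trace (T * exp (-s • H) * X * exp (-t • H)) ≤
      δ * trace (T * exp (-s • H) * exp (-t • H)))
    (hF1 : 1 ≤ trace (Fu * T))
    (hNN : Fintype.card (V → Fin 2) * ‖T‖ * (δ * C + 4 * C ^ 2) ≤ δ * N) :
    trace (Lf * X * Rt * T) ≤ 2 * δ * trace (Fu * T) := by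
  have hN' : (0 : ℝ) < N := by exact_mod_cast hN
  have hC := hL.pos
  set κ : ℝ := (Fintype.card (V → Fin 2) : ℝ) with hκ
  have hκ0 : 0 ≤ κ := Nat.cast_nonneg _
  have hT := norm_nonneg T
  have e1 : trace (T * exp (-s • H) * X * exp (-t • H)) =
      trace (exp (-s • H) * X * exp (-t • H) * T) := by
    rw [Matrix.mul_assoc, Matrix.mul_assoc, Matrix.trace_mul_comm]
    congr 1
    simp only [Matrix.mul_assoc]
  have e2 : trace (T * exp (-s • H) * exp (-t • H)) = trace (exp (-β • H) * T) := by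
    rw [Matrix.mul_assoc, Matrix.trace_mul_comm, ← exp_add_H, hst]
  rw [e1, e2] at hTX
  have h1 : |trace (Lf * X * Rt * T) - trace (exp (-s • H) * X * exp (-t • H) * T)| ≤
      κ * ‖T‖ * (4 * C ^ 2) / N := by
    rw [← Matrix.trace_sub]
    refine (abs_trace_le _).trans ?_
    have e3 : Lf * X * Rt * T - exp (-s • H) * X * exp (-t • H) * T =
        ((Lf - exp (-s • H)) * X * Rt + exp (-s • H) * X * (Rt - exp (-t • H))) * T := by
      noncomm_ring
    have h2 : ‖(Lf - exp (-s • H)) * X * Rt‖ ≤ C / N * 2 * C := by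
      refine (norm_mul_le _ _).trans (mul_le_mul ?_ hR.1 (norm_nonneg _) (by positivity))
      exact (norm_mul_le _ _).trans (mul_le_mul hL.2.2 hX (norm_nonneg _) (by positivity))
    have h3 : ‖exp (-s • H) * X * (Rt - exp (-t • H))‖ ≤ C * 2 * (C / N) := by
      refine (norm_mul_le _ _).trans (mul_le_mul ?_ hR.2.2 (norm_nonneg _) (by positivity))
      exact (norm_mul_le _ _).trans (mul_le_mul hL.2.1 hX (norm_nonneg _) hC)
    have h4 : ‖Lf * X * Rt * T - exp (-s • H) * X * exp (-t • H) * T‖ ≤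
        (C / N * 2 * C + C * 2 * (C / N)) * ‖T‖ := by
      rw [e3]
      refine (norm_mul_le _ _).trans (mul_le_mul_of_nonneg_right ?_ hT)
      exact (norm_add_le _ _).trans (add_le_add h2 h3)
    calc κ * ‖Lf * X * Rt * T - exp (-s • H) * X * exp (-t • H) * T‖
        ≤ κ * ((C / N * 2 * C + C * 2 * (C / N)) * ‖T‖) := mul_le_mul_of_nonneg_left h4 hκ0
      _ = _ := by ring
  have h5 : |trace (Fu * T) - trace (exp (-β • H) * T)| ≤ κ * ‖T‖ * C / N := by
    rw [← Matrix.trace_sub, ← Matrix.sub_mul]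
    refine (abs_trace_le _).trans ?_
    calc κ * ‖(Fu - exp (-β • H)) * T‖ ≤ κ * (C / N * ‖T‖) :=
          mul_le_mul_of_nonneg_left ((norm_mul_le _ _).trans
            (mul_le_mul_of_nonneg_right hF.2.2 hT)) hκ0
      _ = _ := by ring
  have h6 := (abs_le.1 h1).2
  have h7 := (abs_le.1 h5).1
  have h8 : δ * (κ * ‖T‖ * C / N) + κ * ‖T‖ * (4 * C ^ 2) / N ≤ δ := by
    have e4 : δ * (κ * ‖T‖ * C / N) + κ * ‖T‖ * (4 * C ^ 2) / N =
        κ * ‖T‖ * (δ * C + 4 * C ^ 2) / N := by ring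
    rw [e4, div_le_iff₀ hN']
    exact hNN
  have h9 : δ * trace (exp (-β • H) * T) ≤ δ * (trace (Fu * T) + κ * ‖T‖ * C / N) :=
    mul_le_mul_of_nonneg_left (by linarith) hδ.le
  have h10 : δ * 1 ≤ δ * trace (Fu * T) := mul_le_mul_of_nonneg_left hF1 hδ.le
  linarith

/-! ### Splittings of the word -/

lemma HX_of_split (C : MM V) (B : ℝ) : ∀ (w : List (Lt V)) (Q : MM V),
    (∀ pre a b p post, w = pre ++ Lt.gate a b p :: post →
      trace (Q * wd pre * exM a b * (wd post * C)) ≤ B ∧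
      trace (Q * wd pre * neM a b * (wd post * C)) ≤ B) → HX C B w Q := by
  intro w
  induction w with
  | nil => intro Q _; trivial
  | cons l w ih =>
    intro Q h
    have h2 : HX C B w (Q * mt l) := by
      refine ih _ fun pre a b p post hw => ?_
      have := h (l :: pre) a b p post (by rw [hw]; rfl)
      rw [wd_cons, ← Matrix.mul_assoc Q (mt l) (wd pre)] at this
      exact this
    cases l with
    | gate a b p =>
      have := h [] a b p w rfl
      have e : wd ([] : List (Lt V)) = 1 := by simp [wd]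
      rw [e, Matrix.mul_one, ← Matrix.mul_assoc, ← Matrix.mul_assoc] at this
      exact ⟨this, h2⟩
    | node z t => exact h2

lemma split_rep {α : Type*} (lay : List α) (g : α) : ∀ (r : ℕ) (pre post : List α),
    (List.replicate r lay).flatten = pre ++ g :: post →
    ∃ (j : ℕ) (u v : List α), j < r ∧ lay = u ++ g :: v ∧
      pre = (List.replicate j lay).flatten ++ u ∧
      post = v ++ (List.replicate (r - 1 - j) lay).flatten := by
  intro r
  induction r with
  | zero =>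
    intro pre post h
    simp at h
  | succ r ih =>
    intro pre post h
    rw [List.replicate_succ, List.flatten_cons, List.append_eq_append_iff] at h
    rcases h with ⟨a', h1, h2⟩ | ⟨c', h1, h2⟩
    · obtain ⟨j, u, v, hj, h3, h4, h5⟩ := ih a' post h2
      refine ⟨j + 1, u, v, by omega, h3, ?_, ?_⟩
      · rw [h1, h4, List.replicate_succ, List.flatten_cons, List.append_assoc]
      · have e : r + 1 - 1 - (j + 1) = r - 1 - j := by omega
        rw [h5, e]
    · cases c' with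
      | nil =>
        rw [List.nil_append] at h2
        obtain ⟨j, u, v, hj, h3, h4, h5⟩ := ih [] post (by rw [List.nil_append]; exact h2.symm)
        have h6 := List.append_eq_nil_iff.1 h4.symm
        refine ⟨j + 1, u, v, by omega, h3, ?_, ?_⟩
        · rw [List.append_nil] at h1
          rw [List.replicate_succ, List.flatten_cons, h6.1, h6.2, List.append_nil,
            List.append_nil]
          exact h1.symm
        · have e : r + 1 - 1 - (j + 1) = r - 1 - j := by omega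
          rw [h5, e]
      | cons x c' =>
        rw [List.cons_append, List.cons.injEq] at h2
        obtain ⟨h3, h4⟩ := h2
        subst h3
        refine ⟨0, pre, c', by omega, h1, by simp, ?_⟩
        rw [h4]; congr 4

lemma wd_rep (l : List (Lt V)) (r : ℕ) : wd (List.replicate r l).flatten = wd l ^ r := by
  induction r with
  | zero => simp [wd]
  | succ r ih => rw [List.replicate_succ, List.flatten_cons, wd_append, ih, pow_succ']


/-! ### The theorem -/

lemma norm_swapM (a b : V) : ‖(swapM a b : MM V)‖ ≤ 1 := by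
  rw [Matrix.linfty_opNorm_def]
  have : ((Finset.univ : Finset (V → Fin 2)).sup fun i => ∑ j, ‖(swapM a b : MM V) i j‖₊) ≤ 1 := by
    refine Finset.sup_le fun i _ => ?_
    rw [Finset.sum_eq_single (i ∘ Equiv.swap a b)]
    · simp only [swapM, Matrix.of_apply]
      split_ifs <;> simp
    · intro j _ hj
      have : ¬ i = j ∘ Equiv.swap a b := by
        intro h
        apply hj
        rw [h]
        funext z
        simp
      simp [swapM, this]
    · simp
  exact_mod_cast this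

lemma norm_diag_le (d : (V → Fin 2) → ℝ) (hd : ∀ i, |d i| ≤ 1) :
    ‖(Matrix.diagonal d : MM V)‖ ≤ 1 := by
  rw [Matrix.linfty_opNorm_diagonal]
  exact (pi_norm_le_iff_of_nonneg zero_le_one).2 fun i => by rw [Real.norm_eq_abs]; exact hd i

lemma norm_eqM (a b : V) : ‖(eqM a b : MM V)‖ ≤ 1 :=
  norm_diag_le _ fun σ => by split_ifs <;> simp

lemma norm_exM (a b : V) : ‖(exM a b : MM V)‖ ≤ 2 := by
  unfold exM
  have := (norm_sub_le (swapM a b : MM V) (eqM a b)).trans
    (add_le_add (norm_swapM a b) (norm_eqM a b))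
  linarith

lemma norm_neM (a b : V) : ‖(neM a b : MM V)‖ ≤ 2 := by
  unfold neM
  have := (norm_sub_le (1 : MM V) (eqM a b)).trans (add_le_add one_norm (norm_eqM a b))
  linarith

/-- constants -/
def cA (c : ℝ) : ℝ := 1 + c + c * Real.exp c + (1 + 2 * c ^ 2) * Real.exp (2 * c)

lemma cA_bounds {c : ℝ} (hc : 0 ≤ c) : 1 ≤ cA c ∧ 1 + c ≤ cA c ∧ 1 + c * Real.exp c ≤ cA c ∧
    (1 + 2 * c ^ 2) * Real.exp (2 * c) ≤ cA c := by
  have h1 : 0 ≤ c * Real.exp c := by positivity
  have h2 : 0 ≤ (1 + 2 * c ^ 2) * Real.exp (2 * c) := by positivity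
  unfold cA
  exact ⟨by linarith, by linarith, by linarith, by linarith⟩

/-- the common constant -/
def cK (c : ℝ) : ℝ := 64 * cA c ^ 7 + 64 * cA c ^ 7 * (4 * c * Real.exp c) + Real.exp c

section shapes

variable {H : MM V} {β c : ℝ} {N : ℕ} {lay : List (Lt V)}

lemma near_left (hβ : 0 < β) (hc : 0 ≤ c) (hN : 1 ≤ N) (hl : Lay H β c N lay) {D1 : MM V}
    (hD1 : ‖D1 - 1‖ ≤ c / N) {g1 u : List (Lt V)} (hg1 : sz g1 ≤ c / N) (hu : sz u ≤ c / N)
    {a j : ℕ} (ha : a ≤ N) (hj : j ≤ N) :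
    Near H (16 * cA c ^ 5) N (wd lay ^ a * D1 * wd g1 * wd lay ^ j * wd u)
      ((a + j : ℕ) * (β / N)) := by
  obtain ⟨b1, b2, b3, b4⟩ := cA_bounds hc
  have h1 := ((((near_pow hβ hc hN hl ha).mono b4).mul ((near_small hc hN hD1).mono b2)).mul
    ((near_wd hc hN hg1).mono b3)).mul ((near_pow hβ hc hN hl hj).mono b4)
  have h2 := h1.mul ((near_wd hc hN hu).mono b3)
  have e1 : (a : ℝ) * (β / N) + 0 + 0 + j * (β / N) + 0 = ((a + j : ℕ) : ℝ) * (β / N) := by
    push_cast; ring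
  have e2 : 2 * (2 * (2 * (2 * (cA c * cA c) * cA c) * cA c) * cA c) = 16 * cA c ^ 5 := by ring
  rw [e1, e2] at h2
  exact h2

lemma near_right (hβ : 0 < β) (hc : 0 ≤ c) (hN : 1 ≤ N) (hl : Lay H β c N lay) {D2 : MM V}
    (hD2 : ‖D2 - 1‖ ≤ c / N) {v : List (Lt V)} (hv : sz v ≤ c / N)
    {r b : ℕ} (hr : r ≤ N) (hb : b ≤ N) :
    Near H (8 * cA c ^ 4) N (wd v * wd lay ^ r * D2 * wd lay ^ b) ((r + b : ℕ) * (β / N)) := by
  obtain ⟨b1, b2, b3, b4⟩ := cA_bounds hc
  have h2 := ((((near_wd hc hN hv).mono b3).mul ((near_pow hβ hc hN hl hr).mono b4)).mul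
    ((near_small hc hN hD2).mono b2)).mul ((near_pow hβ hc hN hl hb).mono b4)
  have e1 : 0 + (r : ℝ) * (β / N) + 0 + b * (β / N) = ((r + b : ℕ) : ℝ) * (β / N) := by
    push_cast; ring
  have e2 : 2 * (2 * (2 * (cA c * cA c) * cA c) * cA c) = 8 * cA c ^ 4 := by ring
  rw [e1, e2] at h2
  exact h2

lemma near_full (hβ : 0 < β) (hc : 0 ≤ c) (hN : 1 ≤ N) (hl : Lay H β c N lay) {D1 D2 : MM V}
    (hD1 : ‖D1 - 1‖ ≤ c / N) (hD2 : ‖D2 - 1‖ ≤ c / N) {g1 : List (Lt V)} (hg1 : sz g1 ≤ c / N)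
    {a r b : ℕ} (ha : a ≤ N) (hr : r ≤ N) (hb : b ≤ N) :
    Near H (32 * cA c ^ 6) N (wd lay ^ a * D1 * wd g1 * wd lay ^ r * D2 * wd lay ^ b)
      ((a + r + b : ℕ) * (β / N)) := by
  obtain ⟨b1, b2, b3, b4⟩ := cA_bounds hc
  have h1 := ((((near_pow hβ hc hN hl ha).mono b4).mul ((near_small hc hN hD1).mono b2)).mul
    ((near_wd hc hN hg1).mono b3)).mul ((near_pow hβ hc hN hl hr).mono b4)
  have h2 := (h1.mul ((near_small hc hN hD2).mono b2)).mul ((near_pow hβ hc hN hl hb).mono b4)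
  have e1 : (a : ℝ) * (β / N) + 0 + 0 + r * (β / N) + 0 + b * (β / N) =
      ((a + r + b : ℕ) : ℝ) * (β / N) := by
    push_cast; ring
  have e2 : 2 * (2 * (2 * (2 * (2 * (cA c * cA c) * cA c) * cA c) * cA c) * cA c) =
      32 * cA c ^ 6 := by ring
  rw [e1, e2] at h2
  exact h2

end shapes


lemma cK_bounds {c : ℝ} (hc : 0 ≤ c) {C : ℝ} (_hC0 : 0 ≤ C) (hC : C ≤ 64 * cA c ^ 7) {k : ℝ}
    (hk : 0 ≤ k) (hk4 : k ≤ 4) :
    C + C * (k * c * Real.exp c) + Real.exp c ≤ cK c := by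
  unfold cK
  have h1 : 0 ≤ c * Real.exp c := by positivity
  have h2 : k * c * Real.exp c ≤ 4 * c * Real.exp c := by nlinarith
  have h3 : 0 ≤ 4 * c * Real.exp c := by positivity
  have h4 : C * (k * c * Real.exp c) ≤ 64 * cA c ^ 7 * (4 * c * Real.exp c) :=
    mul_le_mul hC h2 (by positivity) (_hC0.trans hC)
  linarith

lemma core {H T X : MM V} {β c δ : ℝ} (hβ : 0 < β) (hc : 0 ≤ c) (hδ : 0 < δ) {N : ℕ}
    (hN : 4 ≤ N) (hX : ‖X‖ ≤ 2) (hT0 : Le 0 T) (hT1 : 1 ≤ T 0 0)
    (hTX : ∀ s t : ℝ, 0 ≤ s → 0 ≤ t → s + t = β →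
      trace (T * exp (-s • H) * X * exp (-t • H)) ≤ δ * trace (T * exp (-s • H) * exp (-t • H)))
    {lay : List (Lt V)} (hl : Lay H β c N lay) (hok : ∀ l ∈ lay, Ok l) {D1 D2 : MM V}
    (hD1 : ‖D1 - 1‖ ≤ c / N) (hD2 : ‖D2 - 1‖ ≤ c / N) (hD10 : Le 0 D1) (hD20 : Le 0 D2)
    (hD11 : 1 ≤ D1 0 0) (hD21 : 1 ≤ D2 0 0) {g0 g1 u v : List (Lt V)} (hg0 : sz g0 ≤ c / N)
    (hg1 : sz g1 ≤ c / N) (hu : sz u ≤ c / N) (hv : sz v ≤ c / N) (hok0 : ∀ l ∈ g0, Ok l)
    {a j r r' b : ℕ} (h1 : a + j + r' + b ≤ N) (h2 : N ≤ a + j + r' + b + 4)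
    (h3 : a + r + b ≤ N) (h4 : N ≤ a + r + b + 3)
    (hNN : Fintype.card (V → Fin 2) * ‖T‖ * (δ * cK c + 4 * cK c ^ 2) ≤ δ * N) :
    trace ((wd lay ^ a * D1 * wd g1 * wd lay ^ j * wd u) * X *
      (wd v * wd lay ^ r' * D2 * wd lay ^ b) * T) ≤
      2 * δ * trace ((wd lay ^ a * D1 * wd g0 * wd lay ^ r * D2 * wd lay ^ b) * T) := by
  have hN1 : 1 ≤ N := by omega
  have hN' : (0 : ℝ) < N := by exact_mod_cast (by omega : 0 < N)
  have hN4 : (4 : ℝ) ≤ N := by exact_mod_cast hN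
  have hβN : 0 < β / N := by positivity
  have hH := hl.norm hN1
  obtain ⟨cb, _, _, _⟩ := cA_bounds hc
  have hp : ∀ m : ℕ, m ≤ 7 → cA c ^ m ≤ cA c ^ 7 := fun m hm => pow_le_pow_right₀ cb hm
  have hp0 : ∀ m : ℕ, 0 ≤ cA c ^ m := fun m => pow_nonneg (by linarith) m
  have hL := near_left hβ hc hN1 hl hD1 hg1 hu (a := a) (j := j) (by omega) (by omega)
  have hR := near_right hβ hc hN1 hl hD2 hv (r := r') (b := b) (by omega) (by omega)
  have hF := near_full hβ hc hN1 hl hD1 hD2 hg0 (a := a) (r := r) (b := b) (by omega) (by omega)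
    (by omega)
  set s : ℝ := ((a + j : ℕ) : ℝ) * (β / N) with hs
  have hs0 : 0 ≤ s := by positivity
  have haj : ((a + j : ℕ) : ℝ) ≤ N := by exact_mod_cast (by omega : a + j ≤ N)
  have eNβ : (N : ℝ) * (β / N) = β := by field_simp
  have hsβ : s ≤ β := by
    calc s ≤ N * (β / N) := mul_le_mul_of_nonneg_right haj hβN.le
      _ = β := eNβ
  have hR' : Near H (cK c) N (wd v * wd lay ^ r' * D2 * wd lay ^ b) (β - s) := by
    refine (near_shift hβ hc hH hN1 hR (s' := β - s) (k := 4) ?_ (by norm_num) ?_ hN4).mono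
      (cK_bounds hc (by have := hp0 4; positivity) ?_ (by norm_num) le_rfl)
    · rw [abs_of_nonneg (by linarith)]; linarith
    · have e1 : β - s - ((r' + b : ℕ) : ℝ) * (β / N) =
          ((N : ℝ) - ((a + j + r' + b : ℕ) : ℝ)) * (β / N) := by
        rw [hs]; push_cast; linarith [eNβ]
      rw [e1, abs_mul, abs_of_pos hβN]
      refine mul_le_mul_of_nonneg_right ?_ hβN.le
      have q1 : ((a + j + r' + b : ℕ) : ℝ) ≤ N := by exact_mod_cast h1
      have q2 : (N : ℝ) ≤ ((a + j + r' + b : ℕ) : ℝ) + 4 := by exact_mod_cast h2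
      rw [abs_of_nonneg (by linarith)]
      linarith
    · have := hp 4 (by norm_num); have := hp0 4; linarith
  have hF' : Near H (cK c) N (wd lay ^ a * D1 * wd g0 * wd lay ^ r * D2 * wd lay ^ b) β := by
    refine (near_shift hβ hc hH hN1 hF (s' := β) (k := 4) ?_ (by norm_num) ?_ hN4).mono
      (cK_bounds hc (by have := hp0 6; positivity) ?_ (by norm_num) le_rfl)
    · rw [abs_of_pos hβ]
    · have e1 : β - ((a + r + b : ℕ) : ℝ) * (β / N) =
          ((N : ℝ) - ((a + r + b : ℕ) : ℝ)) * (β / N) := by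
        rw [sub_mul, eNβ]
      rw [e1, abs_mul, abs_of_pos hβN]
      refine mul_le_mul_of_nonneg_right ?_ hβN.le
      have q1 : ((a + r + b : ℕ) : ℝ) ≤ N := by exact_mod_cast h3
      have q2 : (N : ℝ) ≤ ((a + r + b : ℕ) : ℝ) + 3 := by exact_mod_cast h4
      rw [abs_of_nonneg (by linarith)]
      linarith
    · have := hp 6 (by norm_num); have := hp0 6; linarith
  have hL' : Near H (cK c) N (wd lay ^ a * D1 * wd g1 * wd lay ^ j * wd u) s := by
    refine hL.mono ?_
    have h5 := cK_bounds hc (C := 16 * cA c ^ 5) (by have := hp0 5; positivity)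
      (by have := hp 5 (by norm_num); have := hp0 5; linarith) (k := 0) le_rfl (by norm_num)
    have h6 := Real.exp_pos c
    have h7 := hp0 5
    nlinarith
  -- positivity
  have wpow : ∀ n : ℕ, Le 0 (wd lay ^ n) ∧ 1 ≤ (wd lay ^ n) 0 0 := by
    intro n
    have : ∀ l ∈ (List.replicate n lay).flatten, Ok l := by
      intro l hl'
      rw [List.mem_flatten] at hl'
      obtain ⟨l', hl1, hl2⟩ := hl'
      rw [List.mem_replicate] at hl1
      rw [hl1.2] at hl2
      exact hok l hl2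
    rw [← wd_rep]
    exact ⟨wd_nonneg this, wd_zero this⟩
  have hg : Le 0 (wd g0) ∧ 1 ≤ wd g0 0 0 := ⟨wd_nonneg hok0, wd_zero hok0⟩
  have p1 : Le 0 (wd lay ^ a * D1) ∧ 1 ≤ (wd lay ^ a * D1) 0 0 :=
    ⟨(wpow a).1.zero_mul hD10, entry_zero_mul (wpow a).1 hD10 (wpow a).2 hD11⟩
  have p2 : Le 0 (wd lay ^ a * D1 * wd g0) ∧ 1 ≤ (wd lay ^ a * D1 * wd g0) 0 0 :=
    ⟨p1.1.zero_mul hg.1, entry_zero_mul p1.1 hg.1 p1.2 hg.2⟩
  have p3 : Le 0 (wd lay ^ a * D1 * wd g0 * wd lay ^ r) ∧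
      1 ≤ (wd lay ^ a * D1 * wd g0 * wd lay ^ r) 0 0 :=
    ⟨p2.1.zero_mul (wpow r).1, entry_zero_mul p2.1 (wpow r).1 p2.2 (wpow r).2⟩
  have p4 : Le 0 (wd lay ^ a * D1 * wd g0 * wd lay ^ r * D2) ∧
      1 ≤ (wd lay ^ a * D1 * wd g0 * wd lay ^ r * D2) 0 0 :=
    ⟨p3.1.zero_mul hD20, entry_zero_mul p3.1 hD20 p3.2 hD21⟩
  have p5 : Le 0 (wd lay ^ a * D1 * wd g0 * wd lay ^ r * D2 * wd lay ^ b) ∧
      1 ≤ (wd lay ^ a * D1 * wd g0 * wd lay ^ r * D2 * wd lay ^ b) 0 0 :=
    ⟨p4.1.zero_mul (wpow b).1, entry_zero_mul p4.1 (wpow b).1 p4.2 (wpow b).2⟩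
  have hF1 : 1 ≤ trace ((wd lay ^ a * D1 * wd g0 * wd lay ^ r * D2 * wd lay ^ b) * T) :=
    (entry_zero_mul p5.1 hT0 p5.2 hT1).trans (trace_ge_entry (p5.1.zero_mul hT0))
  exact insert_le hN1 (s := s) (t := β - s) (β := β) (by ring) hL' hR' hF' hX hδ
    (hTX s (β - s) hs0 (by linarith) (by ring)) hF1 hNN

/-- **General form.** -/
theorem gen {β c CT δ : ℝ} (hβ : 0 < β) (hc : 0 ≤ c) (hδ : 0 < δ) :
    ∃ N0 : ℕ, ∀ N : ℕ, N0 ≤ N → ∀ H T X : MM V, ‖X‖ ≤ 2 → ‖T‖ ≤ CT → Le 0 T → 1 ≤ T 0 0 →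
      (∀ s t : ℝ, 0 ≤ s → 0 ≤ t → s + t = β →
        trace (T * exp (-s • H) * X * exp (-t • H)) ≤
          δ * trace (T * exp (-s • H) * exp (-t • H))) →
      ∀ lay gt : List (Lt V), Lay H β c N lay → sz gt ≤ c / N → (∀ l ∈ lay, Ok l) →
      (∀ l ∈ gt, Ok l) →
      ∀ D1 D2 : MM V, ‖D1 - 1‖ ≤ c / N → ‖D2 - 1‖ ≤ c / N → Le 0 D1 → Le 0 D2 →
      1 ≤ D1 0 0 → 1 ≤ D2 0 0 → ∀ a r b : ℕ, a + r + b ≤ N → N ≤ a + r + b + 3 →
      ∀ (w1 : List (Lt V)) (g : Lt V) (w2 : List (Lt V)),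
      gt ++ (List.replicate r lay).flatten = w1 ++ g :: w2 →
      trace (wd lay ^ a * D1 * wd w1 * X * wd w2 * (D2 * wd lay ^ b * T)) ≤
        2 * δ * trace (wd lay ^ a * D1 *
          wd (gt ++ (List.replicate r lay).flatten) * (D2 * wd lay ^ b * T)) := by
  obtain ⟨N1, hN1⟩ := exists_nat_gt
    ((Fintype.card (V → Fin 2) : ℝ) * CT * (δ * cK c + 4 * cK c ^ 2) / δ)
  refine ⟨N1 + 4, ?_⟩
  intro N hN H T X hX hT hT0 hT1 hTX lay gt hl hgt hok hokg D1 D2 hD1 hD2 hD10 hD20 hD11 hD21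
    a r b h1 h2 w1 g w2 hw
  have hcK : 0 ≤ cK c := by
    obtain ⟨cb, _, _, _⟩ := cA_bounds hc
    unfold cK
    have := pow_nonneg (by linarith : 0 ≤ cA c) 7
    positivity
  have hNN : (Fintype.card (V → Fin 2) : ℝ) * ‖T‖ * (δ * cK c + 4 * cK c ^ 2) ≤ δ * N := by
    have h3 : (Fintype.card (V → Fin 2) : ℝ) * CT * (δ * cK c + 4 * cK c ^ 2) ≤ δ * N1 := by
      rw [div_lt_iff₀ hδ] at hN1
      linarith
    have h4 : (N1 : ℝ) ≤ N := by exact_mod_cast (by omega : N1 ≤ N)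
    have h5 : (Fintype.card (V → Fin 2) : ℝ) * ‖T‖ * (δ * cK c + 4 * cK c ^ 2) ≤
        (Fintype.card (V → Fin 2) : ℝ) * CT * (δ * cK c + 4 * cK c ^ 2) := by
      gcongr
    have h6 : δ * (N1 : ℝ) ≤ δ * N := mul_le_mul_of_nonneg_left h4 hδ.le
    linarith
  have hsz : sz lay ≤ c / N := hl.size
  have hfull : wd lay ^ a * D1 * wd (gt ++ (List.replicate r lay).flatten) *
      (D2 * wd lay ^ b * T) =
      (wd lay ^ a * D1 * wd gt * wd lay ^ r * D2 * wd lay ^ b) * T := by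
    rw [wd_append, wd_rep]
    simp only [Matrix.mul_assoc]
  rw [hfull]
  have hnil : sz ([] : List (Lt V)) ≤ c / N := by
    have : sz ([] : List (Lt V)) = 0 := by simp [sz]
    rw [this]
    positivity
  have hwnil : wd ([] : List (Lt V)) = 1 := by simp [wd]
  -- the case inside a later layer
  have later : ∀ a' : List (Lt V), w1 = gt ++ a' →
      (List.replicate r lay).flatten = a' ++ g :: w2 →
      trace (wd lay ^ a * D1 * wd w1 * X * wd w2 * (D2 * wd lay ^ b * T)) ≤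
        2 * δ * trace ((wd lay ^ a * D1 * wd gt * wd lay ^ r * D2 * wd lay ^ b) * T) := by
    intro a' e1 e2
    obtain ⟨j, u, v, hj, h3, h4, h5⟩ := split_rep lay g r a' w2 e2
    have hsp : sz lay = sz u + (sz [g] + sz v) := by
      rw [h3, show u ++ g :: v = u ++ ([g] ++ v) from rfl, sz_append, sz_append]
    have hu0 := sz_nonneg u
    have hv0 := sz_nonneg v
    have hg0 := sz_nonneg [g]
    have key := core hβ hc hδ (N := N) (by omega) hX hT0 hT1 hTX hl hok hD1 hD2 hD10 hD20 hD11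
      hD21 (g0 := gt) (g1 := gt) (u := u) (v := v) hgt hgt (by linarith) (by linarith) hokg
      (a := a) (j := j) (r := r) (r' := r - 1 - j) (b := b) (by omega) (by omega) h1 h2 hNN
    have e3 : wd lay ^ a * D1 * wd w1 * X * wd w2 * (D2 * wd lay ^ b * T) =
        (wd lay ^ a * D1 * wd gt * wd lay ^ j * wd u) * X *
          (wd v * wd lay ^ (r - 1 - j) * D2 * wd lay ^ b) * T := by
      rw [e1, h4, h5, wd_append, wd_append, wd_append, wd_rep, wd_rep]
      simp only [Matrix.mul_assoc]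
    rw [e3]
    exact key
  rw [List.append_eq_append_iff] at hw
  rcases hw with ⟨a', e1, e2⟩ | ⟨c', e1, e2⟩
  · exact later a' e1 e2
  · cases c' with
    | nil =>
      rw [List.nil_append] at e2
      rw [List.append_nil] at e1
      exact later [] (by rw [List.append_nil]; exact e1.symm)
        (by rw [List.nil_append]; exact e2.symm)
    | cons x c' =>
      rw [List.cons_append, List.cons.injEq] at e2
      obtain ⟨e3, e4⟩ := e2
      have hsp : sz gt = sz w1 + (sz [x] + sz c') := by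
        rw [e1, show w1 ++ x :: c' = w1 ++ ([x] ++ c') from rfl, sz_append, sz_append]
      have hu0 := sz_nonneg w1
      have hv0 := sz_nonneg c'
      have hg0 := sz_nonneg [x]
      have key := core hβ hc hδ (N := N) (by omega) hX hT0 hT1 hTX hl hok hD1 hD2 hD10 hD20
        hD11 hD21 (g0 := gt) (g1 := w1) (u := []) (v := c') hgt (by linarith) hnil
        (by linarith) hokg (a := a) (j := 0) (r := r) (r' := r) (b := b) (by omega) (by omega)
        h1 h2 hNN
      have e5 : wd lay ^ a * D1 * wd w1 * X * wd w2 * (D2 * wd lay ^ b * T) =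
          (wd lay ^ a * D1 * wd w1 * wd lay ^ 0 * wd []) * X *
            (wd c' * wd lay ^ r * D2 * wd lay ^ b) * T := by
        rw [e4, wd_append, wd_rep, hwnil, pow_zero]
        simp only [Matrix.mul_assoc, Matrix.mul_one, Matrix.one_mul]
      rw [e5]
      exact key

end

end Vale.Agent.P361.LRO.Bloch.Delta
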