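import Vale.Agent.P361.LRO.Bloch.LongLoc
import Vale.Agent.P361.LRO.Dict.Limit

/-!
P361, stage R2/R3: long windows, lower bound for the conductance `cc` of the physical circuit.
-/

namespace Vale.Agent.P361.LRO.Bloch

open Finset Matrix Vale.Agent.P361.LRO.Dict

set_option linter.unusedSectionVars false

noncomputable section

variable {V : Type} [Fintype V] [DecidableEq V]

/-! ### Words -/

/-- gates of one layer, in the order of `Dict.gatM` -/
def gl (L : List (V × V)) (p : ℝ) : List (Lt V) := L.reverse.map fun e => Lt.gate e.1 e.2 p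

/-- slices of one layer -/
def nl (t : V → ℝ) : List (Lt V) := (Finset.univ : Finset V).toList.map fun z => Lt.node z (t z)

theorem wd_append (w w' : List (Lt V)) : wd (w ++ w') = wd w * wd w' := by
  unfold wd
  rw [List.map_append, List.prod_append]

theorem wd_gl (L : List (V × V)) (p : ℝ) : wd (gl L p) = gatM L p := by
  unfold wd gl gatM
  rw [List.map_map]
  rfl

theorem wd_nl (t : V → ℝ) : wd (nl t) = layM fun x => dgM (t x) := by
  unfold wd nl
  rw [List.map_map, layM_dgM]
  have h := prod_diag (Finset.univ : Finset V).toList t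
  have e : (List.map (mt ∘ fun z => Lt.node z (t z)) (Finset.univ : Finset V).toList) =
      (Finset.univ : Finset V).toList.map fun x =>
        (1 : Matrix (V → Fin 2) (V → Fin 2) ℝ) + t x • szM x := rfl
  rw [e, h]
  congr 1
  funext σ
  exact Finset.prod_map_toList _ _

/-- The letters strictly between the layers `k + m + 1` and `k` (`t j` = slices of the layer
`k + j`). -/
def mid (L : List (V × V)) (p : ℝ) (t : ℕ → V → ℝ) : ℕ → List (Lt V)
  | 0 => gl L p
  | m + 1 => gl L p ++ (nl (t (m + 1)) ++ mid L p t m)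

/-- gates only -/
def glr (L : List (V × V)) (p : ℝ) : ℕ → List (Lt V)
  | 0 => gl L p
  | m + 1 => gl L p ++ glr L p m

theorem wd_mid (L : List (V × V)) (p : ℝ) (t : ℕ → V → ℝ) (m : ℕ) :
    wd (mid L p t m) = gatM L p * down (fun j => layM (fun x => dgM (t j x)) * gatM L p) m := by
  induction m with
  | zero => simp only [mid, down, wd_gl, mul_one]
  | succ m ih =>
    simp only [mid, down]
    rw [wd_append, wd_append, wd_gl, wd_nl, ih]
    simp only [Matrix.mul_assoc]

theorem ok_gl (L : List (V × V)) {p : ℝ} (h0 : 0 ≤ p) (h1 : p ≤ 1) : ∀ l ∈ gl L p, Ok l := by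
  intro l hl
  unfold gl at hl
  rw [List.mem_map] at hl
  obtain ⟨e, _, rfl⟩ := hl
  exact ⟨h0, h1⟩

theorem ok_nl {t : V → ℝ} (ht : ∀ x, 0 ≤ t x ∧ t x ≤ 1) : ∀ l ∈ nl t, Ok l := by
  intro l hl
  unfold nl at hl
  rw [List.mem_map] at hl
  obtain ⟨z, _, rfl⟩ := hl
  exact ht z

theorem ok_mid (L : List (V × V)) {p : ℝ} (h0 : 0 ≤ p) (h1 : p ≤ 1) {t : ℕ → V → ℝ}
    (ht : ∀ j x, 0 ≤ t j x ∧ t j x ≤ 1) (m : ℕ) : ∀ l ∈ mid L p t m, Ok l := by
  induction m with
  | zero => exact ok_gl L h0 h1
  | succ m ih =>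
    intro l hl
    simp only [mid, List.mem_append] at hl
    rcases hl with hl | hl | hl
    · exact ok_gl L h0 h1 l hl
    · exact ok_nl (ht _) l hl
    · exact ih l hl

/-! ### The walk without the slices -/

theorem stq_mono {l : Lt V} (hl : Ok l) {q q' : V → ℕ → ℝ} (h : ∀ y j, q y j ≤ q' y j) (y : V)
    (j : ℕ) : stq l q y j ≤ stq l q' y j := by
  cases l with
  | gate a b p =>
    have hp := hl
    simp only [Ok] at hp
    simp only [stq]
    split_ifs with h1 h2
    · have := mul_le_mul_of_nonneg_left (h y j) (by linarith [hp.2] : 0 ≤ 1 - p)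
      linarith
    · exact add_le_add (mul_le_mul_of_nonneg_left (h y j) (by linarith [hp.2]))
        (mul_le_mul_of_nonneg_left (h _ _) hp.1)
    · exact h y j
  | node z t =>
    have hp := hl
    simp only [Ok] at hp
    simp only [stq]
    split_ifs with h1
    · exact mul_le_mul_of_nonneg_left (h y j) (div_nonneg (by linarith [hp.2]) (by linarith [hp.1]))
    · exact h y j

theorem qq_mono {w : List (Lt V)} (hw : ∀ l ∈ w, Ok l) {q q' : V → ℕ → ℝ}
    (h : ∀ y j, q y j ≤ q' y j) (y : V) (j : ℕ) : qq w q y j ≤ qq w q' y j := by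
  induction w generalizing q q' with
  | nil => exact h y j
  | cons l w ih =>
    simp only [qq]
    exact ih (fun l' hl' => hw l' (by simp [hl'])) fun y j => stq_mono (hw l (by simp)) h y j

theorem qq_nonneg {w : List (Lt V)} (hw : ∀ l ∈ w, Ok l) {q : V → ℕ → ℝ}
    (h : ∀ y j, 0 ≤ q y j) (y : V) (j : ℕ) : 0 ≤ qq w q y j := by
  induction w generalizing q with
  | nil => exact h y j
  | cons l w ih =>
    simp only [qq]
    exact ih (fun l' hl' => hw l' (by simp [hl'])) fun y j => stq_nonneg (hw l (by simp)) h y j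

theorem stq_smul (l : Lt V) (c : ℝ) (q : V → ℕ → ℝ) :
    stq l (fun y j => c * q y j) = fun y j => c * stq l q y j := by
  funext y j
  cases l with
  | gate a b p =>
    simp only [stq]
    split_ifs <;> ring
  | node z t =>
    simp only [stq]
    split_ifs <;> ring

theorem qq_smul (w : List (Lt V)) (c : ℝ) (q : V → ℕ → ℝ) :
    qq w (fun y j => c * q y j) = fun y j => c * qq w q y j := by
  induction w generalizing q with
  | nil => rfl
  | cons l w ih =>
    simp only [qq]
    rw [stq_smul, ih]

theorem qq_append (w w' : List (Lt V)) (q : V → ℕ → ℝ) : qq (w ++ w') q = qq w' (qq w q) := by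
  induction w generalizing q with
  | nil => rfl
  | cons l w ih =>
    rw [List.cons_append]
    simp only [qq]
    exact ih _

/-- the walk along the slices of one layer -/
theorem qq_nl (t : V → ℝ) (l : List V) (hl : l.Nodup) (q : V → ℕ → ℝ) :
    qq (l.map fun z => Lt.node z (t z)) q =
      fun y j => if y ∈ l then (1 - t y) / (1 + t y) * q y j else q y j := by
  induction l generalizing q with
  | nil =>
    funext y j
    simp [qq]
  | cons z l ih =>
    rw [List.map_cons]
    simp only [qq]
    rw [ih (List.nodup_cons.1 hl).2]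
    funext y j
    have hz := (List.nodup_cons.1 hl).1
    by_cases h1 : y = z
    · subst h1
      simp [hz, stq]
    · simp [h1, stq]

theorem qq_nl_ge {t : V → ℝ} (ht : ∀ x, 0 ≤ t x ∧ t x ≤ 1) {τ : ℝ} (hτ : ∀ x, t x ≤ τ)
    {q : V → ℕ → ℝ} (hq : ∀ y j, 0 ≤ q y j) (y : V) (j : ℕ) :
    (1 - τ) / (1 + τ) * q y j ≤ qq (nl t) q y j := by
  unfold nl
  rw [qq_nl t _ (Finset.nodup_toList _) q]
  simp only [Finset.mem_toList, Finset.mem_univ, if_true]
  refine mul_le_mul_of_nonneg_right ?_ (hq y j)
  have h1 := ht y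
  have h2 := hτ y
  rw [div_le_div_iff₀ (by linarith) (by linarith)]
  nlinarith

theorem qq_mid_ge (L : List (V × V)) {p : ℝ} (h0 : 0 ≤ p) (h1 : p ≤ 1) {t : ℕ → V → ℝ}
    (ht : ∀ j x, 0 ≤ t j x ∧ t j x ≤ 1) {τ : ℝ} (hτ1 : τ ≤ 1) (m : ℕ)
    (hτ : ∀ j x, 1 ≤ j → j ≤ m → t j x ≤ τ) {q : V → ℕ → ℝ} (hq : ∀ y j, 0 ≤ q y j) (y : V)
    (j : ℕ) : ((1 - τ) / (1 + τ)) ^ m * qq (glr L p m) q y j ≤ qq (mid L p t m) q y j := by
  induction m generalizing q y j with
  | zero => simp [glr, mid]
  | succ m ih =>
    simp only [glr, mid]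
    rw [qq_append, qq_append, qq_append]
    have hτ0 : 0 ≤ τ := le_trans (ht 1 y).1 (hτ 1 y le_rfl (by omega))
    have hρ : 0 ≤ (1 - τ) / (1 + τ) := div_nonneg (by linarith) (by linarith)
    have hq1 : ∀ y j, 0 ≤ qq (gl L p) q y j := fun y j => qq_nonneg (ok_gl L h0 h1) hq y j
    have hq2 : ∀ y j, 0 ≤ qq (nl (t (m + 1))) (qq (gl L p) q) y j :=
      fun y j => qq_nonneg (ok_nl (ht _)) hq1 y j
    have h2 := ih (fun j x hj hjm => hτ j x hj (by omega)) hq2 y j
    refine le_trans ?_ h2
    have hok : ∀ m, ∀ l ∈ glr L p m, Ok l := by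
      intro m
      induction m with
      | zero => exact ok_gl L h0 h1
      | succ m ih' =>
        intro l hl
        simp only [glr, List.mem_append] at hl
        rcases hl with hl | hl
        · exact ok_gl L h0 h1 l hl
        · exact ih' l hl
    have h3 := qq_mono (hok m) (q := fun y j => (1 - τ) / (1 + τ) * qq (gl L p) q y j)
      (q' := qq (nl (t (m + 1))) (qq (gl L p) q))
      (fun y j => qq_nl_ge (ht _) (fun x => hτ (m + 1) x (by omega) le_rfl) hq1 y j) y j
    rw [qq_smul] at h3
    have h4 := mul_le_mul_of_nonneg_left h3 (pow_nonneg hρ m)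
    calc ((1 - τ) / (1 + τ)) ^ (m + 1) * qq (glr L p m) (qq (gl L p) q) y j
        = ((1 - τ) / (1 + τ)) ^ m * ((1 - τ) / (1 + τ) * qq (glr L p m) (qq (gl L p) q) y j) := by
          rw [pow_succ]; ring
      _ ≤ _ := h4

/-! ### The potential -/

theorem Pot_mono {c : ℝ} {w : List (Lt V)} {a b a' : V → ℝ} (h : ∀ y, a y ≤ b y)
    (hb : Pot c w b a') : Pot c w a a' := by
  induction w generalizing a b with
  | nil => exact fun y => (h y).trans (hb y)
  | cons l w ih =>
    cases l with
    | gate x y p =>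
      obtain ⟨a1, h1, h2, h3⟩ := hb
      exact ⟨a1, fun v hv => ⟨by linarith [(h1 v hv).1, h v],
        by linarith [(h1 v hv).2, h (Equiv.swap x y v)]⟩, fun v => (h v).trans (h2 v), h3⟩
    | node z t => exact ih h hb

/-- number of entries touching `v` -/
def tch (l : List (V × V)) (v : V) : ℕ := l.countP fun e => v = e.1 ∨ v = e.2

theorem Pot_gates {p A D : ℝ} (h0 : 0 ≤ p) {w : List (Lt V)} {a' : V → ℝ}
    (hw : Pot (1 + p * D) w (fun _ => A + p * D) a') (l : List (V × V)) :
    ∀ a : V → ℝ, (∀ v, A ≤ a v) → (∀ v, a v + p * tch l v ≤ A + p * D) →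
      Pot (1 + p * D) ((l.map fun e => Lt.gate e.1 e.2 p) ++ w) a a' := by
  induction l with
  | nil =>
    intro a _ h2
    simp only [List.map_nil, List.nil_append]
    refine Pot_mono (fun y => ?_) hw
    have := h2 y
    simp only [tch, List.countP_nil, Nat.cast_zero, mul_zero, add_zero] at this
    exact this
  | cons e l ih =>
    intro a h1 h2
    rw [List.map_cons, List.cons_append]
    have hcnt : ∀ v, (tch (e :: l) v : ℝ) = (if v = e.1 ∨ v = e.2 then 1 else 0) + tch l v := by
      intro v
      unfold tch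
      rw [List.countP_cons]
      by_cases hv : v = e.1 ∨ v = e.2
      · simp [hv]; ring
      · simp [hv]
    refine ⟨fun v => a v + if v = e.1 ∨ v = e.2 then p else 0, fun v hv => ?_, fun v => ?_,
      ih _ (fun v => ?_) fun v => ?_⟩
    · simp only [if_pos hv]
      refine ⟨le_rfl, ?_⟩
      have h3 := h2 (Equiv.swap e.1 e.2 v)
      have h4 := h1 v
      have h5 : 0 ≤ p * (tch (e :: l) (Equiv.swap e.1 e.2 v) : ℝ) :=
        mul_nonneg h0 (Nat.cast_nonneg _)
      linarith
    · show a v ≤ a v + if v = e.1 ∨ v = e.2 then p else 0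
      split_ifs <;> linarith
    · have := h1 v
      show A ≤ a v + if v = e.1 ∨ v = e.2 then p else 0
      split_ifs <;> linarith
    · have h3 := h2 v
      rw [hcnt] at h3
      show (a v + if v = e.1 ∨ v = e.2 then p else 0) + p * tch l v ≤ A + p * D
      split_ifs at h3 ⊢ <;> nlinarith

theorem Pot_nl {c : ℝ} {w : List (Lt V)} {a a' : V → ℝ} (l : List V) (t : V → ℝ)
    (hw : Pot c w a a') : Pot c ((l.map fun z => Lt.node z (t z)) ++ w) a a' := by
  induction l with
  | nil => exact hw
  | cons z l ih => exact ih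

theorem Pot_mid (L : List (V × V)) {p D : ℝ} (h0 : 0 ≤ p) (hD : ∀ v, (tch L v : ℝ) ≤ D)
    (t : ℕ → V → ℝ) (m : ℕ) (A : ℝ) :
    Pot (1 + p * D) (mid L p t m) (fun _ => A) (fun _ => A + p * D * (m + 1)) := by
  have hD' : ∀ v, (tch L.reverse v : ℝ) ≤ D := by
    intro v
    have : tch L.reverse v = tch L v := by
      unfold tch
      exact List.countP_reverse
    rw [this]
    exact hD v
  induction m generalizing A with
  | zero =>
    have h := Pot_gates (A := A) (D := D) h0 (w := [])
      (a' := fun _ => A + p * D * (((0 : ℕ) : ℝ) + 1))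
      (fun y => by simp) L.reverse (fun _ => A) (fun _ => le_rfl)
      (fun v => by linarith [mul_le_mul_of_nonneg_left (hD' v) h0])
    rw [List.append_nil] at h
    exact h
  | succ m ih =>
    simp only [mid]
    refine Pot_gates (A := A) (D := D) h0 ?_ L.reverse (fun _ => A) (fun _ => le_rfl)
      (fun v => by linarith [mul_le_mul_of_nonneg_left (hD' v) h0])
    refine Pot_nl _ _ ?_
    have h2 := ih (A + p * D)
    have e : (fun _ : V => A + p * D + p * D * ((m : ℝ) + 1)) =
        fun _ => A + p * D * (((m + 1 : ℕ) : ℝ) + 1) := by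
      funext _
      push_cast
      ring
    rw [e] at h2
    exact h2

/-! ### The defects -/

theorem HX_of (C : MM V) {B : ℝ} (w : List (Lt V)) (Q : MM V)
    (h : ∀ w1 w2 a b p, w = w1 ++ Lt.gate a b p :: w2 →
      trace (Q * wd w1 * exM a b * wd w2 * C) ≤ B ∧
      trace (Q * wd w1 * neM a b * wd w2 * C) ≤ B) : HX C B w Q := by
  induction w generalizing Q with
  | nil => trivial
  | cons l w ih =>
    have h2 : HX C B w (Q * mt l) := by
      refine ih _ fun w1 w2 a b p hw => ?_
      have h3 := h (l :: w1) w2 a b p (by rw [hw]; rfl)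
      rw [wd_cons, ← Matrix.mul_assoc Q (mt l) (wd w1)] at h3
      exact h3
    cases l with
    | gate a b p =>
      refine ⟨?_, h2⟩
      have h3 := h [] w a b p rfl
      simp only [wd, List.map_nil, List.prod_nil, Matrix.mul_one] at h3
      exact h3
    | node z t => exact h2

/-! ### The circuit -/

/-- The slices of the layer `j`. -/
def FM (N : ℕ) (θ : Fin (N + 1) × V → ℝ) (j : ℕ) : MM V :=
  layM fun x => dgM (θ (Fin.ofNat (N + 1) j, x))

/-- Everything to the left of the layer `k'`. -/
def preM (L : List (V × V)) (p : ℝ) (N : ℕ) (θ : Fin (N + 1) × V → ℝ) (k' : ℕ) : MM V :=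
  down (fun j => FM N θ (k' + j) * gatM L p) (N - k')

/-- Everything to the right of the layer `k`. -/
def restM (L : List (V × V)) (p : ℝ) (N : ℕ) (θ : Fin (N + 1) × V → ℝ) (k : ℕ) : MM V :=
  if k = 0 then 1 else gatM L p * down (fun j => FM N θ j * gatM L p) (k - 1) * FM N θ 0

/-- The slices of a layer, the one at `x` removed. -/
def rmM (t : V → ℝ) (x : V) : MM V := layM (Function.update (fun y => dgM (t y)) x 1)

theorem split_gen {M : Type*} [Monoid M] (F : ℕ → M) (G : M) {N k m : ℕ} (h : k + m + 1 ≤ N) :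
    down (fun j => F j * G) N * F 0 =
      down (fun j => F (k + m + 1 + j) * G) (N - (k + m + 1)) * (F (k + m + 1) *
        ((G * down (fun j => F (k + j) * G) m) * (F k *
          (if k = 0 then 1 else G * down (fun j => F j * G) (k - 1) * F 0)))) := by
  have h1 : down (fun j => F j * G) N =
      down (fun j => F (k + m + 1 + j) * G) (N - (k + m + 1)) *
        down (fun j => F j * G) (k + m + 1) := by
    conv_lhs => rw [show N = (N - (k + m + 1)) + (k + m + 1) by omega]
    rw [down_split]
  have h2 : down (fun j => F j * G) (k + m + 1) =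
      F (k + m + 1) * G * down (fun j => F j * G) (k + m) := rfl
  have h3 : down (fun j => F j * G) (k + m) =
      down (fun j => F (k + j) * G) m * down (fun j => F j * G) k := by
    rw [show k + m = m + k by omega, down_split]
  have h4 : down (fun j => F j * G) k * F 0 =
      F k * (if k = 0 then 1 else G * down (fun j => F j * G) (k - 1) * F 0) := by
    by_cases hk : k = 0
    · subst hk
      simp [down]
    · rw [if_neg hk]
      obtain ⟨k', rfl⟩ := Nat.exists_eq_succ_of_ne_zero hk
      show F (k' + 1) * G * down (fun j => F j * G) k' * F 0 = _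
      simp only [mul_assoc]
      rfl
  rw [h1, h2, h3]
  simp only [mul_assoc] at h4 ⊢
  rw [h4]

theorem NZ_split (L : List (V × V)) (β : ℝ) (N : ℕ) (A : Fin (N + 1) × V → Matrix (Fin 2) (Fin 2) ℝ)
    {k m : ℕ} (h : k + m + 1 ≤ N) :
    NZ (phys L β N) A = trace (
      down (fun j => (layM fun x => A (Fin.ofNat (N + 1) (k + m + 1 + j), x)) *
        gatM L (β / (2 * N))) (N - (k + m + 1)) *
      ((layM fun x => A (Fin.ofNat (N + 1) (k + m + 1), x)) *
        ((gatM L (β / (2 * N)) * down (fun j => (layM fun x => A (Fin.ofNat (N + 1) (k + j), x)) *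
          gatM L (β / (2 * N))) m) * ((layM fun x => A (Fin.ofNat (N + 1) k, x)) *
          (if k = 0 then 1 else gatM L (β / (2 * N)) *
            down (fun j => (layM fun x => A (Fin.ofNat (N + 1) j, x)) *
              gatM L (β / (2 * N))) (k - 1) * layM fun x => A (Fin.ofNat (N + 1) 0, x)))))) := by
  rw [NZ_phys]
  have h0 : (layM fun x => A (0, x) : MM V) = layM fun x => A (Fin.ofNat (N + 1) 0, x) := rfl
  rw [h0, split_gen (fun j => (layM fun x => A (Fin.ofNat (N + 1) j, x) : MM V))
    (gatM L (β / (2 * N))) h]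

theorem ofNat_inj {N i j : ℕ} (hi : i ≤ N) (hj : j ≤ N)
    (h : Fin.ofNat (N + 1) i = Fin.ofNat (N + 1) j) : i = j := by
  have := congrArg Fin.val h
  rwa [Fin.val_ofNat, Fin.val_ofNat, Nat.mod_eq_of_lt (by omega), Nat.mod_eq_of_lt (by omega)]
    at this

theorem rmM_mul_sxM (t : V → ℝ) (x : V) :
    rmM t x * sxM x = layM (Function.update (fun y => dgM (t y)) x m1) := by
  unfold rmM
  rw [layM_up1, layM_dgM]
  ext σ τ
  rw [Matrix.diagonal_mul, layM, Matrix.of_apply,
    ← Finset.mul_prod_erase Finset.univ _ (Finset.mem_univ x),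
    ← Finset.mul_prod_erase Finset.univ (fun y => Function.update (fun y => dgM (t y)) x m1 y
      (σ y) (τ y)) (Finset.mem_univ x)]
  rw [Function.update_self, Function.update_self, zero_mul, add_zero, one_mul]
  by_cases hστ : σ = Function.update τ x (1 - τ x)
  · have h1 : (sxM x : MM V) σ τ = 1 := by simp [sxM, hστ]
    have h2 : (m1 : Matrix (Fin 2) (Fin 2) ℝ) (σ x) (τ x) = 1 := by
      rw [m1_apply, if_neg]
      rw [hστ, Function.update_self]
      generalize τ x = b
      fin_cases b <;> simp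
    rw [h1, h2, mul_one, one_mul]
    refine Finset.prod_congr rfl fun y hy => ?_
    have hyx := Finset.ne_of_mem_erase hy
    rw [Function.update_of_ne hyx, Function.update_of_ne hyx]
    have : τ y = σ y := by rw [hστ, Function.update_of_ne hyx]
    rw [this]
    unfold dgM Dict.sg
    rcases Fin.exists_fin_two.1 ⟨σ y, rfl⟩ with h0 | h0 <;> rw [h0] <;> simp [sub_eq_add_neg]
  · have h1 : (sxM x : MM V) σ τ = 0 := by simp [sxM, hστ]
    rw [h1, mul_zero]
    symm
    by_cases hx : σ x = τ x
    · have : (m1 : Matrix (Fin 2) (Fin 2) ℝ) (σ x) (τ x) = 0 := by rw [m1_apply, if_pos hx]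
      rw [this, zero_mul]
    · have : ∃ y, y ≠ x ∧ σ y ≠ τ y := by
        by_contra hcon
        push Not at hcon
        apply hστ
        funext y
        by_cases hy : y = x
        · subst hy
          rw [Function.update_self]
          revert hx
          generalize σ y = a
          generalize τ y = b
          fin_cases a <;> fin_cases b <;> simp
        · rw [Function.update_of_ne hy]
          exact hcon y hy
      obtain ⟨y, hyx, hy⟩ := this
      rw [Finset.prod_eq_zero (Finset.mem_erase.2 ⟨hyx, Finset.mem_univ y⟩), mul_zero]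
      rw [Function.update_of_ne hyx]
      exact dgM_ne _ hy

theorem sxM_mul_rmM (t : V → ℝ) (x : V) :
    sxM x * rmM t x = layM (Function.update (fun y => dgM (t y)) x m1) := by
  rw [← rmM_mul_sxM]
  unfold rmM
  rw [layM_up1, layM_dgM]
  ext σ τ
  rw [Matrix.diagonal_mul, Matrix.mul_diagonal]
  by_cases hστ : σ = Function.update τ x (1 - τ x)
  · have h1 : (sxM x : MM V) σ τ = 1 := by simp [sxM, hστ]
    rw [h1, mul_one, one_mul]
    refine Finset.prod_congr rfl fun y _ => ?_
    by_cases hy : y = x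
    · subst hy
      rw [Function.update_self, zero_mul, zero_mul]
    · have : τ y = σ y := by rw [hστ, Function.update_of_ne hy]
      rw [this]
  · have h1 : (sxM x : MM V) σ τ = 0 := by simp [sxM, hστ]
    rw [h1, mul_zero, zero_mul]

theorem rmM_nonneg {t : V → ℝ} (ht : ∀ x, 0 ≤ t x ∧ t x ≤ 1) (x : V) : Le 0 (rmM t x) := by
  unfold rmM
  rw [layM_up1, layM_dgM]
  intro σ τ
  rw [Matrix.zero_apply, Matrix.diagonal_apply]
  split_ifs
  · refine Finset.prod_nonneg fun y _ => ?_
    have h1 : 0 ≤ Function.update t x 0 y ∧ Function.update t x 0 y ≤ 1 := by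
      by_cases hy : y = x
      · subst hy; rw [Function.update_self]; norm_num
      · rw [Function.update_of_ne hy]; exact ht y
    unfold Dict.sg
    split_ifs <;> linarith [h1.1, h1.2]
  · exact le_rfl

theorem layM_le_rmM {t : V → ℝ} (ht : ∀ x, 0 ≤ t x ∧ t x ≤ 1) (x : V) :
    Le (layM fun y => dgM (t y)) ((1 + t x) • rmM t x) := by
  unfold rmM
  rw [layM_up1, layM_dgM, layM_dgM]
  intro σ τ
  rw [Matrix.smul_apply, Matrix.diagonal_apply, Matrix.diagonal_apply]
  split_ifs
  · rw [smul_eq_mul, ← Finset.mul_prod_erase Finset.univ _ (Finset.mem_univ x),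
      ← Finset.mul_prod_erase Finset.univ (fun y => 1 + Function.update t x 0 y * Dict.sg (σ y))
      (Finset.mem_univ x), Function.update_self, zero_mul, add_zero, one_mul]
    have h1 : ∏ y ∈ univ.erase x, (1 + Function.update t x 0 y * Dict.sg (σ y)) =
        ∏ y ∈ univ.erase x, (1 + t y * Dict.sg (σ y)) := by
      refine Finset.prod_congr rfl fun y hy => ?_
      rw [Function.update_of_ne (Finset.ne_of_mem_erase hy)]
    rw [h1]
    refine mul_le_mul_of_nonneg_right ?_ (Finset.prod_nonneg fun y _ => ?_)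
    · unfold Dict.sg
      split_ifs <;> linarith [(ht x).1]
    · unfold Dict.sg
      split_ifs <;> linarith [(ht y).1, (ht y).2]
  · simp

theorem layM_nonneg' {t : V → ℝ} (ht : ∀ x, 0 ≤ t x ∧ t x ≤ 1) :
    Le (0 : MM V) (layM fun y => dgM (t y)) := by
  rw [← wd_nl]
  exact wd_nonneg (ok_nl ht)

theorem gatM_nonneg' (L : List (V × V)) {p : ℝ} (h0 : 0 ≤ p) (h1 : p ≤ 1) :
    Le (0 : MM V) (gatM L p) := by
  rw [← wd_gl]
  exact wd_nonneg (ok_gl L h0 h1)

theorem down_nonneg {f : ℕ → MM V} (h : ∀ j, Le 0 (f j)) (n : ℕ) : Le 0 (down f n) := by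
  induction n with
  | zero => exact one_nonneg
  | succ n ih => exact (h _).zero_mul ih

theorem preM_nonneg (L : List (V × V)) {p : ℝ} (h0 : 0 ≤ p) (h1 : p ≤ 1) {N : ℕ}
    {θ : Fin (N + 1) × V → ℝ} (hθ : ∀ z, 0 ≤ θ z ∧ θ z ≤ 1) (k : ℕ) :
    Le 0 (preM L p N θ k) :=
  down_nonneg (fun _ => (layM_nonneg' fun _ => hθ _).zero_mul (gatM_nonneg' L h0 h1)) _

theorem restM_nonneg (L : List (V × V)) {p : ℝ} (h0 : 0 ≤ p) (h1 : p ≤ 1) {N : ℕ}
    {θ : Fin (N + 1) × V → ℝ} (hθ : ∀ z, 0 ≤ θ z ∧ θ z ≤ 1) (k : ℕ) :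
    Le 0 (restM L p N θ k) := by
  unfold restM
  split_ifs
  · exact one_nonneg
  · exact ((gatM_nonneg' L h0 h1).zero_mul (down_nonneg (fun _ =>
      (layM_nonneg' fun _ => hθ _).zero_mul (gatM_nonneg' L h0 h1)) _)).zero_mul
      (layM_nonneg' fun _ => hθ _)

/-- The left context of the pair `(k + m + 1, x), (k, y)`. -/
def lctx (L : List (V × V)) (β : ℝ) (N : ℕ) (θ : Fin (N + 1) × V → ℝ) (k' : ℕ) (x : V) : MM V :=
  preM L (β / (2 * N)) N θ k' * rmM (fun z => θ (Fin.ofNat (N + 1) k', z)) x

/-- The right context. -/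
def rctx (L : List (V × V)) (β : ℝ) (N : ℕ) (θ : Fin (N + 1) × V → ℝ) (k : ℕ) (y : V) : MM V :=
  rmM (fun z => θ (Fin.ofNat (N + 1) k, z)) y * restM L (β / (2 * N)) N θ k

/-- The word between the layers `k + m + 1` and `k`. -/
def mword (L : List (V × V)) (β : ℝ) (N : ℕ) (θ : Fin (N + 1) × V → ℝ) (k m : ℕ) : List (Lt V) :=
  mid L (β / (2 * N)) (fun j z => θ (Fin.ofNat (N + 1) (k + j), z)) m

theorem down_congr' {M : Type*} [Monoid M] {f g : ℕ → M} {n : ℕ}
    (h : ∀ j, 1 ≤ j → j ≤ n → f j = g j) : down f n = down g n := down_congr h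

/-- **Long windows**, conductances of the circuit. -/
theorem cc_long (L : List (V × V)) {β : ℝ} {N : ℕ} (hβ : 0 ≤ β) (hN : β ≤ N) (hN0 : 0 < N)
    {θ : Fin (N + 1) × V → ℝ} (hθ : ∀ z, 0 ≤ θ z ∧ θ z ≤ 1) {D : ℝ}
    (hD : ∀ v, (tch L v : ℝ) ≤ D) {k m : ℕ} (hk : k + m + 1 ≤ N) (x y : V) (J : ℕ) {δ : ℝ}
    (hδ : 0 ≤ δ)
    (hX : ∀ w1 w2 a b p, mword L β N θ k m = w1 ++ Lt.gate a b p :: w2 →
      trace (lctx L β N θ (k + m + 1) x * wd w1 * exM a b * wd w2 * rctx L β N θ k y) ≤
        δ * trace (lctx L β N θ (k + m + 1) x * wd (mword L β N θ k m) * rctx L β N θ k y) ∧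
      trace (lctx L β N θ (k + m + 1) x * wd w1 * neM a b * wd w2 * rctx L β N θ k y) ≤
        δ * trace (lctx L β N θ (k + m + 1) x * wd (mword L β N θ k m) * rctx L β N θ k y)) :
    (∑ j ∈ range J, qq (mword L β N θ k m) (q0 x) y j *
      (1 - δ * (β / (2 * N) * D * (m + 1) + (1 + β / (2 * N) * D) * j))) *
      (θ (Fin.ofNat (N + 1) (k + m + 1), x) * θ (Fin.ofNat (N + 1) k, y)) / 4 ≤
      cc (phys L β N) θ (Fin.ofNat (N + 1) (k + m + 1), x) (Fin.ofNat (N + 1) k, y) := by
  classical
  have hNr : (0 : ℝ) < N := by exact_mod_cast hN0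
  set p : ℝ := β / (2 * N) with hp
  have hp0 : 0 ≤ p := by positivity
  have hp1 : p ≤ 1 := by
    rw [hp, div_le_one (by positivity)]
    linarith
  set u : Fin (N + 1) × V := (Fin.ofNat (N + 1) (k + m + 1), x) with hu
  set v : Fin (N + 1) × V := (Fin.ofNat (N + 1) k, y) with hv
  have huv : u ≠ v := by
    intro h
    have := ofNat_inj hk (by omega) (congrArg Prod.fst h)
    omega
  set A : MM V := lctx L β N θ (k + m + 1) x with hA
  set C : MM V := rctx L β N θ k y with hC
  set w : List (Lt V) := mword L β N θ k m with hw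
  have hAn : Le 0 A := (preM_nonneg L hp0 hp1 hθ _).zero_mul (rmM_nonneg (fun _ => hθ _) _)
  have hCn : Le 0 C := (rmM_nonneg (fun _ => hθ _) _).zero_mul (restM_nonneg L hp0 hp1 hθ _)
  have hok : ∀ l ∈ w, Ok l := ok_mid L hp0 hp1 (fun _ _ => hθ _) m
  have hpot : Pot (1 + p * D) w (fun _ => 0) (fun _ => 0 + p * D * (m + 1)) :=
    Pot_mid L hp0 hD _ m 0
  have hmain := long_trace A C hAn hCn hδ w hok x y J _ hpot (HX_of C w A hX)
  have hwd : wd w = gatM L p * down (fun j => (layM fun z =>
      dgM (θ (Fin.ofNat (N + 1) (k + j), z))) * gatM L p) m := wd_mid L p _ m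
  -- layers away from `u`, `v`
  have hlay : ∀ j, j ≤ N → j ≠ k + m + 1 → j ≠ k →
      (layM fun z => (Function.update (Function.update (fun z => dgM (θ z)) u m1) v m1)
        (Fin.ofNat (N + 1) j, z) : MM V) = layM fun z => dgM (θ (Fin.ofNat (N + 1) j, z)) := by
    intro j hj h1 h2
    congr 1
    funext z
    rw [Function.update_of_ne, Function.update_of_ne]
    · intro h
      exact h1 (ofNat_inj hj hk (congrArg Prod.fst h))
    · intro h
      exact h2 (ofNat_inj hj (by omega) (congrArg Prod.fst h))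
  have hlayu : (layM fun z => (Function.update (Function.update (fun z => dgM (θ z)) u m1) v m1)
        (Fin.ofNat (N + 1) (k + m + 1), z) : MM V) =
      rmM (fun z => θ (Fin.ofNat (N + 1) (k + m + 1), z)) x * sxM x := by
    rw [rmM_mul_sxM]
    congr 1
    funext z
    rw [Function.update_of_ne]
    · by_cases hz : z = x
      · subst hz
        rw [← hu, Function.update_self, Function.update_self]
      · rw [Function.update_of_ne hz, Function.update_of_ne]
        intro h
        exact hz (congrArg Prod.snd h)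
    · intro h
      have := ofNat_inj hk (by omega) (congrArg Prod.fst h)
      omega
  have hlayv : (layM fun z => (Function.update (Function.update (fun z => dgM (θ z)) u m1) v m1)
        (Fin.ofNat (N + 1) k, z) : MM V) =
      sxM y * rmM (fun z => θ (Fin.ofNat (N + 1) k, z)) y := by
    rw [sxM_mul_rmM]
    congr 1
    funext z
    by_cases hz : z = y
    · subst hz
      rw [← hv, Function.update_self, Function.update_self]
    · rw [Function.update_of_ne hz, Function.update_of_ne, Function.update_of_ne]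
      · intro h
        have := ofNat_inj (by omega) hk (congrArg Prod.fst h)
        omega
      · intro h
        exact hz (congrArg Prod.snd h)
  have hnum : NZ (phys L β N) (Function.update (Function.update (fun z => dgM (θ z)) u m1) v m1) =
      trace (A * sxM x * wd w * (sxM y * C)) := by
    rw [NZ_split L β N _ hk, hlayu, hlayv, hwd]
    rw [down_congr (f := fun j => (layM fun z => (Function.update (Function.update
        (fun z => dgM (θ z)) u m1) v m1) (Fin.ofNat (N + 1) (k + m + 1 + j), z) : MM V) *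
        gatM L (β / (2 * N)))
      (g := fun j => FM N θ (k + m + 1 + j) * gatM L (β / (2 * N)))
      (fun j h1 h2 => by rw [hlay _ (by omega) (by omega) (by omega)]; rfl)]
    rw [down_congr (f := fun j => (layM fun z => (Function.update (Function.update
        (fun z => dgM (θ z)) u m1) v m1) (Fin.ofNat (N + 1) (k + j), z) : MM V) *
        gatM L (β / (2 * N)))
      (g := fun j => (layM fun z => dgM (θ (Fin.ofNat (N + 1) (k + j), z))) *
        gatM L (β / (2 * N)))
      (fun j h1 h2 => by rw [hlay _ (by omega) (by omega) (by omega)])]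
    have hrest : (if k = 0 then 1 else gatM L (β / (2 * N)) *
            down (fun j => (layM fun z => (Function.update (Function.update (fun z => dgM (θ z)) u
              m1) v m1) (Fin.ofNat (N + 1) j, z) : MM V) * gatM L (β / (2 * N))) (k - 1) *
            layM fun z => (Function.update (Function.update (fun z => dgM (θ z)) u m1) v m1)
              (Fin.ofNat (N + 1) 0, z)) = restM L (β / (2 * N)) N θ k := by
      unfold restM
      by_cases hk0 : k = 0
      · rw [if_pos hk0, if_pos hk0]
      · rw [if_neg hk0, if_neg hk0, hlay 0 (by omega) (by omega) (by omega),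
          down_congr (f := fun j => (layM fun z => (Function.update (Function.update
            (fun z => dgM (θ z)) u m1) v m1) (Fin.ofNat (N + 1) j, z) : MM V) *
            gatM L (β / (2 * N)))
          (g := fun j => FM N θ j * gatM L (β / (2 * N)))
          (fun j h1 h2 => by rw [hlay _ (by omega) (by omega) (by omega)]; rfl)]
        rfl
    rw [hrest, hA, hC]
    unfold lctx rctx preM
    simp only [Matrix.mul_assoc]
    rw [hp]
  have hden : NZ (phys L β N) (fun z => dgM (θ z)) ≤
      (1 + θ u) * (1 + θ v) * trace (A * wd w * C) := by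
    rw [NZ_split L β N _ hk, hwd]
    have hGn := gatM_nonneg' L hp0 hp1
    have hPn := preM_nonneg L hp0 hp1 hθ (k + m + 1)
    have hRn := restM_nonneg L hp0 hp1 hθ k
    have hMn : Le (0 : MM V) (gatM L p * down (fun j => (layM fun z =>
      dgM (θ (Fin.ofNat (N + 1) (k + j), z))) * gatM L p) m) := by
      rw [← hwd]; exact wd_nonneg hok
    have h1 := (layM_le_rmM (t := fun z => θ (Fin.ofNat (N + 1) (k + m + 1), z))
      (fun _ => hθ _) x)
    have h2 := (layM_le_rmM (t := fun z => θ (Fin.ofNat (N + 1) k, z)) (fun _ => hθ _) y)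
    have h3 : Le (preM L p N θ (k + m + 1) * ((layM fun z =>
        dgM (θ (Fin.ofNat (N + 1) (k + m + 1), z))) * ((gatM L p * down (fun j => (layM fun z =>
        dgM (θ (Fin.ofNat (N + 1) (k + j), z))) * gatM L p) m) * ((layM fun z =>
        dgM (θ (Fin.ofNat (N + 1) k, z))) * restM L p N θ k))))
        (preM L p N θ (k + m + 1) * (((1 + θ u) • rmM (fun z =>
          θ (Fin.ofNat (N + 1) (k + m + 1), z)) x) * ((gatM L p * down (fun j => (layM fun z =>
        dgM (θ (Fin.ofNat (N + 1) (k + j), z))) * gatM L p) m) * (((1 + θ v) • rmM (fun z =>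
          θ (Fin.ofNat (N + 1) k, z)) y) * restM L p N θ k)))) := by
      refine Le.mul_left ?_ hPn
      refine Le.trans (Le.mul_right h1 (hMn.zero_mul
        ((layM_nonneg' fun _ => hθ _).zero_mul hRn))) ?_
      refine Le.mul_left ?_ ((rmM_nonneg (fun _ => hθ _) _).zero_smul (by linarith [(hθ u).1]))
      refine Le.mul_left ?_ hMn
      exact Le.mul_right h2 hRn
    have h4 := h3.trace
    refine le_trans h4 (le_of_eq ?_)
    rw [hA, hC]
    unfold lctx rctx
    simp only [Matrix.smul_mul, Matrix.mul_smul, Matrix.trace_smul, smul_eq_mul, Matrix.mul_assoc]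
    ring
  have hNZn : 0 < NZ (phys L β N) fun z => dgM (θ z) := by
    rw [NZ_phys]
    have h1 : PU (down (fun k => layM (fun x => dgM (θ (Fin.ofNat (N + 1) k, x))) *
        gatM L (β / (2 * N))) N * layM fun x => dgM (θ (0, x))) := by
      have hd : ∀ n, PU (down (fun k => layM (fun x => dgM (θ (Fin.ofNat (N + 1) k, x))) *
          gatM L (β / (2 * N))) n) := by
        intro n
        induction n with
        | zero => exact PU.one
        | succ n ih => exact ((PU.layM fun _ => hθ _).mul (PU.gatM L hp0 hp1)).mul ih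
      exact (hd N).mul (PU.layM fun _ => hθ _)
    linarith [h1.trace]
  have hccn : 0 ≤ cc (phys L β N) θ u v := by
    rw [cc_eq3 _ _ huv, hnum]
    refine div_nonneg (mul_nonneg (mul_nonneg (hθ u).1 (hθ v).1) ?_) hNZn.le
    have := (((hAn.zero_mul (sxM_nonneg x)).zero_mul (wd_nonneg hok)).zero_mul
      ((sxM_nonneg y).zero_mul hCn)).trace
    rwa [Matrix.trace_zero] at this
  set S : ℝ := ∑ j ∈ range J, qq w (q0 x) y j *
      (1 - δ * (p * D * (m + 1) + (1 + p * D) * j)) with hS
  have hmain' : S * trace (A * wd w * C) ≤ trace (A * sxM x * wd w * (sxM y * C)) := by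
    refine le_trans (le_of_eq ?_) hmain
    rw [hS]
    congr 1
    refine Finset.sum_congr rfl fun j _ => ?_
    ring
  rcases le_or_gt S 0 with hS0 | hS0
  · refine le_trans ?_ hccn
    have : S * (θ u * θ v) ≤ 0 :=
      mul_nonpos_of_nonpos_of_nonneg hS0 (mul_nonneg (hθ u).1 (hθ v).1)
    linarith
  · rw [cc_eq3 _ _ huv, hnum, le_div_iff₀ hNZn]
    have hZ' : 0 ≤ trace (A * wd w * C) := by
      have := ((hAn.zero_mul (wd_nonneg hok)).zero_mul hCn).trace
      rwa [Matrix.trace_zero] at this
    have h5 : NZ (phys L β N) (fun z => dgM (θ z)) ≤ 4 * trace (A * wd w * C) := by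
      refine hden.trans (mul_le_mul_of_nonneg_right ?_ hZ')
      nlinarith [(hθ u).1, (hθ u).2, (hθ v).1, (hθ v).2]
    have h6 : 0 ≤ S * (θ u * θ v) / 4 :=
      div_nonneg (mul_nonneg hS0.le (mul_nonneg (hθ u).1 (hθ v).1)) (by norm_num)
    calc S * (θ u * θ v) / 4 * NZ (phys L β N) (fun z => dgM (θ z))
        ≤ S * (θ u * θ v) / 4 * (4 * trace (A * wd w * C)) := mul_le_mul_of_nonneg_left h5 h6
      _ = θ u * θ v * (S * trace (A * wd w * C)) := by ring
      _ ≤ θ u * θ v * trace (A * sxM x * wd w * (sxM y * C)) :=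
          mul_le_mul_of_nonneg_left hmain' (mul_nonneg (hθ u).1 (hθ v).1)

end

end Vale.Agent.P361.LRO.Bloch
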