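import Vale.Agent.P361.LRO.Bloch.TiltX

/-!
P361, stage 3 (K2), the half `N = ∞`, for the extra slice with the factor at one node removed.
-/

namespace Vale.Agent.P361.LRO.Bloch.TX

open Finset Matrix

noncomputable section

variable {V : Type} [Fintype V] [DecidableEq V]

/-- Constant slice parameter `tanh (κ / 2)` on `b`. -/
def cst (κ : ℝ) (b : Finset V) : V → ℝ := fun x => if x ∈ b then Real.tanh (κ / 2) else 0

omit [Fintype V] in
theorem blk_eq_cst (K : ℝ) (b : Finset V) : blk K b = cst (K / b.card) b := by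
  funext x
  unfold blk cst
  congr 2
  by_cases hb : (b.card : ℝ) = 0
  · rw [hb]; simp
  · field_simp

omit [Fintype V] in
theorem update_blk (K : ℝ) (b : Finset V) (y : V) :
    Function.update (blk K b) y 0 = cst (K / b.card) (b.erase y) := by
  funext x
  rw [blk_eq_cst]
  unfold cst
  by_cases hx : x = y
  · subst hx
    rw [Function.update_self, if_neg (Finset.notMem_erase x b)]
  · rw [Function.update_of_ne hx]
    simp only [Finset.mem_erase, hx, ne_eq, not_false_eq_true, true_and]

theorem layT_cst (κ : ℝ) (b : Finset V) :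
    layT (cst κ b) = (1 + Real.tanh (κ / 2)) ^ b.card •
      diagonal fun σ => Real.exp (-(κ * nb b σ)) := by
  set θ := Real.tanh (κ / 2) with hθ
  have h1 : 1 - θ = (1 + θ) * Real.exp (-κ) := by
    rw [hθ, one_sub_tanh]
    congr 2
    ring
  unfold layT
  rw [← Matrix.diagonal_smul]
  congr 1
  funext σ
  rw [Pi.smul_apply, smul_eq_mul]
  have h2 : ∀ x, (1 + cst κ b x * (if σ x = 0 then (1 : ℝ) else -1)) =
      if x ∈ b then (1 + θ) * Real.exp (-(κ * if σ x = 0 then 0 else 1)) else 1 := by
    intro x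
    unfold cst
    by_cases hx : x ∈ b
    · rw [if_pos hx, if_pos hx]
      by_cases h3 : σ x = 0
      · rw [if_pos h3, if_pos h3, mul_one, mul_zero, neg_zero, Real.exp_zero, mul_one]
      · rw [if_neg h3, if_neg h3, mul_one, ← h1]; ring
    · rw [if_neg hx, if_neg hx]; ring
  rw [Finset.prod_congr rfl fun x _ => h2 x, Finset.prod_ite_mem, Finset.univ_inter,
    Finset.prod_mul_distrib, Finset.prod_const, ← Real.exp_sum]
  congr 2
  unfold nb
  rw [Finset.mul_sum, ← Finset.sum_neg_distrib]

/-- **The bound with the slice `cst κ b`**, `κ |b| ≤ K`. -/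
theorem cst_le (L : List (V × V)) {β K η κ : ℝ} (h : V → ℝ) (b : Finset V)
    (hκ : 0 ≤ κ) (hK : κ * b.card ≤ K) {s t : ℝ} (hs : 0 ≤ s) (ht : 0 ≤ t) (e : s + t = β)
    (hη : 0 ≤ η) (hr : ∀ x, rho L β h x ≤ η) {X : MM V} (hX : Le 0 X) {c : ℝ} (hc0 : 0 ≤ c)
    (hc : gib L β h X ≤ c) :
    trace (layT (cst κ b) * NormedSpace.exp (-s • ham L h) * X * NormedSpace.exp (-t • ham L h)) ≤
      Real.exp (K * η) * c *
        trace (layT (cst κ b) * NormedSpace.exp (-s • ham L h) * NormedSpace.exp (-t • ham L h)) := by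
  set A := NormedSpace.exp (-s • ham L h) with hA
  set B := NormedSpace.exp (-t • ham L h) with hB
  have hA0 := exp_ham L h hs
  have hB0 := exp_ham L h ht
  rw [← hA] at hA0
  rw [← hB] at hB0
  have hβ : 0 ≤ β := by linarith
  have hAB : A * B = NormedSpace.exp (-β • ham L h) := exp_split L h e
  have hBA : B * A = NormedSpace.exp (-β • ham L h) := exp_split L h (by linarith)
  have hZ := Bs.trace_ham_pos L β h
  set q := (1 + Real.tanh (κ / 2)) ^ b.card with hq
  have hq0 : 0 < q := pow_pos (by have := Real.neg_one_lt_tanh (κ / 2); linarith) _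
  have hm : κ * trace (diagonal (nb b) * A * B) ≤ K * η * trace (A * B) := by
    have e1 : diagonal (nb b) = ∑ y ∈ b, diagonal (dn y) := by
      ext σ τ
      rw [Matrix.sum_apply]
      by_cases hst : σ = τ
      · subst hst
        simp only [Matrix.diagonal_apply_eq]
        rfl
      · simp only [Matrix.diagonal_apply_ne _ hst, Finset.sum_const_zero]
    have e2 : trace (diagonal (nb b) * A * B) = ∑ y ∈ b, trace (A * B * diagonal (dn y)) := by
      rw [Matrix.mul_assoc, e1, Finset.sum_mul, Matrix.trace_sum]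
      exact Finset.sum_congr rfl fun y _ => Matrix.trace_mul_comm _ _
    have e3 : ∀ y, trace (A * B * diagonal (dn y)) ≤ η * trace (A * B) := by
      intro y
      have := hr y
      rw [LRO.rho_eq, ← hAB, div_le_iff₀ (by rw [hAB]; exact hZ)] at this
      exact this
    rw [e2]
    calc κ * ∑ y ∈ b, trace (A * B * diagonal (dn y)) ≤ κ * ∑ _y ∈ b, η * trace (A * B) :=
          mul_le_mul_of_nonneg_left (Finset.sum_le_sum fun y _ => e3 y) hκ
      _ = κ * b.card * (η * trace (A * B)) := by
          rw [Finset.sum_const, nsmul_eq_mul]; ring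
      _ ≤ K * (η * trace (A * B)) := by
          refine mul_le_mul_of_nonneg_right hK (mul_nonneg hη ?_)
          rw [hAB]; exact hZ.le
      _ = K * η * trace (A * B) := by ring
  have hcX : trace (A * X * B) ≤ c * trace (A * B) := by
    have h1 : trace (A * X * B) = trace (NormedSpace.exp (-β • ham L h) * X) := by
      rw [Matrix.trace_mul_comm (A * X) B, ← Matrix.mul_assoc, hBA]
    rw [h1, hAB]
    unfold gib at hc
    rwa [div_le_iff₀ hZ] at hc
  have h2 := tiltX A B X hA0.1 hB0.1 (fun i j => hX i j) (nb b) (nb_nonneg b) hκ hm hcX hc0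
  rw [layT_cst]
  simp only [Matrix.smul_mul, Matrix.trace_smul, smul_eq_mul]
  calc q * _ ≤ q * _ := mul_le_mul_of_nonneg_left h2 hq0.le
    _ = _ := by ring

omit [Fintype V] in
theorem erase_card_le (K : ℝ) (hK : 0 ≤ K) (b : Finset V) (y : V) :
    K / b.card * ((b.erase y).card : ℝ) ≤ K := by
  rcases b.eq_empty_or_nonempty with hb | hb
  · subst hb
    simpa using hK
  · have hb0 : (0 : ℝ) < b.card := by exact_mod_cast hb.card_pos
    have h1 : ((b.erase y).card : ℝ) ≤ b.card := by exact_mod_cast Finset.card_erase_le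
    rw [div_mul_eq_mul_div, div_le_iff₀ hb0]
    exact mul_le_mul_of_nonneg_left h1 hK

theorem updT_neM (L : List (V × V)) {β K η : ℝ} (h : V → ℝ) (b : Finset V) (y : V)
    (hK : 0 ≤ K) {s t : ℝ} (hs : 0 ≤ s) (ht : 0 ≤ t) (e : s + t = β)
    (hr : ∀ x, rho L β h x ≤ η) (a c : V) :
    trace (layT (Function.update (blk K b) y 0) * NormedSpace.exp (-s • ham L h) * neM a c *
        NormedSpace.exp (-t • ham L h)) ≤ Real.exp (K * η) * (2 * η) *
      trace (layT (Function.update (blk K b) y 0) * NormedSpace.exp (-s • ham L h) *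
        NormedSpace.exp (-t • ham L h)) := by
  have hη : 0 ≤ η := (Bs.rho_nonneg L β h a).trans (hr a)
  rw [update_blk]
  refine cst_le L h _ (by positivity) (erase_card_le K hK b y) hs ht e hη hr (neM_nonneg a c)
    (by linarith) ?_
  have h1 := gib_neM L β h (by linarith) a c
  have h2 := hr a
  have h3 := hr c
  linarith

theorem updT_exM (L : List (V × V)) {β K η : ℝ} (h : V → ℝ) (b : Finset V) (y : V)
    (hK : 0 ≤ K) {s t : ℝ} (hs : 0 ≤ s) (ht : 0 ≤ t) (e : s + t = β)
    (hr : ∀ x, rho L β h x ≤ η) (a c : V) :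
    trace (layT (Function.update (blk K b) y 0) * NormedSpace.exp (-s • ham L h) * exM a c *
        NormedSpace.exp (-t • ham L h)) ≤ Real.exp (K * η) * (2 * η) *
      trace (layT (Function.update (blk K b) y 0) * NormedSpace.exp (-s • ham L h) *
        NormedSpace.exp (-t • ham L h)) := by
  have hη : 0 ≤ η := (Bs.rho_nonneg L β h a).trans (hr a)
  rw [update_blk]
  refine cst_le L h _ (by positivity) (erase_card_le K hK b y) hs ht e hη hr (exM_nonneg a c)
    (by linarith) ?_
  have h1 := gib_exM L β h (by linarith) a c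
  have h2 := hr a
  have h3 := hr c
  linarith

/-- Positivity. -/
theorem cst_trace_pos (L : List (V × V)) (κ : ℝ) (h : V → ℝ) (b : Finset V)
    {s t : ℝ} (hs : 0 ≤ s) (ht : 0 ≤ t) :
    0 < trace (layT (cst κ b) * NormedSpace.exp (-s • ham L h) *
      NormedSpace.exp (-t • ham L h)) := by
  have hA0 := exp_ham L h hs
  have hB0 := exp_ham L h ht
  have hq0 : 0 < (1 + Real.tanh (κ / 2)) ^ b.card :=
    pow_pos (by have := Real.neg_one_lt_tanh (κ / 2); linarith) _
  rw [layT_cst]
  simp only [Matrix.smul_mul, Matrix.trace_smul, smul_eq_mul]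
  refine mul_pos hq0 ?_
  rw [trace_diag3]
  refine Finset.sum_pos' (fun p _ => ?_) ⟨(fun _ => 0, fun _ => 0), Finset.mem_univ _, ?_⟩
  · exact mul_nonneg (mul_nonneg (hA0.1 _ _) (hB0.1 _ _)) (Real.exp_pos _).le
  · exact mul_pos (mul_pos (hA0.2 _) (hB0.2 _)) (Real.exp_pos _)

end

end Vale.Agent.P361.LRO.Bloch.TX
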