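import Vale.Agent.P361.LRO.Bloch.Delta
import Vale.Agent.P361.LRO.Bloch.LongCC
import Vale.Agent.P361.LRO.Bloch.TiltY

/-!
P361, stage 3, K2: the hypothesis `hX` of `cc_long`, for the physical circuit with the extra
slice `blk K b`, `N ≥ N0`.
-/

namespace Vale.Agent.P361.LRO.Bloch.Delta

open Finset Matrix NormedSpace Vale.Agent.P361.LRO Vale.Agent.P361.LRO.Bloch
open Vale.Agent.P361.LRO.Dict

attribute [local instance] Matrix.linftyOpNormedRing Matrix.linftyOpNormedAlgebra

noncomputable section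

set_option linter.unusedSectionVars false

variable {V : Type} [Fintype V] [DecidableEq V]

/-! ### Words of one layer -/

lemma norm_szM' (x : V) : ‖(szM x : MM V)‖ ≤ 1 :=
  norm_diag_le _ fun σ => by split_ifs <;> simp

lemma lg_node (z : V) (t : ℝ) : lg (Lt.node z t) = t • szM z := by
  unfold lg
  change ((1 : MM V) + t • szM z) - 1 = _
  rw [add_sub_cancel_left]

lemma lg_gate (a b : V) (p : ℝ) : lg (Lt.gate a b p) = -((2 * p) • hM a b) := by
  unfold lg hM
  show (1 - p) • (1 : MM V) + p • swapM a b - 1 = _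
  rw [smul_smul, show 2 * p * (1 / 2) = p by ring, smul_sub, sub_smul, one_smul]
  abel

lemma norm_hM (a b : V) : ‖(hM a b : MM V)‖ ≤ 1 := by
  unfold hM
  rw [norm_smul]
  have h1 := (norm_sub_le (1 : MM V) (swapM a b)).trans (add_le_add one_norm (norm_swapM a b))
  have h2 : ‖(1 / 2 : ℝ)‖ = 1 / 2 := by rw [Real.norm_eq_abs, abs_of_pos (by norm_num)]
  rw [h2]
  linarith

lemma sz_gl (L : List (V × V)) {p : ℝ} (hp : 0 ≤ p) : sz (gl L p) ≤ 2 * p * L.length := by
  unfold sz gl
  rw [List.map_map, List.map_map]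
  have h1 : ∀ l : List (V × V), (l.map ((norm ∘ lg) ∘ fun e : V × V => Lt.gate e.1 e.2 p)).sum ≤
      2 * p * l.length := by
    intro l
    induction l with
    | nil => simp
    | cons e l ih =>
      rw [List.map_cons, List.sum_cons, List.length_cons]
      have h2 : ((norm ∘ lg) ∘ fun e : V × V => Lt.gate e.1 e.2 p) e ≤ 2 * p := by
        simp only [Function.comp]
        rw [lg_gate, norm_neg, norm_smul, Real.norm_eq_abs, abs_of_nonneg (by positivity)]
        have := mul_le_mul_of_nonneg_left (norm_hM e.1 e.2) (by positivity : 0 ≤ 2 * p)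
        linarith
      push_cast
      linarith
  have h2 := h1 L.reverse
  rw [List.length_reverse] at h2
  exact h2

lemma sz_nl {t : V → ℝ} {τ : ℝ} (ht : ∀ x, 0 ≤ t x ∧ t x ≤ τ) :
    sz (nl t) ≤ τ * Fintype.card V := by
  unfold sz nl
  rw [List.map_map, List.map_map]
  have h1 : ∀ l : List V, (l.map ((norm ∘ lg) ∘ fun z : V => Lt.node z (t z))).sum ≤
      τ * l.length := by
    intro l
    induction l with
    | nil => simp
    | cons e l ih =>
      rw [List.map_cons, List.sum_cons, List.length_cons]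
      have h2 : ((norm ∘ lg) ∘ fun z : V => Lt.node z (t z)) e ≤ τ := by
        simp only [Function.comp]
        rw [lg_node, norm_smul, Real.norm_eq_abs, abs_of_nonneg (ht e).1]
        have := mul_le_mul_of_nonneg_left (norm_szM' e) (ht e).1
        linarith [(ht e).2]
      push_cast
      linarith
  have h2 := h1 (Finset.univ : Finset V).toList
  rw [Finset.length_toList, Finset.card_univ] at h2
  exact h2

lemma sum_lg_gl (L : List (V × V)) (p : ℝ) :
    ((gl L p).map lg).sum = -((2 * p) • (L.map fun e => (hM e.1 e.2 : MM V)).sum) := by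
  unfold gl
  rw [List.map_map, List.map_reverse, List.sum_reverse]
  have h1 : ∀ l : List (V × V), (l.map (lg ∘ fun e : V × V => Lt.gate e.1 e.2 p)).sum =
      -((2 * p) • (l.map fun e => (hM e.1 e.2 : MM V)).sum) := by
    intro l
    induction l with
    | nil => simp
    | cons e l ih =>
      rw [List.map_cons, List.sum_cons, List.map_cons, List.sum_cons, ih, smul_add]
      simp only [Function.comp]
      rw [lg_gate]
      abel
  exact h1 L

lemma sum_lg_nl (t : V → ℝ) : ((nl t).map lg).sum = ∑ z, t z • (szM z : MM V) := by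
  unfold nl
  rw [List.map_map]
  have h1 : (lg ∘ fun z : V => Lt.node z (t z)) = fun z => t z • (szM z : MM V) := by
    funext z
    exact lg_node z (t z)
  rw [h1]
  exact Finset.sum_map_toList _ _

/-- constant -/
def c0 (L : List (V × V)) (β : ℝ) : ℝ := β * (L.length + Fintype.card V)

/-- the physical slices -/
def tt (β : ℝ) (N : ℕ) (h : V → ℝ) : V → ℝ := fun x => β * h x / (2 * N)

/-- one layer -/
def layW (L : List (V × V)) (β : ℝ) (N : ℕ) (h : V → ℝ) : List (Lt V) :=
  nl (tt β N h) ++ gl L (β / (2 * N))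

section one

variable (L : List (V × V)) {β : ℝ} (hβ : 0 < β) {N : ℕ} (hN : 1 ≤ N) {h : V → ℝ}
  (hh : ∀ x, 0 ≤ h x ∧ h x ≤ 1)

include hβ in
lemma c0_nonneg : 0 ≤ c0 L β := by unfold c0; positivity

include hβ hN hh in
lemma tt_bd (x : V) : 0 ≤ tt β N h x ∧ tt β N h x ≤ β / (2 * N) := by
  have hN' : (0 : ℝ) < N := by exact_mod_cast hN
  unfold tt
  refine ⟨div_nonneg (mul_nonneg hβ.le (hh x).1) (by positivity), ?_⟩
  gcongr
  nlinarith [(hh x).2]

include hβ hN in
lemma sz_glN : sz (gl L (β / (2 * N))) ≤ β * L.length / N := by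
  have hN' : (0 : ℝ) < N := by exact_mod_cast hN
  refine (sz_gl L (by positivity)).trans (le_of_eq ?_)
  field_simp

include hβ hN in
lemma sz_nlN {t : V → ℝ} (ht : ∀ x, 0 ≤ t x ∧ t x ≤ β / (2 * N)) :
    sz (nl t) ≤ β * Fintype.card V / N := by
  have hN' : (0 : ℝ) < N := by exact_mod_cast hN
  refine (sz_nl ht).trans ?_
  have h1 : (0 : ℝ) ≤ Fintype.card V := Nat.cast_nonneg _
  have h2 : β / (2 * N) * Fintype.card V = (β * Fintype.card V / N) / 2 := by
    field_simp
  have h3 : 0 ≤ β * Fintype.card V / N := by positivity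
  rw [h2]
  linarith

include hβ hN in
/-- Words made of slices and gates of one layer. -/
lemma sz_mix {t : V → ℝ} (ht : ∀ x, 0 ≤ t x ∧ t x ≤ β / (2 * N)) :
    sz (nl t ++ gl L (β / (2 * N))) ≤ c0 L β / N := by
  rw [sz_append]
  have h1 := sz_glN L hβ hN
  have h2 := sz_nlN hβ hN ht
  have h3 : c0 L β / N = β * L.length / N + β * Fintype.card V / N := by
    unfold c0; ring
  rw [h3]
  linarith

include hβ hN in
lemma sz_gl' : sz (gl L (β / (2 * N))) ≤ c0 L β / N := by
  have h1 := sz_glN L hβ hN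
  have h3 : c0 L β / N = β * L.length / N + β * Fintype.card V / N := by
    unfold c0; ring
  have h4 : 0 ≤ β * Fintype.card V / N := by positivity
  rw [h3]
  linarith

include hβ hN in
lemma sz_nl' {t : V → ℝ} (ht : ∀ x, 0 ≤ t x ∧ t x ≤ β / (2 * N)) :
    sz (nl t) ≤ c0 L β / N := by
  have h1 := sz_nlN hβ hN ht
  have h3 : c0 L β / N = β * L.length / N + β * Fintype.card V / N := by
    unfold c0; ring
  have h4 : 0 ≤ β * (L.length : ℝ) / N := by positivity
  rw [h3]
  linarith

/-- the constant of `gen` -/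
def cc1 (L : List (V × V)) (β : ℝ) : ℝ := c0 L β * Real.exp (c0 L β)

include hβ in
lemma c0_le : c0 L β ≤ cc1 L β := by
  unfold cc1
  have h1 := c0_nonneg L hβ
  have h2 := Real.one_le_exp h1
  nlinarith

include hβ in
lemma cc1_nonneg : 0 ≤ cc1 L β := (c0_nonneg L hβ).trans (c0_le L hβ)

include hβ hN in
lemma wd_sub_one {w : List (Lt V)} (hw : sz w ≤ c0 L β / N) : ‖wd w - 1‖ ≤ cc1 L β / N := by
  have hN' : (1 : ℝ) ≤ N := by exact_mod_cast hN
  have h0 := c0_nonneg L hβ
  have h1 : c0 L β / N ≤ c0 L β := div_le_self h0 hN'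
  refine (wd_bounds w).2.trans ((exp_sub_one_le (sz_nonneg w)).trans ?_)
  calc sz w * Real.exp (sz w) ≤ c0 L β / N * Real.exp (c0 L β) := by
        gcongr
        exact hw.trans h1
    _ = _ := by unfold cc1; ring

include hβ hN hh in
lemma lay_layW : Lay (ham L h) β (cc1 L β) N (layW L β N h) := by
  have hN' : (0 : ℝ) < N := by exact_mod_cast hN
  refine ⟨?_, ?_⟩
  · unfold layW
    rw [List.map_append, List.sum_append, sum_lg_gl, sum_lg_nl]
    unfold ham
    rw [smul_sub, neg_sub, Finset.smul_sum, sub_eq_add_neg]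
    congr 1
    · refine Finset.sum_congr rfl fun z _ => ?_
      rw [smul_smul]
      congr 1
      unfold tt
      field_simp
    · congr 2
      field_simp
  · refine (sz_mix L hβ hN (tt_bd hβ hN hh)).trans ?_
    have := c0_le L hβ
    gcongr

end one

/-! ### The circuit -/

lemma th_pos {β : ℝ} {N : ℕ} (h T : V → ℝ) {j : ℕ} (h1 : 1 ≤ j) (h2 : j ≤ N) (x : V) :
    th β N h T (Fin.ofNat (N + 1) j, x) = tt β N h x := by
  unfold th tt
  rw [if_neg]
  intro h0
  have h3 : Fin.ofNat (N + 1) j = Fin.ofNat (N + 1) 0 := h0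
  have := ofNat_inj h2 (Nat.zero_le _) h3
  omega

lemma th_zero {β : ℝ} {N : ℕ} (h T : V → ℝ) (x : V) :
    th β N h T (Fin.ofNat (N + 1) 0, x) = T x := by
  unfold th
  exact if_pos rfl

lemma FM_pos {β : ℝ} {N : ℕ} (h T : V → ℝ) {j : ℕ} (h1 : 1 ≤ j) (h2 : j ≤ N) :
    FM N (th β N h T) j = layM fun x => dgM (tt β N h x) := by
  unfold FM
  congr 1
  funext x
  rw [th_pos h T h1 h2]

lemma layT_eq (T : V → ℝ) : (layM fun x => dgM (T x) : MM V) = layT T := by
  rw [layM_dgM]
  rfl

lemma FM_zero {β : ℝ} {N : ℕ} (h T : V → ℝ) : FM N (th β N h T) 0 = layT T := by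
  rw [← layT_eq]
  rfl

lemma down_const {M : Type*} [Monoid M] (g : M) (n : ℕ) : down (fun _ => g) n = g ^ n := by
  induction n with
  | zero => rw [pow_zero]; rfl
  | succ n ih => rw [pow_succ', ← ih]; rfl

lemma wd_layW (L : List (V × V)) (β : ℝ) (N : ℕ) (h : V → ℝ) :
    wd (layW L β N h) = (layM fun x => dgM (tt β N h x)) * gatM L (β / (2 * N)) := by
  unfold layW
  rw [wd_append, wd_nl, wd_gl]

lemma preM_eq (L : List (V × V)) (β : ℝ) {N : ℕ} (h T : V → ℝ) {k : ℕ} (hk : k ≤ N) :
    preM L (β / (2 * N)) N (th β N h T) k = wd (layW L β N h) ^ (N - k) := by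
  unfold preM
  rw [← down_const, wd_layW]
  refine down_congr fun j h1 h2 => ?_
  rw [FM_pos h T (by omega) (by omega)]

lemma down_eq (L : List (V × V)) (β : ℝ) {N : ℕ} (h T : V → ℝ) {k : ℕ} (hk : k ≤ N) :
    down (fun j => FM N (th β N h T) j * gatM L (β / (2 * N))) k = wd (layW L β N h) ^ k := by
  rw [← down_const, wd_layW]
  refine down_congr fun j h1 h2 => ?_
  rw [FM_pos h T (by omega) (by omega)]

lemma mid_eq (L : List (V × V)) (p : ℝ) (t : ℕ → V → ℝ) (u : V → ℝ) (m : ℕ)
    (ht : ∀ j, 1 ≤ j → j ≤ m → t j = u) :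
    mid L p t m = gl L p ++ (List.replicate m (nl u ++ gl L p)).flatten := by
  induction m with
  | zero => simp [mid]
  | succ m ih =>
    simp only [mid]
    rw [ih fun j h1 h2 => ht j h1 (by omega), ht (m + 1) (by omega) le_rfl,
      List.replicate_succ, List.flatten_cons]
    simp only [List.append_assoc]

lemma mword_eq (L : List (V × V)) (β : ℝ) {N : ℕ} (h T : V → ℝ) {k m : ℕ} (hk : k + m ≤ N) :
    mword L β N (th β N h T) k m =
      gl L (β / (2 * N)) ++ (List.replicate m (layW L β N h)).flatten := by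
  unfold mword layW
  refine mid_eq L _ _ _ m fun j h1 h2 => ?_
  funext z
  rw [th_pos h T (by omega) (by omega)]

/-- slices with one removed, as a word -/
lemma rmM_eq (t : V → ℝ) (x : V) : rmM t x = wd (nl (Function.update t x 0)) := by
  unfold rmM
  rw [layM_up1, wd_nl]

lemma update_bd {t : V → ℝ} {τ : ℝ} (ht : ∀ x, 0 ≤ t x ∧ t x ≤ τ) (x y : V) :
    0 ≤ Function.update t x 0 y ∧ Function.update t x 0 y ≤ τ := by
  by_cases hy : y = x
  · subst hy
    rw [Function.update_self]
    exact ⟨le_rfl, (ht y).1.trans (ht y).2⟩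
  · rw [Function.update_of_ne hy]
    exact ht y

/-! ### The extra slice -/

lemma layT_wd (T : V → ℝ) : layT T = wd (nl T) := by
  rw [wd_nl, layT_eq]

lemma norm_layT {T : V → ℝ} (hT : ∀ x, 0 ≤ T x ∧ T x ≤ 1) :
    ‖layT T‖ ≤ Real.exp (Fintype.card V) := by
  rw [layT_wd]
  refine (wd_bounds _).1.trans (Real.exp_le_exp.2 ?_)
  have := sz_nl hT
  linarith

lemma layT_nonneg {T : V → ℝ} (hT : ∀ x, 0 ≤ T x ∧ T x ≤ 1) : Le 0 (layT T) := by
  rw [layT_wd]
  exact wd_nonneg (ok_nl hT)

lemma layT_one {T : V → ℝ} (hT : ∀ x, 0 ≤ T x ∧ T x ≤ 1) : 1 ≤ layT T 0 0 := by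
  rw [layT_wd]
  exact wd_zero (ok_nl hT)

lemma blk_bd {K : ℝ} (hK : 0 ≤ K) (b : Finset V) (x : V) : 0 ≤ blk K b x ∧ blk K b x ≤ 1 :=
  LRO.blk_mem hK b x

/-- **The hypothesis `hX` of `cc_long`, one insertion.** `E` = extra nonnegative factor between the
layer `N` and the layer `0`. -/
theorem insert_gen (L : List (V × V)) {β δ CT : ℝ} (hβ : 0 < β) (hδ : 0 < δ) :
    ∃ N0 : ℕ, 1 ≤ N0 ∧ ∀ N : ℕ, N0 ≤ N → ∀ (E : MM V) (T h : V → ℝ) (y : V) (X : MM V),
      ‖E‖ ≤ CT → Le 0 E → 1 ≤ E 0 0 → (∀ x, 0 ≤ T x ∧ T x ≤ 1) → (∀ x, 0 ≤ h x ∧ h x ≤ 1) →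
      ‖X‖ ≤ 2 →
      (∀ s t : ℝ, 0 ≤ s → 0 ≤ t → s + t = β →
        trace (layT T * E * exp (-s • ham L h) * X * exp (-t • ham L h)) ≤
          δ * trace (layT T * E * exp (-s • ham L h) * exp (-t • ham L h))) →
      (∀ s t : ℝ, 0 ≤ s → 0 ≤ t → s + t = β →
        trace (layT (Function.update T y 0) * E * exp (-s • ham L h) * X * exp (-t • ham L h)) ≤
          δ * trace (layT (Function.update T y 0) * E * exp (-s • ham L h) *
            exp (-t • ham L h))) →
      ∀ k m : ℕ, k + m + 1 ≤ N → ∀ (x : V) (w1 : List (Lt V)) (g : Lt V) (w2 : List (Lt V)),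
        mword L β N (th β N h T) k m = w1 ++ g :: w2 →
        trace (E * lctx L β N (th β N h T) (k + m + 1) x * wd w1 * X * wd w2 *
            rctx L β N (th β N h T) k y) ≤
          2 * δ * trace (E * lctx L β N (th β N h T) (k + m + 1) x *
            wd (mword L β N (th β N h T) k m) * rctx L β N (th β N h T) k y) := by
  obtain ⟨N0, hN0⟩ := gen (V := V) (β := β) (c := cc1 L β)
    (CT := Real.exp (Fintype.card V) * CT) (δ := δ) hβ (cc1_nonneg L hβ) hδ
  obtain ⟨N1, hN1⟩ := exists_nat_gt β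
  refine ⟨N0 + N1 + 1, by omega, ?_⟩
  intro N hN E T h y X hE hE0 hE1 hT hh hX hTX hTX' k m hkm x w1 g w2 hw
  have hN1' : 1 ≤ N := by omega
  have hNr : (0 : ℝ) < N := by exact_mod_cast hN1'
  have hβN : β ≤ N := by
    have : (N1 : ℝ) ≤ N := by exact_mod_cast (by omega : N1 ≤ N)
    linarith
  set p : ℝ := β / (2 * N) with hp
  have hp0 : 0 ≤ p := by positivity
  have hp1 : p ≤ 1 := by
    rw [hp, div_le_one (by positivity)]
    linarith
  have htt : ∀ x, 0 ≤ tt β N h x ∧ tt β N h x ≤ p := tt_bd hβ hN1' hh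
  have htt1 : ∀ x, 0 ≤ tt β N h x ∧ tt β N h x ≤ 1 := fun x => ⟨(htt x).1, (htt x).2.trans hp1⟩
  have hok : ∀ l ∈ layW L β N h, Ok l := by
    intro l hl
    unfold layW at hl
    rw [List.mem_append] at hl
    rcases hl with hl | hl
    · exact ok_nl htt1 l hl
    · exact ok_gl L hp0 hp1 l hl
  have hokg : ∀ l ∈ gl L p, Ok l := ok_gl L hp0 hp1
  have hgt : sz (gl L p) ≤ cc1 L β / N := by
    refine (sz_gl' L hβ hN1').trans ?_
    have := c0_le L hβ
    gcongr
  have hrm : ∀ z, rmM (tt β N h) z = wd (nl (Function.update (tt β N h) z 0)) := rmM_eq _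
  have hokr : ∀ z, ∀ l ∈ nl (Function.update (tt β N h) z 0), Ok l :=
    fun z => ok_nl fun v => update_bd htt1 z v
  have hD1 : ‖rmM (tt β N h) x - 1‖ ≤ cc1 L β / N := by
    rw [hrm]
    exact wd_sub_one L hβ hN1' (sz_nl' L hβ hN1' fun v => update_bd htt x v)
  have hD10 : Le 0 (rmM (tt β N h) x) := by rw [hrm]; exact wd_nonneg (hokr x)
  have hD11 : 1 ≤ rmM (tt β N h) x 0 0 := by rw [hrm]; exact wd_zero (hokr x)
  have hlctx : lctx L β N (th β N h T) (k + m + 1) x =
      wd (layW L β N h) ^ (N - (k + m + 1)) * rmM (tt β N h) x := by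
    unfold lctx
    rw [preM_eq L β h T hkm]
    congr 1
    congr 1
    funext z
    rw [th_pos h T (by omega) hkm]
  have hmw := mword_eq L β h T (k := k) (m := m) (N := N) (by omega)
  rw [hmw] at hw ⊢
  rw [hlctx]
  have hlay := lay_layW L hβ hN1' hh
  have hCT : 0 ≤ CT := (norm_nonneg _).trans hE
  by_cases hk : k = 0
  · subst hk
    have hup : ∀ x, 0 ≤ Function.update T y 0 x ∧ Function.update T y 0 x ≤ 1 :=
      update_bd hT y
    have hr : rctx L β N (th β N h T) 0 y = layT (Function.update T y 0) := by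
      unfold rctx restM
      rw [if_pos rfl, mul_one]
      have : (fun z => th β N h T (Fin.ofNat (N + 1) 0, z)) = T := by
        funext z
        rw [th_zero]
      rw [this, rmM_eq, layT_wd]
    rw [hr]
    have hnorm : ‖layT (Function.update T y 0) * E‖ ≤ Real.exp (Fintype.card V) * CT :=
      (norm_mul_le _ _).trans (mul_le_mul (norm_layT hup) hE (norm_nonneg _) (Real.exp_pos _).le)
    have key := hN0 N (by omega) (ham L h) (layT (Function.update T y 0) * E) X hX hnorm
      ((layT_nonneg hup).zero_mul hE0) (entry_zero_mul (layT_nonneg hup) hE0 (layT_one hup) hE1)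
      hTX' (layW L β N h) (gl L p) hlay hgt hok hokg (rmM (tt β N h) x) 1 hD1
      (by rw [sub_self, norm_zero]; exact div_nonneg (cc1_nonneg L hβ) hNr.le) hD10 one_nonneg
      hD11 (by rw [Matrix.one_apply_eq]) (N - (0 + m + 1)) m 0 (by omega) (by omega) w1 g w2 hw
    have e : ∀ A B : MM V, trace (E * A * B * X * wd w2 * layT (Function.update T y 0)) =
        trace (A * B * X * wd w2 * (1 * wd (layW L β N h) ^ 0 *
          (layT (Function.update T y 0) * E))) := by
      intro A B
      rw [pow_zero, Matrix.one_mul, Matrix.one_mul]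
      rw [show E * A * B * X * wd w2 * layT (Function.update T y 0) =
        E * (A * B * X * wd w2 * layT (Function.update T y 0)) by
          simp only [Matrix.mul_assoc], Matrix.trace_mul_comm]
      simp only [Matrix.mul_assoc]
    have e' : ∀ A B : MM V, trace (E * A * B * layT (Function.update T y 0)) =
        trace (A * B * (1 * wd (layW L β N h) ^ 0 *
          (layT (Function.update T y 0) * E))) := by
      intro A B
      rw [pow_zero, Matrix.one_mul, Matrix.one_mul]
      rw [show E * A * B * layT (Function.update T y 0) =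
        E * (A * B * layT (Function.update T y 0)) by
          simp only [Matrix.mul_assoc], Matrix.trace_mul_comm]
      simp only [Matrix.mul_assoc]
    rw [e, e']
    exact key
  · have hk1 : 1 ≤ k := by omega
    have hr : rctx L β N (th β N h T) k y = (rmM (tt β N h) y * gatM L p) *
        wd (layW L β N h) ^ (k - 1) * layT T := by
      unfold rctx restM
      rw [if_neg hk, down_eq L β h T (by omega), FM_zero]
      have : (fun z => th β N h T (Fin.ofNat (N + 1) k, z)) = tt β N h := by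
        funext z
        rw [th_pos h T hk1 (by omega)]
      rw [this]
      simp only [Matrix.mul_assoc]
      rfl
    rw [hr]
    have hD2w : rmM (tt β N h) y * gatM L p =
        wd (nl (Function.update (tt β N h) y 0) ++ gl L p) := by
      rw [wd_append, hrm, wd_gl]
    have hok2 : ∀ l ∈ nl (Function.update (tt β N h) y 0) ++ gl L p, Ok l := by
      intro l hl
      rw [List.mem_append] at hl
      rcases hl with hl | hl
      · exact hokr y l hl
      · exact hokg l hl
    have hD2 : ‖rmM (tt β N h) y * gatM L p - 1‖ ≤ cc1 L β / N := by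
      rw [hD2w]
      exact wd_sub_one L hβ hN1' (sz_mix L hβ hN1' fun v => update_bd htt y v)
    have hD20 : Le 0 (rmM (tt β N h) y * gatM L p) := by rw [hD2w]; exact wd_nonneg hok2
    have hD21 : 1 ≤ (rmM (tt β N h) y * gatM L p : MM V) 0 0 := by rw [hD2w]; exact wd_zero hok2
    have hnorm : ‖layT T * E‖ ≤ Real.exp (Fintype.card V) * CT :=
      (norm_mul_le _ _).trans (mul_le_mul (norm_layT hT) hE (norm_nonneg _) (Real.exp_pos _).le)
    have key := hN0 N (by omega) (ham L h) (layT T * E) X hX hnorm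
      ((layT_nonneg hT).zero_mul hE0) (entry_zero_mul (layT_nonneg hT) hE0 (layT_one hT) hE1)
      hTX (layW L β N h) (gl L p) hlay hgt hok hokg (rmM (tt β N h) x)
      (rmM (tt β N h) y * gatM L p) hD1 hD2 hD10 hD20
      hD11 hD21 (N - (k + m + 1)) m (k - 1) (by omega) (by omega) w1 g w2 hw
    have e : ∀ A B D : MM V, trace (E * A * B * X * wd w2 * (D * layT T)) =
        trace (A * B * X * wd w2 * (D * (layT T * E))) := by
      intro A B D
      rw [show E * A * B * X * wd w2 * (D * layT T) =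
        E * (A * B * X * wd w2 * (D * layT T)) by
          simp only [Matrix.mul_assoc], Matrix.trace_mul_comm]
      simp only [Matrix.mul_assoc]
    have e' : ∀ A B D : MM V, trace (E * A * B * (D * layT T)) =
        trace (A * B * (D * (layT T * E))) := by
      intro A B D
      rw [show E * A * B * (D * layT T) = E * (A * B * (D * layT T)) by
          simp only [Matrix.mul_assoc], Matrix.trace_mul_comm]
      simp only [Matrix.mul_assoc]
    rw [e, e']
    exact key

/-- **The hypothesis `hX` of `cc_long`** for the physical circuit, `δ = 4 η e^{K η}`. -/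
theorem hX (L : List (V × V)) {β K η : ℝ} (hβ : 0 < β) (hK : 0 ≤ K) (hη : 0 < η) :
    ∃ N0 : ℕ, 1 ≤ N0 ∧ ∀ N : ℕ, N0 ≤ N → ∀ b : Finset V, b.Nonempty → ∀ h : V → ℝ,
      (∀ x, 0 ≤ h x ∧ h x ≤ 1) → (∀ x, rho L β h x ≤ η) →
      ∀ k m : ℕ, k + m + 1 ≤ N → ∀ (x y : V) (w1 w2 : List (Lt V)) (a c : V) (p : ℝ),
        mword L β N (th β N h (blk K b)) k m = w1 ++ Lt.gate a c p :: w2 →
        trace (lctx L β N (th β N h (blk K b)) (k + m + 1) x * wd w1 * exM a c * wd w2 *
            rctx L β N (th β N h (blk K b)) k y) ≤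
          4 * η * Real.exp (K * η) * trace (lctx L β N (th β N h (blk K b)) (k + m + 1) x *
            wd (mword L β N (th β N h (blk K b)) k m) * rctx L β N (th β N h (blk K b)) k y) ∧
        trace (lctx L β N (th β N h (blk K b)) (k + m + 1) x * wd w1 * neM a c * wd w2 *
            rctx L β N (th β N h (blk K b)) k y) ≤
          4 * η * Real.exp (K * η) * trace (lctx L β N (th β N h (blk K b)) (k + m + 1) x *
            wd (mword L β N (th β N h (blk K b)) k m) * rctx L β N (th β N h (blk K b)) k y) := by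
  have hδ : 0 < Real.exp (K * η) * (2 * η) := by positivity
  obtain ⟨N0, hN00, hN0⟩ := insert_gen L (β := β) (δ := Real.exp (K * η) * (2 * η)) (CT := 1)
    hβ hδ
  refine ⟨N0, hN00, ?_⟩
  intro N hN b hb h hh hr k m hkm x y w1 w2 a c p hw
  have hE1 : 1 ≤ (1 : MM V) 0 0 := by rw [Matrix.one_apply_eq]
  have h1 := hN0 N hN 1 (blk K b) h y (exM a c) one_norm one_nonneg hE1 (blk_bd hK b) hh
    (norm_exM a c)
    (fun s t hs ht e => by
      rw [Matrix.mul_one]
      exact TX.layT_exM L h b hb hK hs ht e hr a c)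
    (fun s t hs ht e => by
      rw [Matrix.mul_one]
      exact TX.updT_exM L h b y hK hs ht e hr a c) k m hkm x w1 _ w2 hw
  have h2 := hN0 N hN 1 (blk K b) h y (neM a c) one_norm one_nonneg hE1 (blk_bd hK b) hh
    (norm_neM a c)
    (fun s t hs ht e => by
      rw [Matrix.mul_one]
      exact TX.layT_neM L h b hb hK hs ht e hr a c)
    (fun s t hs ht e => by
      rw [Matrix.mul_one]
      exact TX.updT_neM L h b y hK hs ht e hr a c) k m hkm x w1 _ w2 hw
  rw [Matrix.one_mul] at h1 h2
  have e : 2 * (Real.exp (K * η) * (2 * η)) = 4 * η * Real.exp (K * η) := by ring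
  rw [e] at h1 h2
  exact ⟨h1, h2⟩

/-- **Long windows**, without the hypothesis on the insertions: `δ = 4 η e^{K η}`, `N ≥ N0`. -/
theorem cc_long_phys (L : List (V × V)) {β K η D : ℝ} (hβ : 0 < β) (hK : 0 ≤ K) (hη : 0 < η)
    (hD : ∀ v, (tch L v : ℝ) ≤ D) :
    ∃ N0 : ℕ, 1 ≤ N0 ∧ β ≤ N0 ∧ ∀ N : ℕ, N0 ≤ N → ∀ b : Finset V, b.Nonempty → ∀ h : V → ℝ,
      (∀ x, 0 ≤ h x ∧ h x ≤ 1) → (∀ x, rho L β h x ≤ η) →
      ∀ k m : ℕ, k + m + 1 ≤ N → ∀ (x y : V) (J : ℕ),
        (∑ j ∈ range J, qq (mword L β N (th β N h (blk K b)) k m) (q0 x) y j *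
          (1 - 4 * η * Real.exp (K * η) *
            (β / (2 * N) * D * (m + 1) + (1 + β / (2 * N) * D) * j))) *
          (th β N h (blk K b) (Fin.ofNat (N + 1) (k + m + 1), x) *
            th β N h (blk K b) (Fin.ofNat (N + 1) k, y)) / 4 ≤
        cc (phys L β N) (th β N h (blk K b)) (Fin.ofNat (N + 1) (k + m + 1), x)
          (Fin.ofNat (N + 1) k, y) := by
  obtain ⟨N0, hN00, hN0⟩ := hX L hβ hK hη
  obtain ⟨N1, hN1⟩ := exists_nat_gt β
  refine ⟨N0 + N1, by omega, ?_, ?_⟩
  · push_cast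
    have : (0 : ℝ) ≤ N0 := Nat.cast_nonneg _
    linarith
  intro N hN b hb h hh hr k m hkm x y J
  have hN' : 0 < N := by omega
  have hNr : (0 : ℝ) < N := by exact_mod_cast hN'
  have hβN : β ≤ N := by
    have : (N1 : ℝ) ≤ N := by exact_mod_cast (by omega : N1 ≤ N)
    linarith
  have hθ : ∀ z, 0 ≤ th β N h (blk K b) z ∧ th β N h (blk K b) z ≤ 1 := by
    intro z
    unfold th
    split_ifs with h0
    · exact blk_bd hK b _
    · have h1 := tt_bd hβ (by omega : 1 ≤ N) hh z.2
      unfold tt at h1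
      refine ⟨h1.1, h1.2.trans ?_⟩
      rw [div_le_one (by positivity)]
      linarith
  exact cc_long L hβ.le hβN hN' hθ hD hkm x y J (by positivity)
    fun w1 w2 a c p hw => hN0 N (by omega) b hb h hh hr k m hkm x y w1 w2 a c p hw

end

end Vale.Agent.P361.LRO.Bloch.Delta
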