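import Vale.Agent.P361.LRO.Energy.PB
import Vale.Agent.P361.B.Sub

/-! # P361 LRO, stage 3: embedding of the operators of a box (helper348)

`emb e A` = the operator `A` of the sites `U` acting on the sites `e u` of `V`; normalised log trace
`nlt`, additive over disjoint regions. -/

namespace Vale.Agent.P361.LRO.Loc3

open Matrix Finset Vale.Agent.P361.LRO.Energy
open scoped ComplexOrder Kronecker

set_option linter.unusedSectionVars false

noncomputable section

variable {U V : Type} [Fintype U] [DecidableEq U] [Fintype V] [DecidableEq V]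

/-- the operator `A` on the sites `e u` -/
def emb (e : U → V) (A : Matrix (Cfg U) (Cfg U) ℂ) : Matrix (Cfg V) (Cfg V) ℂ :=
  Matrix.of fun σ τ => if (∀ x, (∀ u, e u ≠ x) → σ x = τ x) then A (σ ∘ e) (τ ∘ e) else 0

/-- `A` does not act on the sites `e u`. -/
def Off (e : U → V) (A : Matrix (Cfg V) (Cfg V) ℂ) : Prop :=
  ∀ σ τ, A σ τ = if σ ∘ e = τ ∘ e then
    A (fun x => if ∃ u, e u = x then 0 else σ x) (fun x => if ∃ u, e u = x then 0 else τ x) else 0

theorem emb_add (e : U → V) (A B : Matrix (Cfg U) (Cfg U) ℂ) : emb e (A + B) = emb e A + emb e B := by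
  ext σ τ
  simp only [emb, Matrix.of_apply, Matrix.add_apply]
  split_ifs <;> simp

theorem emb_smul (e : U → V) (c : ℂ) (A : Matrix (Cfg U) (Cfg U) ℂ) : emb e (c • A) = c • emb e A := by
  ext σ τ
  simp only [emb, Matrix.of_apply, Matrix.smul_apply]
  split_ifs <;> simp

theorem emb_neg (e : U → V) (A : Matrix (Cfg U) (Cfg U) ℂ) : emb e (-A) = -emb e A := by
  ext σ τ
  simp only [emb, Matrix.of_apply, Matrix.neg_apply]
  split_ifs <;> simp

theorem emb_sub (e : U → V) (A B : Matrix (Cfg U) (Cfg U) ℂ) : emb e (A - B) = emb e A - emb e B := by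
  rw [sub_eq_add_neg, emb_add, emb_neg, ← sub_eq_add_neg]

theorem emb_zero (e : U → V) : emb e (0 : Matrix (Cfg U) (Cfg U) ℂ) = 0 := by
  ext σ τ
  simp [emb]

theorem emb_sum {κ : Type*} (e : U → V) (s : Finset κ) (A : κ → Matrix (Cfg U) (Cfg U) ℂ) :
    emb e (∑ k ∈ s, A k) = ∑ k ∈ s, emb e (A k) := by
  classical
  induction s using Finset.induction_on with
  | empty => simp [emb_zero]
  | insert a s ha ih => rw [Finset.sum_insert ha, Finset.sum_insert ha, emb_add, ih]

theorem emb_isHermitian (e : U → V) {A : Matrix (Cfg U) (Cfg U) ℂ} (hA : A.IsHermitian) :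
    (emb e A).IsHermitian := by
  ext σ τ
  simp only [Matrix.conjTranspose_apply, emb, Matrix.of_apply]
  have h1 : (∀ x, (∀ u, e u ≠ x) → τ x = σ x) ↔ (∀ x, (∀ u, e u ≠ x) → σ x = τ x) := by
    constructor <;> intro h x hx <;> exact (h x hx).symm
  simp only [h1]
  split_ifs with h
  · have := congrFun (congrFun hA (σ ∘ e)) (τ ∘ e)
    rwa [Matrix.conjTranspose_apply] at this
  · simp

theorem eq_of_comp {e : U → V} {σ τ : Cfg V} (h1 : ∀ x, (∀ u, e u ≠ x) → σ x = τ x)
    (h2 : σ ∘ e = τ ∘ e) : σ = τ := by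
  funext x
  by_cases h : ∀ u, e u ≠ x
  · exact h1 x h
  · push Not at h
    obtain ⟨u, rfl⟩ := h
    exact congrFun h2 u

theorem emb_one (e : U → V) : emb e (1 : Matrix (Cfg U) (Cfg U) ℂ) = 1 := by
  ext σ τ
  simp only [emb, Matrix.of_apply, Matrix.one_apply]
  by_cases h : σ = τ
  · subst h; simp
  · rw [if_neg h]
    split_ifs with h1 h2
    · exact absurd (eq_of_comp h1 h2) h
    · rfl
    · rfl

theorem emb_szM (e : U → V) (u : U) : emb e (szM u) = szM (e u) := by
  ext σ τ
  simp only [emb, Matrix.of_apply, szM, Matrix.diagonal_apply]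
  by_cases h : σ = τ
  · subst h; simp
  · rw [if_neg h]
    split_ifs with h1 h2 h3
    · exact absurd (eq_of_comp h1 h2) h
    · exact absurd (eq_of_comp h1 h2) h
    · rfl
    · rfl

theorem comp_swap_emb {e : U → V} (he : Function.Injective e) (σ : Cfg V) (u v : U) :
    (σ ∘ Equiv.swap (e u) (e v)) ∘ e = (σ ∘ e) ∘ Equiv.swap u v := by
  funext w
  simp only [Function.comp_apply]
  congr 1
  rw [Equiv.swap_apply_def, Equiv.swap_apply_def]
  simp only [he.eq_iff]
  split_ifs <;> rfl

theorem emb_swapM {e : U → V} (he : Function.Injective e) (u v : U) :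
    emb e (swapM u v) = swapM (e u) (e v) := by
  ext σ τ
  simp only [emb, Matrix.of_apply, swapM]
  have h1 : (σ ∘ Equiv.swap (e u) (e v) = τ) ↔
      (∀ x, (∀ u, e u ≠ x) → σ x = τ x) ∧ (σ ∘ e) ∘ Equiv.swap u v = τ ∘ e := by
    constructor
    · rintro rfl
      refine ⟨fun x hx => ?_, (comp_swap_emb he σ u v).symm⟩
      rw [Function.comp_apply, Equiv.swap_apply_of_ne_of_ne (hx u).symm (hx v).symm]
    · rintro ⟨h2, h3⟩
      refine eq_of_comp (e := e) (fun x hx => ?_) (by rw [comp_swap_emb he, h3])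
      rw [Function.comp_apply, Equiv.swap_apply_of_ne_of_ne (hx u).symm (hx v).symm]
      exact h2 x hx
  by_cases h2 : (∀ x, (∀ u, e u ≠ x) → σ x = τ x)
  · rw [if_pos h2]
    have h3 : (σ ∘ Equiv.swap (e u) (e v) = τ) ↔ (σ ∘ e) ∘ Equiv.swap u v = τ ∘ e :=
      h1.trans ⟨fun h => h.2, fun h => ⟨h2, h⟩⟩
    exact if_congr h3.symm rfl rfl
  · rw [if_neg h2, if_neg (fun h => h2 (h1.1 h).1)]

theorem emb_hM {e : U → V} (he : Function.Injective e) (u v : U) :
    emb e (hM u v) = hM (e u) (e v) := by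
  rw [hM, hM, emb_smul, emb_sub, emb_one, emb_swapM he]

/-! ### Splitting of the configurations -/

/-- configurations on `U` and on the rest -/
def splitE (e : U → V) (he : Function.Injective e) :
    Cfg U × (({x // ∀ u, e u ≠ x}) → Fin 2) ≃ Cfg V where
  toFun p x := if h : ∀ u, e u ≠ x then p.2 ⟨x, h⟩ else
    p.1 (Classical.choose (not_forall_not.1 h))
  invFun σ := (σ ∘ e, fun x => σ x.1)
  left_inv := by
    rintro ⟨q, s⟩
    refine Prod.ext ?_ ?_
    · funext u
      have h : ¬ ∀ w, e w ≠ e u := fun h => h u rfl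
      simp only [Function.comp_apply]
      rw [dif_neg h]
      congr 1
      exact he (Classical.choose_spec (not_forall_not.1 h))
    · funext x
      simp only
      rw [dif_pos x.2]
  right_inv := by
    intro σ
    funext x
    simp only
    by_cases h : ∀ u, e u ≠ x
    · rw [dif_pos h]
    · rw [dif_neg h, Function.comp_apply, Classical.choose_spec (not_forall_not.1 h)]

theorem splitE_comp (e : U → V) (he : Function.Injective e) (q : Cfg U)
    (s : ({x // ∀ u, e u ≠ x}) → Fin 2) : (splitE e he (q, s)) ∘ e = q :=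
  congrArg Prod.fst ((splitE e he).left_inv (q, s))

theorem splitE_out (e : U → V) (he : Function.Injective e) (q : Cfg U)
    (s : ({x // ∀ u, e u ≠ x}) → Fin 2) {x : V} (hx : ∀ u, e u ≠ x) :
    splitE e he (q, s) x = s ⟨x, hx⟩ := by
  have := congrArg Prod.snd ((splitE e he).left_inv (q, s))
  exact congrFun this ⟨x, hx⟩

theorem emb_split (e : U → V) (he : Function.Injective e) (A : Matrix (Cfg U) (Cfg U) ℂ) :
    (emb e A).submatrix (splitE e he) (splitE e he) =
      A ⊗ₖ (1 : Matrix (({x // ∀ u, e u ≠ x}) → Fin 2) (({x // ∀ u, e u ≠ x}) → Fin 2) ℂ) := by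
  ext ⟨q, s⟩ ⟨q', s'⟩
  rw [Matrix.submatrix_apply, emb, Matrix.of_apply, splitE_comp, splitE_comp,
    Matrix.kroneckerMap_apply, Matrix.one_apply]
  have h : (∀ x, (∀ u, e u ≠ x) → splitE e he (q, s) x = splitE e he (q', s') x) ↔ s = s' := by
    constructor
    · intro h
      funext x
      have := h x.1 x.2
      rwa [splitE_out e he q s x.2, splitE_out e he q' s' x.2] at this
    · rintro rfl x hx
      rw [splitE_out e he q s hx, splitE_out e he q' s hx]
  simp only [h]
  split_ifs <;> simp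

theorem off_split (e : U → V) (he : Function.Injective e) {A : Matrix (Cfg V) (Cfg V) ℂ}
    (hA : Off e A) : A.submatrix (splitE e he) (splitE e he) =
      (1 : Matrix (Cfg U) (Cfg U) ℂ) ⊗ₖ
        (A.submatrix (fun s => splitE e he (0, s)) (fun s => splitE e he (0, s))) := by
  ext ⟨q, s⟩ ⟨q', s'⟩
  rw [Matrix.submatrix_apply, hA, splitE_comp, splitE_comp, Matrix.kroneckerMap_apply,
    Matrix.one_apply, Matrix.submatrix_apply]
  have key : ∀ (q : Cfg U) (s : ({x // ∀ u, e u ≠ x}) → Fin 2),
      (fun x => if ∃ u, e u = x then 0 else splitE e he (q, s) x) = splitE e he (0, s) := by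
    intro q s
    funext x
    by_cases h : ∃ u, e u = x
    · rw [if_pos h]
      obtain ⟨u, rfl⟩ := h
      exact (congrFun (splitE_comp e he 0 s) u).symm
    · rw [if_neg h]
      have h' : ∀ u, e u ≠ x := fun u hu => h ⟨u, hu⟩
      rw [splitE_out e he q s h', splitE_out e he 0 s h']
  rw [key, key]
  split_ifs <;> simp

/-- normalised log trace -/
def nlt (X : Matrix (Cfg V) (Cfg V) ℂ) : ℝ :=
  Real.log (trace (NormedSpace.exp X)).re - Fintype.card V * Real.log 2

theorem card_rest (e : U → V) (he : Function.Injective e) :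
    Fintype.card {x // ∀ u, e u ≠ x} + Fintype.card U = Fintype.card V := by
  have h1 : Fintype.card {x // ∀ u, e u ≠ x} + Fintype.card {x // ¬ ∀ u, e u ≠ x} = Fintype.card V := by
    rw [← Fintype.card_sum]
    exact Fintype.card_congr (Equiv.sumCompl _)
  have h2 : Fintype.card {x // ¬ ∀ u, e u ≠ x} = Fintype.card U := by
    refine (Fintype.card_congr (Equiv.ofBijective (fun u : U =>
      (⟨e u, fun h => h u rfl⟩ : {x // ¬ ∀ u, e u ≠ x})) ⟨?_, ?_⟩)).symm
    · intro u v huv
      exact he (congrArg Subtype.val huv)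
    · rintro ⟨x, hx⟩
      obtain ⟨u, hu⟩ := not_forall_not.1 hx
      exact ⟨u, Subtype.ext hu⟩
  rw [h2] at h1
  exact h1

/-- the normalised log trace of an embedded operator -/
theorem nlt_emb (e : U → V) (he : Function.Injective e) {A : Matrix (Cfg U) (Cfg U) ℂ}
    (hA : A.IsHermitian) : nlt (emb e A) = nlt A := by
  have h1 := tr_exp_kron_one (splitE e he) (emb_split e he A)
  have h2 := trace_exp_pos hA
  unfold nlt
  rw [h1, Fintype.card_fun, Fintype.card_fin]
  push_cast
  rw [Real.log_mul (by positivity) h2.ne', Real.log_pow, ← card_rest e he]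
  push_cast
  ring

/-- additivity over disjoint regions -/
theorem nlt_add (e : U → V) (he : Function.Injective e) {A : Matrix (Cfg V) (Cfg V) ℂ}
    (hA : Off e A) (hAh : A.IsHermitian) {B : Matrix (Cfg U) (Cfg U) ℂ} (hB : B.IsHermitian) :
    nlt (A + emb e B) = nlt A + nlt B := by
  have hA' : (A.submatrix (fun s => splitE e he (0, s)) (fun s => splitE e he (0, s))).IsHermitian :=
    hAh.submatrix _
  set A' := A.submatrix (fun s => splitE e he (0, s)) (fun s => splitE e he (0, s)) with hA'def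
  have h1 : (trace (NormedSpace.exp (A + emb e B))).re =
      (trace (NormedSpace.exp B)).re * (trace (NormedSpace.exp A')).re := by
    have e1 : (A + emb e B).submatrix (splitE e he) (splitE e he) =
        B ⊗ₖ (1 : Matrix (({x // ∀ u, e u ≠ x}) → Fin 2) (({x // ∀ u, e u ≠ x}) → Fin 2) ℂ) +
        (1 : Matrix (Cfg U) (Cfg U) ℂ) ⊗ₖ A' := by
      rw [Matrix.submatrix_add, Pi.add_apply, Pi.add_apply, emb_split, off_split e he hA, add_comm]
    rw [← trace_exp_submatrix (splitE e he), e1,
      Vale.Agent.P361.B.trace_exp_kron hB hA', Complex.ofReal_re, trace_exp_re hB, trace_exp_re hA',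
      Fintype.sum_prod_type, Finset.sum_mul_sum]
    simp only [Real.exp_add]
  have h2 : (trace (NormedSpace.exp A)).re =
      (2 : ℝ) ^ Fintype.card U * (trace (NormedSpace.exp A')).re := by
    have e1 : (A + emb e (0 : Matrix (Cfg U) (Cfg U) ℂ)).submatrix (splitE e he) (splitE e he) =
        (0 : Matrix (Cfg U) (Cfg U) ℂ) ⊗ₖ
          (1 : Matrix (({x // ∀ u, e u ≠ x}) → Fin 2) (({x // ∀ u, e u ≠ x}) → Fin 2) ℂ) +
        (1 : Matrix (Cfg U) (Cfg U) ℂ) ⊗ₖ A' := by
      rw [Matrix.submatrix_add, Pi.add_apply, Pi.add_apply, emb_split, off_split e he hA, add_comm]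
    have h0 : (0 : Matrix (Cfg U) (Cfg U) ℂ).IsHermitian := Matrix.isHermitian_zero
    have e2 : A = A + emb e (0 : Matrix (Cfg U) (Cfg U) ℂ) := by rw [emb_zero, add_zero]
    rw [e2, ← trace_exp_submatrix (splitE e he), e1,
      Vale.Agent.P361.B.trace_exp_kron h0 hA', Complex.ofReal_re, trace_exp_re hA',
      Fintype.sum_prod_type]
    have e3 : ∀ i, h0.eigenvalues i = 0 := by
      intro i
      have := h0.eigenvalues_eq i
      simp at this
      exact this
    simp only [e3, zero_add]
    rw [Finset.sum_const, Finset.card_univ, nsmul_eq_mul, Fintype.card_fun, Fintype.card_fin]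
    push_cast
    rfl
  have p1 := trace_exp_pos hB
  have p2 := trace_exp_pos hA'
  unfold nlt
  rw [h1, h2, Real.log_mul p1.ne' p2.ne', Real.log_mul (by positivity) p2.ne', Real.log_pow]
  ring

end

end Vale.Agent.P361.LRO.Loc3
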