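import Vale.Agent.P361.LRO.Bloch.LocalCmp

/-! # P361 LRO, stage 3 (7'): energy bound with half of the coupling (helper348)

`(1/2) β ∑_{e ⊆ Q} c_e ⟨h_e⟩ ≤ log tr_Q e^{-(β/2) H_Q} + β |∂Q|` for fields `≥ 0` on `Q`. -/

namespace Vale.Agent.P361.LRO.Energy

open Matrix Finset
open scoped ComplexOrder Kronecker

set_option linter.unusedSectionVars false

noncomputable section

variable {V : Type} [Fintype V] [DecidableEq V] {ι : Type*} [Fintype ι] [DecidableEq ι]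

/-- the exponent outside `Q` -/
def offX (Q : Finset V) (β : ℝ) (h : V → ℝ) (a b : ι → V) (c : ι → ℝ) : Matrix (Cfg V) (Cfg V) ℂ :=
  ∑ x with x ∉ Q, ((β * h x : ℝ) : ℂ) • szM x -
    ∑ e with ¬ (a e ∈ Q ∨ b e ∈ Q), ((β * c e : ℝ) : ℂ) • hM (a e) (b e)

/-- the fields in `Q` -/
def fldX (Q : Finset V) (β : ℝ) (h : V → ℝ) : Matrix (Cfg V) (Cfg V) ℂ :=
  ∑ x ∈ Q, ((β * h x : ℝ) : ℂ) • szM x

/-- `β` times the Hamiltonian of the bonds inside `Q` -/
def inX (Q : Finset V) (β : ℝ) (a b : ι → V) (c : ι → ℝ) : Matrix (Cfg V) (Cfg V) ℂ :=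
  ∑ e with (a e ∈ Q ∧ b e ∈ Q), ((β * c e : ℝ) : ℂ) • hM (a e) (b e)

/-- the boundary bonds -/
def bdX (Q : Finset V) (β : ℝ) (a b : ι → V) (c : ι → ℝ) : Matrix (Cfg V) (Cfg V) ℂ :=
  ∑ e with ((a e ∈ Q ∨ b e ∈ Q) ∧ ¬ (a e ∈ Q ∧ b e ∈ Q)), ((β * c e : ℝ) : ℂ) • hM (a e) (b e)

variable (Q : Finset V) (β : ℝ) (h : V → ℝ) (a b : ι → V) (c : ι → ℝ)

theorem gibX_split : gibX β h a b c = offX Q β h a b c + (fldX Q β h - inX Q β a b c) - bdX Q β a b c := by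
  classical
  rw [gibX, offX, fldX, inX, bdX]
  rw [← Finset.sum_filter_add_sum_filter_not Finset.univ (fun x => x ∉ Q)
      (fun x => ((β * h x : ℝ) : ℂ) • (szM x : Matrix (Cfg V) (Cfg V) ℂ)),
      ← Finset.sum_filter_add_sum_filter_not Finset.univ (fun e => a e ∈ Q ∨ b e ∈ Q)
      (fun e => ((β * c e : ℝ) : ℂ) • (hM (a e) (b e) : Matrix (Cfg V) (Cfg V) ℂ)),
      ← Finset.sum_filter_add_sum_filter_not (Finset.univ.filter fun e => a e ∈ Q ∨ b e ∈ Q)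
      (fun e => a e ∈ Q ∧ b e ∈ Q)
      (fun e => ((β * c e : ℝ) : ℂ) • (hM (a e) (b e) : Matrix (Cfg V) (Cfg V) ℂ))]
  have h3 : (Finset.univ.filter fun x => ¬ x ∉ Q) = Q := by
    ext x; simp
  have h4 : ((Finset.univ.filter fun e => a e ∈ Q ∨ b e ∈ Q).filter fun e => a e ∈ Q ∧ b e ∈ Q) =
      Finset.univ.filter fun e => a e ∈ Q ∧ b e ∈ Q := by
    ext e
    simp only [Finset.mem_filter, Finset.mem_univ, true_and]
    tauto
  have h5 : ((Finset.univ.filter fun e => a e ∈ Q ∨ b e ∈ Q).filter fun e => ¬ (a e ∈ Q ∧ b e ∈ Q)) =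
      Finset.univ.filter fun e => (a e ∈ Q ∨ b e ∈ Q) ∧ ¬ (a e ∈ Q ∧ b e ∈ Q) := by
    rw [Finset.filter_filter]
  rw [h3, h4, h5]
  abel

theorem offX_offQ : OffQ Q (offX Q β h a b c) := by
  refine offQ_sub (offQ_sum _ fun x hx => offQ_smul _ (offQ_szM (Finset.mem_filter.1 hx).2))
    (offQ_sum _ fun e he => offQ_smul _ ?_)
  have h2 := (Finset.mem_filter.1 he).2
  rw [not_or] at h2
  exact offQ_hM h2.1 h2.2

theorem offX_isHermitian : (offX Q β h a b c).IsHermitian :=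
  (sum_isHermitian _ fun _ _ => smul_real_isHermitian (szM_isHermitian _) _).sub
    (sum_isHermitian _ fun _ _ => smul_real_isHermitian (hM_isHermitian _ _) _)

theorem fldX_onQ : OnQ Q (fldX Q β h) := onQ_sum _ fun _ hx => onQ_smul _ (onQ_szM hx)

theorem fldX_isHermitian : (fldX Q β h).IsHermitian :=
  sum_isHermitian _ fun _ _ => smul_real_isHermitian (szM_isHermitian _) _

theorem inX_onQ : OnQ Q (inX Q β a b c) :=
  onQ_sum _ fun _ he => onQ_smul _ (onQ_hM (Finset.mem_filter.1 he).2.1 (Finset.mem_filter.1 he).2.2)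

theorem inX_isHermitian : (inX Q β a b c).IsHermitian :=
  sum_isHermitian _ fun _ _ => smul_real_isHermitian (hM_isHermitian _ _) _

variable {β c}

theorem inX_posSemidef (hβ : 0 ≤ β) (hc : ∀ e, 0 ≤ c e) : (inX Q β a b c).PosSemidef :=
  Matrix.posSemidef_sum _ fun e _ => smul_real_posSemidef (hM_posSemidef _ _) (mul_nonneg hβ (hc e))

theorem bdX_posSemidef (hβ : 0 ≤ β) (hc : ∀ e, 0 ≤ c e) : (bdX Q β a b c).PosSemidef :=
  Matrix.posSemidef_sum _ fun e _ => smul_real_posSemidef (hM_posSemidef _ _) (mul_nonneg hβ (hc e))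

theorem bdX_le (hβ : 0 ≤ β) (hc : ∀ e, 0 ≤ c e) :
    ((((β * ∑ e with ((a e ∈ Q ∨ b e ∈ Q) ∧ ¬ (a e ∈ Q ∧ b e ∈ Q)), c e : ℝ) : ℂ) •
      (1 : Matrix (Cfg V) (Cfg V) ℂ)) - bdX Q β a b c).PosSemidef := by
  have e1 : ((((β * ∑ e with ((a e ∈ Q ∨ b e ∈ Q) ∧ ¬ (a e ∈ Q ∧ b e ∈ Q)), c e : ℝ) : ℂ) •
      (1 : Matrix (Cfg V) (Cfg V) ℂ)) - bdX Q β a b c) =
      ∑ e with ((a e ∈ Q ∨ b e ∈ Q) ∧ ¬ (a e ∈ Q ∧ b e ∈ Q)), ((β * c e : ℝ) : ℂ) •
        ((1 : Matrix (Cfg V) (Cfg V) ℂ) - hM (a e) (b e)) := by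
    simp only [smul_sub, Finset.sum_sub_distrib, bdX]
    rw [← Finset.sum_smul, Finset.mul_sum]
    push_cast
    rfl
  rw [e1]
  exact Matrix.posSemidef_sum _ fun e _ => smul_real_posSemidef (one_sub_hM_posSemidef _ _)
    (mul_nonneg hβ (hc e))

/-- **Local comparison** for the Gibbs state: observables of `Q` against the free region `Q`. -/
theorem gib_local_cmp (hβ : 0 ≤ β) (hc : ∀ e, 0 ≤ c e) {W : Matrix (Cfg V) (Cfg V) ℂ} (hW : OnQ Q W)
    (hWh : W.IsHermitian) :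
    ex (gibX β h a b c) W ≤
      Real.log (trace (NormedSpace.exp (resQ Q (fldX Q β h - inX Q β a b c + W)))).re -
      Real.log (trace (NormedSpace.exp (resQ Q (fldX Q β h - inX Q β a b c)))).re +
      β * ∑ e with ((a e ∈ Q ∨ b e ∈ Q) ∧ ¬ (a e ∈ Q ∧ b e ∈ Q)), c e := by
  rw [gibX_split Q β h a b c]
  exact local_cmp (offX_offQ Q β h a b c) (offX_isHermitian Q β h a b c)
    (onQ_sub (fldX_onQ Q β h) (inX_onQ Q β a b c))
    ((fldX_isHermitian Q β h).sub (inX_isHermitian Q β a b c)) hW hWh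
    (bdX_posSemidef Q a b hβ hc) (bdX_le Q a b hβ hc)

theorem inQ_zero : inQ Q 0 = (0 : Cfg V) := by
  funext x
  by_cases hx : x ∉ Q
  · rw [inQ, splitQ_out _ hx]; rfl
  · rw [inQ, splitQ_in _ hx]; rfl

/-- `tr e^X ≥ e^{X_ii}` -/
theorem exp_diag_le {κ : Type*} [Fintype κ] [DecidableEq κ] {X : Matrix κ κ ℂ} (hX : X.IsHermitian) (i : κ) :
    Real.exp (X i i).re ≤ (trace (NormedSpace.exp X)).re := by
  have h1 := tr_exp_submatrix_le hX (f := fun _ : Unit => i) (fun _ _ _ => rfl)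
  refine le_trans (le_of_eq ?_) h1
  have h2 : X.submatrix (fun _ : Unit => i) (fun _ : Unit => i) =
      (0 : Matrix Unit Unit ℂ) + (((X i i).re : ℝ) : ℂ) • (1 : Matrix Unit Unit ℂ) := by
    ext u v
    simp only [Matrix.submatrix_apply, Matrix.add_apply, Matrix.zero_apply, Matrix.smul_apply,
      Matrix.one_apply_eq, smul_eq_mul, mul_one, zero_add]
    have h3 := congrFun (congrFun hX i) i
    rw [Matrix.conjTranspose_apply] at h3
    exact (Complex.conj_eq_iff_re.1 h3).symm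
  rw [h2, trace_exp_add_smul_one]
  simp

theorem hM_zero_zero (x y : V) : (hM x y : Matrix (Cfg V) (Cfg V) ℂ) 0 0 = 0 := by
  have h0 : (0 : Cfg V) ∘ Equiv.swap x y = 0 := rfl
  simp [hM, swapM, h0]

theorem szM_zero_zero (x : V) : (szM x : Matrix (Cfg V) (Cfg V) ℂ) 0 0 = 1 / 2 := by
  simp [szM]

/-- **Local bound**: `⟨W⟩ ≤ log tr_Q e^{-β H_Q + W} + β |∂Q|` for fields `≥ 0` on `Q` (free region `Q`
without field). -/
theorem gib_local_le (hβ : 0 ≤ β) (hc : ∀ e, 0 ≤ c e) (hh : ∀ x ∈ Q, 0 ≤ h x)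
    {W : Matrix (Cfg V) (Cfg V) ℂ} (hW : OnQ Q W) (hWh : W.IsHermitian) :
    ex (gibX β h a b c) W ≤
      Real.log (trace (NormedSpace.exp (resQ Q (W - inX Q β a b c)))).re +
      β * ∑ e with ((a e ∈ Q ∨ b e ∈ Q) ∧ ¬ (a e ∈ Q ∧ b e ∈ Q)), c e := by
  have hin := inX_isHermitian Q β a b c
  have h1 := gib_local_cmp Q h a b hβ hc hW hWh
  set H : ℝ := ∑ x ∈ Q, β * h x / 2 with hH
  have hD := fldX_isHermitian Q β h
  -- upper bound
  have hup : (trace (NormedSpace.exp (resQ Q (fldX Q β h - inX Q β a b c + W)))).re ≤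
      Real.exp H * (trace (NormedSpace.exp (resQ Q (W - inX Q β a b c)))).re := by
    rw [← trace_exp_add_smul_one]
    refine trace_exp_mono (resQ_isHermitian ((hD.sub hin).add hWh))
      ((resQ_isHermitian (hWh.sub hin)).add
        (smul_real_isHermitian Matrix.isHermitian_one H)) ?_
    have h1r : resQ Q (1 : Matrix (Cfg V) (Cfg V) ℂ) = 1 :=
      Matrix.submatrix_one (inQ Q) inQ_injective
    have e2 : resQ Q (W - inX Q β a b c) +
        (H : ℂ) • (1 : Matrix (({x // ¬ x ∉ Q}) → Fin 2) (({x // ¬ x ∉ Q}) → Fin 2) ℂ) -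
        resQ Q (fldX Q β h - inX Q β a b c + W) =
        resQ Q (∑ x ∈ Q, ((β * h x : ℝ) : ℂ) •
          ((1 / 2 : ℂ) • (1 : Matrix (Cfg V) (Cfg V) ℂ) - szM x)) := by
      rw [← h1r]
      have e3 : (∑ x ∈ Q, ((β * h x : ℝ) : ℂ) •
          ((1 / 2 : ℂ) • (1 : Matrix (Cfg V) (Cfg V) ℂ) - szM x)) =
          (H : ℂ) • (1 : Matrix (Cfg V) (Cfg V) ℂ) - fldX Q β h := by
        simp only [smul_sub, Finset.sum_sub_distrib, smul_smul, ← Finset.sum_smul, fldX]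
        rw [hH]
        push_cast
        have h4 : (∑ x ∈ Q, (β : ℂ) * (h x : ℂ) * (1 / 2)) = ∑ x ∈ Q, (β : ℂ) * (h x : ℂ) / 2 :=
          Finset.sum_congr rfl fun x _ => by ring
        rw [h4]
      rw [e3]
      unfold resQ
      simp only [Matrix.submatrix_smul, Matrix.submatrix_add, Matrix.submatrix_sub, Pi.add_apply,
        Pi.sub_apply, Pi.smul_apply]
      abel
    rw [e2]
    exact (Matrix.posSemidef_sum _ fun x hx =>
      smul_real_posSemidef (half_sub_szM_posSemidef x) (mul_nonneg hβ (hh x hx))).submatrix _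
  -- lower bound
  have hlow : Real.exp H ≤ (trace (NormedSpace.exp (resQ Q (fldX Q β h - inX Q β a b c)))).re := by
    have h2 := exp_diag_le (resQ_isHermitian (Q := Q) (hD.sub hin)) 0
    refine le_trans (le_of_eq ?_) h2
    congr 1
    rw [resQ, Matrix.submatrix_apply, inQ_zero, Matrix.sub_apply, fldX, inX, Matrix.sum_apply,
      Matrix.sum_apply]
    simp only [Matrix.smul_apply, hM_zero_zero, szM_zero_zero, smul_eq_mul, mul_zero,
      Finset.sum_const_zero, sub_zero]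
    rw [Complex.re_sum, hH]
    refine Finset.sum_congr rfl fun x _ => ?_
    rw [Complex.re_ofReal_mul]
    norm_num
    ring
  have p1 := trace_exp_pos (resQ_isHermitian (Q := Q) (hWh.sub hin))
  have p2 := trace_exp_pos (resQ_isHermitian (Q := Q) ((hD.sub hin).add hWh))
  have l1 := Real.log_le_log p2 hup
  rw [Real.log_mul (Real.exp_pos _).ne' p1.ne', Real.log_exp] at l1
  have l2 := Real.log_le_log (Real.exp_pos _) hlow
  rw [Real.log_exp] at l2
  linarith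

/-- **(7')** half of the energy. -/
theorem energy_half (hβ : 0 ≤ β) (hc : ∀ e, 0 ≤ c e) (hh : ∀ x ∈ Q, 0 ≤ h x) :
    (1 / 2) * (β * ∑ e with (a e ∈ Q ∧ b e ∈ Q), c e * ex (gibX β h a b c) (hM (a e) (b e))) ≤
      Real.log (trace (NormedSpace.exp (resQ Q (((-(1 / 2) : ℝ) : ℂ) • inX Q β a b c)))).re +
      β * ∑ e with ((a e ∈ Q ∨ b e ∈ Q) ∧ ¬ (a e ∈ Q ∧ b e ∈ Q)), c e := by
  have hin := inX_isHermitian Q β a b c
  have h1 := gib_local_le Q h a b hβ hc hh (onQ_smul ((1 / 2 : ℝ) : ℂ) (inX_onQ Q β a b c))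
    (smul_real_isHermitian hin _)
  rw [ex_smul, inX, ex_sum] at h1
  have e1 : ∑ k with (a k ∈ Q ∧ b k ∈ Q), ex (gibX β h a b c) (((β * c k : ℝ) : ℂ) • hM (a k) (b k)) =
      β * ∑ e with (a e ∈ Q ∧ b e ∈ Q), c e * ex (gibX β h a b c) (hM (a e) (b e)) := by
    rw [Finset.mul_sum]
    refine Finset.sum_congr rfl fun e _ => ?_
    rw [ex_smul]
    ring
  have e2 : ((1 / 2 : ℝ) : ℂ) • inX Q β a b c - inX Q β a b c =
      ((-(1 / 2) : ℝ) : ℂ) • inX Q β a b c := by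
    push_cast
    module
  rw [e1, ← inX, e2] at h1
  exact h1

end

end Vale.Agent.P361.LRO.Energy
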