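import Vale.Agent.P361.LRO.Bloch.EnergyHalf
import Vale.Agent.P361.LRO.Bloch.Emb
import Vale.Agent.P361.LRO.Energy.Torus
import Vale.Agent.P361.LRO.Fin.Bridge
import Vale.Agent.P361.LRO.S3.LT0Bridge
import Vale.Agent.P361.H.Fourier

/-! # P361 LRO, stage 3 (E): the free cube of the torus and `Zt` (helper348) -/

namespace Vale.Agent.P361.LRO.Energy.ET

open Matrix Finset Vale.Agent.P361.LRO.Loc3
open scoped ComplexOrder

set_option linter.unusedSectionVars false

noncomputable section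

variable {n : ℕ} [NeZero n]

/-- the box in the torus -/
def eC (x : Tor n) (l : ℕ) (u : B.cube l) : Tor n := x + fun i => ((u.1 i : ℤ) : ZMod n)

theorem mem_bcube {l : ℕ} {u : Site} : u ∈ B.cube l ↔ ∀ i, 0 ≤ u i ∧ u i < l := by
  simp [B.cube, Fintype.mem_piFinset, Finset.mem_Ico]

theorem eC_injective {x : Tor n} {l : ℕ} (hl : l ≤ n) : Function.Injective (eC x l) := by
  intro u v h
  have h1 : (fun i => ((u.1 i : ℤ) : ZMod n)) = fun i => ((v.1 i : ℤ) : ZMod n) := add_left_cancel h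
  refine Subtype.ext (funext fun i => ?_)
  have h2 := congrFun h1 i
  have hu := mem_bcube.1 u.2 i
  have hv := mem_bcube.1 v.2 i
  have h3 := (ZMod.intCast_eq_intCast_iff _ _ _).1 h2
  unfold Int.ModEq at h3
  rwa [Int.emod_eq_of_lt hu.1 (by omega), Int.emod_eq_of_lt hv.1 (by omega)] at h3

theorem eC_mem (x : Tor n) (l : ℕ) (u : B.cube l) : eC x l u ∈ cube n x l := by
  have hu := mem_bcube.1 u.2
  refine mem_cube.2 ⟨fun i => ⟨(u.1 i).toNat, by have := hu i; omega⟩, ?_⟩
  rw [eC]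
  congr 1
  funext i
  have h1 : ((u.1 i).toNat : ℤ) = u.1 i := Int.toNat_of_nonneg (hu i).1
  calc ((u.1 i : ℤ) : ZMod n) = (((u.1 i).toNat : ℤ) : ZMod n) := by rw [h1]
    _ = (((u.1 i).toNat : ℕ) : ZMod n) := by push_cast; rfl

theorem nxt_eC (x : Tor n) (l : ℕ) (u v : B.cube l) (i : Fin 3) (h : v.1 = u.1 + Pi.single i 1) :
    eC x l v = nxt (eC x l u, i) := by
  rw [nxt, eC, eC, h, add_assoc]
  congr 1
  funext j
  by_cases hj : j = i
  · subst hj
    simp
  · simp [hj]

theorem hM_symm {V : Type} [Fintype V] [DecidableEq V] (x y : V) :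
    (hM x y : Matrix (Cfg V) (Cfg V) ℂ) = hM y x := by
  rw [hM, hM, swapM, swapM, Equiv.swap_comm]

/-- the nearest neighbour sum -/
theorem ite_isNN {M : Type*} [AddCommMonoid M] (x y : Site) (m : M) :
    (if IsNN x y then m else 0) =
      (∑ i : Fin 3, if y = x + Pi.single i 1 then m else 0) +
        ∑ i : Fin 3, if x = y + Pi.single i 1 then m else 0 := by
  have hd : ∀ i : Fin 3, (x = y + Pi.single i 1) ↔ (y = x + H.dir (i, false)) := by
    intro i
    have e : (H.dir (i, false) : Site) = - Pi.single i 1 := by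
      rw [H.dir, ← Pi.single_neg]
      rfl
    rw [e]
    constructor
    · rintro rfl; simp
    · rintro rfl; simp
  have hs : (∑ i : Fin 3, if y = x + Pi.single i 1 then m else 0) +
        (∑ i : Fin 3, if x = y + Pi.single i 1 then m else 0) =
      ∑ p : Fin 3 × Bool, if y = x + H.dir p then m else 0 := by
    rw [Fintype.sum_prod_type]
    simp only [Fintype.sum_bool]
    rw [Finset.sum_add_distrib]
    congr 1
    refine Finset.sum_congr rfl fun i _ => ?_
    simp only [hd]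
  rw [hs]
  by_cases h : IsNN x y
  · rw [if_pos h]
    obtain ⟨p, hp⟩ := (H.isNN_iff x y).1 h
    rw [Finset.sum_eq_single p]
    · rw [if_pos hp]
    · intro q _ hq
      rw [if_neg]
      intro h2
      rw [hp] at h2
      exact hq (H.dir_injective (add_left_cancel h2)).symm
    · intro h3
      exact absurd (Finset.mem_univ _) h3
  · rw [if_neg h, Finset.sum_eq_zero]
    intro p _
    rw [if_neg]
    intro h2
    exact h ((H.isNN_iff x y).2 ⟨p, h2⟩)

theorem sum_isNN {M : Type*} [AddCommMonoid M] {Λ : Finset Site} (f : Λ → Λ → M)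
    (hf : ∀ u v, f u v = f v u) :
    (∑ u : Λ, ∑ v : Λ, if IsNN u.1 v.1 then f u v else 0) =
      (∑ u : Λ, ∑ v : Λ, ∑ i : Fin 3, if v.1 = u.1 + Pi.single i 1 then f u v else 0) +
      (∑ u : Λ, ∑ v : Λ, ∑ i : Fin 3, if v.1 = u.1 + Pi.single i 1 then f u v else 0) := by
  simp only [ite_isNN, Finset.sum_add_distrib]
  congr 1
  rw [Finset.sum_comm]
  refine Finset.sum_congr rfl fun u _ => Finset.sum_congr rfl fun v _ =>
    Finset.sum_congr rfl fun i _ => ?_
  rw [hf]

theorem cm_eq_cpx {V : Type} [Fintype V] [DecidableEq V] (A : Matrix (V → Fin 2) (V → Fin 2) ℝ) :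
    TwJ.cm A = cpx A := by
  ext i j
  rfl

theorem hT_eq {Λ : Finset Site} : (B.hT 1 Λ : Matrix (Λ → Fin 2) (Λ → Fin 2) ℂ) =
    ∑ u : Λ, ∑ v : Λ, ∑ i : Fin 3, if v.1 = u.1 + Pi.single i 1 then hM u v else 0 := by
  have h0 : TwJ.cm (ham (S3.nnL Λ) 0) = ∑ x : Λ, ∑ y : Λ,
      if IsNN x.1 y.1 then (hM x y : Matrix (Λ → Fin 2) (Λ → Fin 2) ℂ) else 0 := by
    have e1 : ham (S3.nnL Λ) (0 : Λ → ℝ) = ∑ e ∈ (Finset.univ : Finset (Λ × Λ)).filter
        (fun e => IsNN e.1.1 e.2.1), LRO.hM e.1 e.2 := by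
      rw [ham, S3.nnL, Finset.sum_map_toList]
      simp
    rw [e1, cm_eq_cpx, cpx_sum, Finset.sum_filter, Fintype.sum_prod_type]
    simp only [cpx_hM]
  rw [S3.hT_one, h0, sum_isNN (fun u v => (hM u v : Matrix (Λ → Fin 2) (Λ → Fin 2) ℂ)) hM_symm,
    smul_add, ← add_smul]
  norm_num

/-- bonds inside `Q` -/
def ins (Q : Finset (Tor n)) : Finset (Tor n × Fin 3) :=
  Finset.univ.filter fun z => z.1 ∈ Q ∧ nxt z ∈ Q

/-- the free box is below the bonds inside the cube -/
theorem emb_hT_le (x : Tor n) {l : ℕ} (hl : l ≤ n) :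
    ((∑ z ∈ ins (cube n x l), (hM z.1 (nxt z) : Matrix (Cfg (Tor n)) (Cfg (Tor n)) ℂ)) -
      emb (eC x l) (B.hT 1 (B.cube l))).PosSemidef := by
  classical
  have he := eC_injective (x := x) hl
  set T : Finset (B.cube l × Fin 3) := Finset.univ.filter fun p => p.1.1 + Pi.single p.2 1 ∈ B.cube l
    with hT
  have h1 : emb (eC x l) (B.hT 1 (B.cube l)) =
      ∑ p ∈ T, (hM (eC x l p.1) (nxt (eC x l p.1, p.2)) : Matrix (Cfg (Tor n)) (Cfg (Tor n)) ℂ) := by
    rw [hT_eq, emb_sum, hT, Finset.sum_filter, Fintype.sum_prod_type]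
    refine Finset.sum_congr rfl fun u _ => ?_
    rw [Finset.sum_comm, emb_sum]
    refine Finset.sum_congr rfl fun i _ => ?_
    rw [emb_sum]
    have e1 : ∀ v : B.cube l, emb (eC x l) (if v.1 = u.1 + Pi.single i 1 then hM u v else 0) =
        if v.1 = u.1 + Pi.single i 1 then
          (hM (eC x l u) (nxt (eC x l u, i)) : Matrix (Cfg (Tor n)) (Cfg (Tor n)) ℂ) else 0 := by
      intro v
      split_ifs with h
      · rw [emb_hM he, nxt_eC x l u v i h]
      · exact emb_zero _
    simp only [e1]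
    refine (Finset.sum_coe_sort (B.cube l) (fun v => if v = u.1 + Pi.single i 1 then
      (hM (eC x l u) (nxt (eC x l u, i)) : Matrix (Cfg (Tor n)) (Cfg (Tor n)) ℂ) else 0)).trans ?_
    rw [Finset.sum_ite_eq']
  have hinj : Function.Injective fun p : B.cube l × Fin 3 => (eC x l p.1, p.2) := by
    intro p q h
    have h2 := Prod.mk.inj h
    exact Prod.ext (he h2.1) h2.2
  have h2 : emb (eC x l) (B.hT 1 (B.cube l)) =
      ∑ z ∈ T.image fun p => (eC x l p.1, p.2), (hM z.1 (nxt z) : Matrix (Cfg (Tor n)) (Cfg (Tor n)) ℂ) := by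
    rw [h1, Finset.sum_image fun p _ q _ h => hinj h]
  have h3 : (T.image fun p => (eC x l p.1, p.2)) ⊆ ins (cube n x l) := by
    intro z hz
    obtain ⟨p, hp, rfl⟩ := Finset.mem_image.1 hz
    have hp' := (Finset.mem_filter.1 hp).2
    refine Finset.mem_filter.2 ⟨Finset.mem_univ _, eC_mem x l p.1, ?_⟩
    have := nxt_eC x l p.1 ⟨_, hp'⟩ p.2 rfl
    rw [← this]
    exact eC_mem x l _
  rw [h2, ← Finset.sum_sdiff h3, add_sub_cancel_right]
  exact Matrix.posSemidef_sum _ fun z _ => hM_posSemidef _ _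

/-- log trace of the region -/
theorem log_resQ {V : Type} [Fintype V] [DecidableEq V] (Q : Finset V) {B : Matrix (Cfg V) (Cfg V) ℂ}
    (hB : OnQ Q B) (hBh : B.IsHermitian) :
    Real.log (trace (NormedSpace.exp (resQ Q B))).re = nlt B + Q.card * Real.log 2 := by
  have h0 : OffQ Q (0 : Matrix (Cfg V) (Cfg V) ℂ) := by
    intro s t q q'
    simp
  have h1 := tr_exp_off_on h0 Matrix.isHermitian_zero hB hBh
  have h00 : (0 : Matrix (Cfg V) (Cfg V) ℂ).submatrix (extQ Q) (extQ Q) = 0 := rfl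
  rw [zero_add, h00, NormedSpace.exp_zero, Matrix.trace_one] at h1
  have h2 : Fintype.card {x // x ∉ Q} + Q.card = Fintype.card V := by
    rw [Fintype.card_subtype_compl, Fintype.card_coe]
    have := Q.card_le_univ
    omega
  have h3 := trace_exp_pos (resQ_isHermitian (Q := Q) hBh)
  unfold nlt
  rw [h1, Fintype.card_fun, Fintype.card_fin, ← h2]
  have h4 : (((2 ^ Fintype.card {x // x ∉ Q} : ℕ) : ℂ)).re = (2 : ℝ) ^ Fintype.card {x // x ∉ Q} := by
    rw [Complex.natCast_re]
    push_cast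
    rfl
  rw [h4, Real.log_mul (by positivity) h3.ne', Real.log_pow]
  push_cast
  ring

theorem sum_get {M : Type*} [AddCommMonoid M] (F : Tor n × Tor n → M) :
    ∑ i : Fin (edges n).length, F ((edges n).get i) = ∑ z : Tor n × Fin 3, F (z.1, nxt z) := by
  have h := sum_edges (n := n) F
  rw [← Fin.sum_univ_fun_getElem] at h
  exact h

/-- the bonds inside in the exponent -/
theorem inX_edges (Q : Finset (Tor n)) (β : ℝ) :
    inX Q β (fun i : Fin (edges n).length => ((edges n).get i).1) (fun i => ((edges n).get i).2)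
      (fun _ => 1) = (β : ℂ) • ∑ z ∈ ins Q, (hM z.1 (nxt z) : Matrix (Cfg (Tor n)) (Cfg (Tor n)) ℂ) := by
  rw [inX, Finset.sum_filter, ins, Finset.sum_filter, Finset.smul_sum]
  refine (sum_get (fun e : Tor n × Tor n => if e.1 ∈ Q ∧ e.2 ∈ Q then
    (((β * 1 : ℝ)) : ℂ) • (hM e.1 e.2 : Matrix (Cfg (Tor n)) (Cfg (Tor n)) ℂ) else 0)).trans ?_
  refine Finset.sum_congr rfl fun z _ => ?_
  rw [mul_one, smul_ite, smul_zero]

/-- the free cube of the torus against the free box -/
theorem log_resQ_le (x : Tor n) {l : ℕ} (hl : l ≤ n) {β : ℝ} (hβ : 0 ≤ β) :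
    Real.log (trace (NormedSpace.exp (resQ (cube n x l) (((-(1 / 2) : ℝ) : ℂ) •
      inX (cube n x l) β (fun i : Fin (edges n).length => ((edges n).get i).1)
        (fun i => ((edges n).get i).2) (fun _ => 1))))).re ≤
      Real.log (B.Zt 1 (B.cube l) (β / 2) 0) := by
  have hin := inX_isHermitian (cube n x l) β (fun i : Fin (edges n).length => ((edges n).get i).1)
        (fun i => ((edges n).get i).2) (fun _ => 1)
  have hon := inX_onQ (cube n x l) β (fun i : Fin (edges n).length => ((edges n).get i).1)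
        (fun i => ((edges n).get i).2) (fun _ => 1)
  have hT : (B.hT 1 (B.cube l)).IsHermitian := B.hT_isHermitian
  have hX : ((((-(β / 2)) : ℝ) : ℂ) • B.hT 1 (B.cube l)).IsHermitian := smul_real_isHermitian hT _
  rw [log_resQ _ (onQ_smul _ hon) (smul_real_isHermitian hin _)]
  have h1 : nlt (((-(1 / 2) : ℝ) : ℂ) •
      inX (cube n x l) β (fun i : Fin (edges n).length => ((edges n).get i).1)
        (fun i => ((edges n).get i).2) (fun _ => 1)) ≤
      nlt ((((-(β / 2)) : ℝ) : ℂ) • B.hT 1 (B.cube l)) := by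
    rw [← nlt_emb (eC x l) (eC_injective hl) hX]
    unfold nlt
    refine sub_le_sub_right (Real.log_le_log (trace_exp_pos (smul_real_isHermitian hin _)) ?_) _
    refine trace_exp_mono (smul_real_isHermitian hin _) (emb_isHermitian _ hX) ?_
    have e : emb (eC x l) ((((-(β / 2)) : ℝ) : ℂ) • B.hT 1 (B.cube l)) -
        ((-(1 / 2) : ℝ) : ℂ) • inX (cube n x l) β (fun i : Fin (edges n).length => ((edges n).get i).1)
        (fun i => ((edges n).get i).2) (fun _ => 1) =
        (((β / 2 : ℝ)) : ℂ) • ((∑ z ∈ ins (cube n x l),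
          (hM z.1 (nxt z) : Matrix (Cfg (Tor n)) (Cfg (Tor n)) ℂ)) -
          emb (eC x l) (B.hT 1 (B.cube l))) := by
      rw [emb_smul, inX_edges, smul_smul, smul_sub]
      push_cast
      module
    rw [e]
    exact smul_real_posSemidef (emb_hT_le x hl) (by positivity)
  have h2 : Real.log (B.Zt 1 (B.cube l) (β / 2) 0) =
      nlt ((((-(β / 2)) : ℝ) : ℂ) • B.hT 1 (B.cube l)) + ((l : ℝ) ^ 3) * Real.log 2 := by
    have e : -((((β / 2 : ℝ)) : ℂ) • B.hT 1 (B.cube l) + (((0 : ℝ)) : ℂ) • B.numOp 1 (B.cube l)) =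
        (((-(β / 2)) : ℝ) : ℂ) • B.hT 1 (B.cube l) := by
      push_cast
      module
    have hc : Fintype.card (B.cube l) = l ^ 3 := by
      rw [Fintype.card_coe, B.cube_eq, card_cube]
    rw [B.Zt, e]
    unfold nlt
    rw [hc]
    push_cast
    ring
  have h3 : ((cube n x l).card : ℝ) ≤ (l : ℝ) ^ 3 := by exact_mod_cast card_cube_le x l
  have h4 : 0 ≤ Real.log 2 := Real.log_nonneg (by norm_num)
  have h5 := mul_le_mul_of_nonneg_right h3 h4
  rw [h2]
  linarith

/-- **Energy of a cube**, log-free input form. -/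
theorem energy_ins {β : ℝ} (hβ : 0 ≤ β) {h : Tor n → ℝ} (hh : ∀ x, 0 ≤ h x) (x : Tor n) {l : ℕ}
    (hl0 : 0 < l) (hl : l ≤ n) :
    β * ∑ z ∈ ins (cube n x l), eb n β h z ≤
      2 * (Real.log (B.Zt 1 (B.cube l) (β / 2) 0) + 6 * β * (l : ℝ) ^ 2) := by
  have h1 := energy_half (cube n x l) h (fun i : Fin (edges n).length => ((edges n).get i).1)
    (fun i => ((edges n).get i).2) hβ (c := fun _ => 1) (fun _ => zero_le_one) (fun y _ => hh y)
  have h2 := log_resQ_le x hl hβ
  have h3 : ∑ i : Fin (edges n).length with (((edges n).get i).1 ∈ cube n x l ∧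
      ((edges n).get i).2 ∈ cube n x l), (1 : ℝ) * ex (gibX β h (fun i : Fin (edges n).length =>
        ((edges n).get i).1) (fun i => ((edges n).get i).2) (fun _ => 1))
        (hM ((edges n).get i).1 ((edges n).get i).2) = ∑ z ∈ ins (cube n x l), eb n β h z := by
    rw [Finset.sum_filter, ins, Finset.sum_filter]
    simp only [one_mul, ← gib_hM]
    exact edges_sum (fun e => if e.1 ∈ cube n x l ∧ e.2 ∈ cube n x l then
      gib (edges n) β h (LRO.hM e.1 e.2) else 0)
  have h4 : ∑ i : Fin (edges n).length with ((((edges n).get i).1 ∈ cube n x l ∨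
      ((edges n).get i).2 ∈ cube n x l) ∧ ¬ (((edges n).get i).1 ∈ cube n x l ∧
      ((edges n).get i).2 ∈ cube n x l)), (1 : ℝ) = ((bdy (cube n x l)).card : ℝ) := by
    rw [Finset.sum_filter, bdy, Finset.card_filter]
    push_cast
    exact edges_sum (fun e => if (e.1 ∈ cube n x l ∨ e.2 ∈ cube n x l) ∧
      ¬ (e.1 ∈ cube n x l ∧ e.2 ∈ cube n x l) then 1 else 0)
  rw [h3, h4] at h1
  have h5 : ((bdy (cube n x l)).card : ℝ) ≤ 6 * (l : ℝ) ^ 2 := by exact_mod_cast card_bdy_le x hl0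
  have h6 := mul_le_mul_of_nonneg_left h5 hβ
  linarith

end

end Vale.Agent.P361.LRO.Energy.ET
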