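import Mathlib

/-!
P361, stage 3: from all moments to the exponential moment (finite sums).
-/

namespace Vale.Agent.P361.LRO.Bloch

open Finset

/-- `κ^m E[x^m] ≤ m!` for all `m` implies `E[exp (κ x / 2)] ≤ 2` (finite measures). -/
theorem exp_moment {ι : Type*} [Fintype ι] {w x : ι → ℝ} {κ S : ℝ}
    (hm : ∀ m : ℕ, κ ^ m * ∑ i, w i * x i ^ m ≤ (m.factorial : ℝ) * S) :
    ∑ i, w i * Real.exp (κ * x i / 2) ≤ 2 * S := by
  have h1 : HasSum (fun m : ℕ => ∑ i, w i * ((κ * x i / 2) ^ m / (m.factorial : ℝ)))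
      (∑ i, w i * Real.exp (κ * x i / 2)) := by
    refine hasSum_sum fun i _ => ?_
    have := (NormedSpace.expSeries_div_hasSum_exp (𝔸 := ℝ) (κ * x i / 2)).mul_left (w i)
    rwa [← Real.exp_eq_exp_ℝ] at this
  have h2 : HasSum (fun m : ℕ => (1 / 2 : ℝ) ^ m * S) (2 * S) := by
    have := (hasSum_geometric_of_lt_one (r := (1 / 2 : ℝ)) (by norm_num) (by norm_num)).mul_right S
    norm_num at this
    simpa using this
  refine hasSum_le (fun m => ?_) h1 h2
  have h3 : ∑ i, w i * ((κ * x i / 2) ^ m / (m.factorial : ℝ)) =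
      (1 / 2 : ℝ) ^ m / (m.factorial : ℝ) * (κ ^ m * ∑ i, w i * x i ^ m) := by
    rw [Finset.mul_sum, Finset.mul_sum]
    refine Finset.sum_congr rfl fun i _ => ?_
    rw [div_pow, mul_pow, div_pow, one_pow]
    ring
  rw [h3]
  have hf : (0 : ℝ) < (m.factorial : ℝ) := by exact_mod_cast m.factorial_pos
  calc (1 / 2 : ℝ) ^ m / (m.factorial : ℝ) * (κ ^ m * ∑ i, w i * x i ^ m)
      ≤ (1 / 2 : ℝ) ^ m / (m.factorial : ℝ) * ((m.factorial : ℝ) * S) :=
        mul_le_mul_of_nonneg_left (hm m) (by positivity)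
    _ = (1 / 2 : ℝ) ^ m * S := by field_simp

end Vale.Agent.P361.LRO.Bloch
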