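import Vale.Agent.P361.LRO.Bloch.HwPeierls

set_option linter.unusedSectionVars false

/-!
P361, Bloch's law, input (U): Peierls comparison with free bosons for an arbitrary one-particle
function.
-/

namespace Vale.Agent.P361.B.Hw

open Finset Filter Topology

variable {V : Type*} [Fintype V] [DecidableEq V]
variable {n N : ℕ} {adj : V → V → Prop} [DecidableRel adj] {e : V → V → ℝ} {lam : V → ℝ}
variable {ψ : (V → ℕ) → ℝ}

theorem peierls_f {ι : Type*} (hS : Spec adj e lam)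
    {k0 : V} {c : ℝ} (hc0 : ∀ x, e k0 x = c) (f : V → ℝ)
    (I : Finset ι) (E : ι → ℝ) (ψ : ι → (V → ℕ) → ℝ)
    (hsupp : ∀ i ∈ I, ∀ ζ, ζ ∉ occBox V n → ψ i ζ = 0)
    (hsect : ∀ i ∈ I, ∀ ζ : V → ℕ, ∑ x, ζ x ≠ N → ψ i ζ = 0)
    (hnorm : ∀ i ∈ I, ∑ ζ ∈ occBox V n, ψ i ζ ^ 2 = 1)
    (horth : ∀ i ∈ I, ∀ j ∈ I, i ≠ j → ∑ ζ ∈ occBox V n, ψ i ζ * ψ j ζ = 0)
    (hz : ∀ i ∈ I, IsHW (ψ i))
    {d : ℝ} (hd : ∀ i ∈ I, ∑ k : Fin N → V, (∑ j, f (k j)) * four e (wf N (ψ i)) k ^ 2 ≤ E i + d) {β : ℝ} (hβ : 0 ≤ β) :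
    ∑ i ∈ I, Real.exp (-(β * E i)) ≤
      Real.exp (β * d) * ∑ m ∈ (occImg V N).filter (fun m => m k0 = 0),
        Real.exp (-(β * (∑ v, f v * (m v : ℝ)))) := by
  classical
  set w : ι → (V → ℕ) → ℝ := fun i m =>
    ∑ k : Fin N → V, if occ k = m then four e (wf N (ψ i)) k ^ 2 else 0 with hw
  have hw0 : ∀ i m, 0 ≤ w i m := fun i m =>
    Finset.sum_nonneg fun k _ => by split_ifs <;> positivity
  have hfib : ∀ (i : ι) (g : (V → ℕ) → ℝ), ∑ m ∈ occImg V N, g m * w i m =
      ∑ k : Fin N → V, g (occ k) * four e (wf N (ψ i)) k ^ 2 := by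
    intro i g
    simp only [hw, Finset.mul_sum]
    rw [Finset.sum_comm]
    refine Finset.sum_congr rfl fun k _ => ?_
    rw [Finset.sum_eq_single (occ k)]
    · rw [if_pos rfl]
    · intro m _ hm
      rw [if_neg (Ne.symm hm), mul_zero]
    · intro hk
      exact absurd (Finset.mem_image_of_mem _ (Finset.mem_univ k)) hk
  have hone : ∀ i ∈ I, ∑ m ∈ occImg V N, w i m = 1 := by
    intro i hi
    have h1 := hfib i (fun _ => 1)
    simp only [one_mul] at h1
    rw [h1, parseval hS]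
    have h2 := wf_inner (ψ₂ := ψ i) (hsupp i hi) (hsect i hi)
    have h3 : ∑ x, wf N (ψ i) x ^ 2 = ∑ x, wf N (ψ i) x * wf N (ψ i) x :=
      Finset.sum_congr rfl fun x _ => by ring
    rw [h3, h2, ← hnorm i hi]
    exact Finset.sum_congr rfl fun x _ => by ring
  have hle : ∀ m ∈ occImg V N, ∑ i ∈ I, w i m ≤ 1 := by
    intro m hm
    obtain ⟨k0, _, hk0⟩ := Finset.mem_image.1 hm
    have hc : (0 : ℝ) < cnt N m := by rw [← hk0]; exact cnt_occ_pos k0
    have hwm : ∀ i, w i m = cnt N m * four e (wf N (ψ i)) k0 ^ 2 := by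
      intro i
      simp only [hw]
      rw [cnt_eq_sum]
      push_cast
      rw [Finset.sum_mul]
      refine Finset.sum_congr rfl fun k _ => ?_
      split_ifs with hk
      · rw [one_mul, four_occ hS _ (wf_perm (ψ i)) (hk.trans hk0.symm)]
      · rw [zero_mul]
    set Φ : (Fin N → V) → ℝ := fun x => ∑ k : Fin N → V, if occ k = m then tens e k x else 0 with hΦ
    have hΦF : ∀ i, ∑ x, Φ x * wf N (ψ i) x = cnt N m * four e (wf N (ψ i)) k0 := by
      intro i
      simp only [hΦ, Finset.sum_mul]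
      rw [Finset.sum_comm, cnt_eq_sum]
      push_cast
      rw [Finset.sum_mul]
      refine Finset.sum_congr rfl fun k _ => ?_
      by_cases hk : occ k = m
      · simp only [if_pos hk, one_mul]
        rw [four_occ hS _ (wf_perm (ψ i)) (hk0.trans hk.symm)]
        rfl
      · simp only [if_neg hk, zero_mul, Finset.sum_const_zero]
    have hΦ2 : ∑ x, Φ x ^ 2 = cnt N m := by
      have h1 : ∀ x, Φ x ^ 2 = ∑ k : Fin N → V, ∑ l : Fin N → V,
          (if occ k = m then (1 : ℝ) else 0) * (if occ l = m then (1 : ℝ) else 0) *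
            (tens e k x * tens e l x) := by
        intro x
        rw [sq]
        simp only [hΦ]
        rw [Finset.sum_mul_sum]
        refine Finset.sum_congr rfl fun k _ => Finset.sum_congr rfl fun l _ => ?_
        by_cases hk : occ k = m <;> by_cases hl : occ l = m <;> simp [hk, hl]
      simp only [h1]
      rw [Finset.sum_comm, cnt_eq_sum]
      push_cast
      refine Finset.sum_congr rfl fun k _ => ?_
      rw [Finset.sum_comm]
      simp only [← Finset.mul_sum, tens_orth hS]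
      rw [Finset.sum_eq_single k]
      · by_cases hk : occ k = m <;> simp [hk]
      · intro l _ hl
        rw [if_neg (Ne.symm hl), mul_zero]
      · simp
    have hb := bessel I (fun i => wf N (ψ i)) Φ
      (fun i hi => by
        have h2 := wf_inner (ψ₂ := ψ i) (hsupp i hi) (hsect i hi)
        have h3 : ∑ x, wf N (ψ i) x ^ 2 = ∑ x, wf N (ψ i) x * wf N (ψ i) x :=
          Finset.sum_congr rfl fun x _ => by ring
        rw [h3, h2, ← hnorm i hi]
        exact Finset.sum_congr rfl fun x _ => by ring)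
      (fun i hi j hj hij => by
        rw [wf_inner (hsupp i hi) (hsect i hi)]
        exact horth i hi j hj hij)
    rw [hΦ2] at hb
    simp only [hΦF] at hb
    have h4 : ∑ i ∈ I, ((cnt N m : ℝ) * four e (wf N (ψ i)) k0) ^ 2 =
        cnt N m * ∑ i ∈ I, w i m := by
      rw [Finset.mul_sum]
      exact Finset.sum_congr rfl fun i _ => by rw [hwm]; ring
    rw [h4] at hb
    by_contra hcon
    push Not at hcon
    have : (cnt N m : ℝ) * 1 < cnt N m * ∑ i ∈ I, w i m := mul_lt_mul_of_pos_left hcon hc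
    linarith
  have hterm : ∀ i ∈ I, Real.exp (-(β * E i)) ≤
      Real.exp (β * d) * ∑ m ∈ occImg V N, w i m * Real.exp (-(β * (∑ v, f v * (m v : ℝ)))) := by
    intro i hi
    have h1 : ∑ k : Fin N → V, (∑ j, f (k j)) * four e (wf N (ψ i)) k ^ 2 =
        ∑ m ∈ occImg V N, (∑ v, f v * (m v : ℝ)) * w i m := by
      rw [hfib i (fun m => ∑ v, f v * (m v : ℝ))]
      exact Finset.sum_congr rfl fun k _ => by rw [sum_lam_occ]
    have h2 : Real.exp (∑ m ∈ occImg V N, w i m * (-(β * (∑ v, f v * (m v : ℝ))))) ≤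
        ∑ m ∈ occImg V N, w i m * Real.exp (-(β * (∑ v, f v * (m v : ℝ)))) := by
      have := convexOn_exp.map_sum_le (t := occImg V N) (w := w i)
        (p := fun m => -(β * (∑ v, f v * (m v : ℝ)))) (fun m _ => hw0 i m) (hone i hi)
        (fun m _ => Set.mem_univ _)
      simpa [smul_eq_mul] using this
    have h3 : ∑ m ∈ occImg V N, w i m * (-(β * (∑ v, f v * (m v : ℝ)))) = -(β * (∑ k : Fin N → V, (∑ j, f (k j)) * four e (wf N (ψ i)) k ^ 2)) := by
      rw [h1, Finset.mul_sum, ← Finset.sum_neg_distrib]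
      exact Finset.sum_congr rfl fun m _ => by ring
    rw [h3] at h2
    calc Real.exp (-(β * E i)) ≤ Real.exp (β * d + -(β * (∑ k : Fin N → V, (∑ j, f (k j)) * four e (wf N (ψ i)) k ^ 2))) := by
          apply Real.exp_le_exp.2
          have := mul_le_mul_of_nonneg_left (hd i hi) hβ
          linarith
      _ = Real.exp (β * d) * Real.exp (-(β * (∑ k : Fin N → V, (∑ j, f (k j)) * four e (wf N (ψ i)) k ^ 2))) := Real.exp_add _ _
      _ ≤ _ := mul_le_mul_of_nonneg_left h2 (Real.exp_pos _).le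
  have hwz : ∀ i ∈ I, ∀ m : V → ℕ, m k0 ≠ 0 → w i m = 0 := by
    intro i hi m hm
    simp only [hw]
    refine Finset.sum_eq_zero fun k _ => ?_
    split_ifs with hk
    · have h1 : ∃ j, k j = k0 := by
        by_contra hcon
        push Not at hcon
        apply hm
        rw [← hk]
        unfold occ
        exact Finset.sum_eq_zero fun j _ => if_neg (hcon j)
      obtain ⟨j, hj⟩ := h1
      rw [four_zero hS (hz i hi) hc0 k j hj]
      norm_num
    · rfl
  calc ∑ i ∈ I, Real.exp (-(β * E i))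
      ≤ ∑ i ∈ I, Real.exp (β * d) * ∑ m ∈ occImg V N, w i m * Real.exp (-(β * (∑ v, f v * (m v : ℝ)))) :=
        Finset.sum_le_sum hterm
    _ = Real.exp (β * d) * ∑ m ∈ occImg V N, (∑ i ∈ I, w i m) * Real.exp (-(β * (∑ v, f v * (m v : ℝ)))) := by
        rw [← Finset.mul_sum, Finset.sum_comm]
        congr 1
        exact Finset.sum_congr rfl fun m _ => by rw [Finset.sum_mul]
    _ = Real.exp (β * d) * ∑ m ∈ (occImg V N).filter (fun m => m k0 = 0),
          (∑ i ∈ I, w i m) * Real.exp (-(β * (∑ v, f v * (m v : ℝ)))) := by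
        congr 1
        symm
        refine Finset.sum_subset (Finset.filter_subset _ _) fun m hm hm2 => ?_
        have h1 : m k0 ≠ 0 := fun h => hm2 (Finset.mem_filter.2 ⟨hm, h⟩)
        rw [Finset.sum_eq_zero fun i hi => hwz i hi m h1, zero_mul]
    _ ≤ _ := by
        refine mul_le_mul_of_nonneg_left (Finset.sum_le_sum fun m hm => ?_) (Real.exp_pos _).le
        calc (∑ i ∈ I, w i m) * Real.exp (-(β * (∑ v, f v * (m v : ℝ))))
            ≤ 1 * Real.exp (-(β * (∑ v, f v * (m v : ℝ)))) :=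
              mul_le_mul_of_nonneg_right (hle m (Finset.mem_filter.1 hm).1) (Real.exp_pos _).le
          _ = _ := one_mul _


/-- All magnon numbers together. -/
theorem low_f {ι : Type*} (hS : Spec adj e lam)
    {k0 : V} {c : ℝ} (hc0 : ∀ x, e k0 x = c) (f : V → ℝ) (I : Finset ι) (E : ι → ℝ)
    (Nn : ι → ℕ) (ψ : ι → (V → ℕ) → ℝ)
    (hsupp : ∀ i ∈ I, ∀ ζ, ζ ∉ occBox V n → ψ i ζ = 0)
    (hsect : ∀ i ∈ I, ∀ ζ : V → ℕ, ∑ x, ζ x ≠ Nn i → ψ i ζ = 0)
    (hnorm : ∀ i ∈ I, ∑ ζ ∈ occBox V n, ψ i ζ ^ 2 = 1)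
    (horth : ∀ i ∈ I, ∀ j ∈ I, i ≠ j → ∑ ζ ∈ occBox V n, ψ i ζ * ψ j ζ = 0)
    (hz : ∀ i ∈ I, IsHW (ψ i))
    {d : ℝ} (hd : ∀ i ∈ I, ∑ k : Fin (Nn i) → V, (∑ j, f (k j)) *
      four e (wf (Nn i) (ψ i)) k ^ 2 ≤ E i + d) {β : ℝ} (hβ : 0 ≤ β)
    (hf : ∀ k, k ≠ k0 → 0 < β * f k) :
    ∑ i ∈ I, Real.exp (-(β * E i)) ≤
      Real.exp (β * d) * ∏ k, (if k = k0 then 1 else (1 - Real.exp (-(β * f k)))⁻¹) := by
  classical
  obtain ⟨N1, hN1⟩ : ∃ N1 : ℕ, ∀ i ∈ I, Nn i ≤ N1 :=
    ⟨I.sup Nn, fun i hi => Finset.le_sup hi⟩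
  have hsplit : ∑ i ∈ I, Real.exp (-(β * E i)) =
      ∑ N ∈ Finset.range (N1 + 1),
        ∑ i ∈ I.filter (fun i => Nn i = N), Real.exp (-(β * E i)) := by
    rw [← Finset.sum_fiberwise_of_maps_to (s := I) (t := Finset.range (N1 + 1)) (g := Nn)
      (fun i hi => Finset.mem_range.2 (Nat.lt_succ_of_le (hN1 i hi)))]
  rw [hsplit]
  have hN : ∀ N, ∑ i ∈ I.filter (fun i => Nn i = N), Real.exp (-(β * E i)) ≤
      Real.exp (β * d) * ∑ m ∈ (occImg V N).filter (fun m => m k0 = 0),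
        Real.exp (-(β * (∑ v, f v * (m v : ℝ)))) := by
    intro N
    refine peierls_f (n := n) hS hc0 f _ E ψ ?_ ?_ ?_ ?_ ?_ ?_ hβ
    · intro i hi
      exact hsupp i (Finset.mem_filter.1 hi).1
    · intro i hi ζ hζ
      exact hsect i (Finset.mem_filter.1 hi).1 ζ (by rwa [(Finset.mem_filter.1 hi).2])
    · intro i hi
      exact hnorm i (Finset.mem_filter.1 hi).1
    · intro i hi j hj hij
      exact horth i (Finset.mem_filter.1 hi).1 j (Finset.mem_filter.1 hj).1 hij
    · intro i hi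
      exact hz i (Finset.mem_filter.1 hi).1
    · intro i hi
      obtain ⟨h1, h2⟩ := Finset.mem_filter.1 hi
      subst h2
      exact hd i h1
  have hstep : ∑ N ∈ Finset.range (N1 + 1),
        ∑ i ∈ I.filter (fun i => Nn i = N), Real.exp (-(β * E i)) ≤
      Real.exp (β * d) * ∑ N ∈ Finset.range (N1 + 1),
        ∑ m ∈ (occImg V N).filter (fun m => m k0 = 0), ∏ v, Real.exp (-(β * f v)) ^ (m v) := by
    rw [Finset.mul_sum]
    refine Finset.sum_le_sum fun N _ => (hN N).trans (le_of_eq ?_)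
    congr 1
    refine Finset.sum_congr rfl fun m _ => ?_
    have : ∏ v, Real.exp (-(β * f v)) ^ (m v) = Real.exp (∑ v, (m v : ℝ) * (-(β * f v))) := by
      rw [Real.exp_sum]
      exact Finset.prod_congr rfl fun v _ => by rw [← Real.exp_nat_mul]
    rw [this]
    congr 1
    rw [Finset.mul_sum, ← Finset.sum_neg_distrib]
    exact Finset.sum_congr rfl fun v _ => by ring
  refine hstep.trans (mul_le_mul_of_nonneg_left ?_ (Real.exp_pos _).le)
  set q : V → ℝ := fun v => Real.exp (-(β * f v)) with hq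
  have hq0 : ∀ v, 0 ≤ q v := fun v => (Real.exp_pos _).le
  have hq1 : ∀ v, v ≠ k0 → q v < 1 := by
    intro v hv
    simp only [hq]
    rw [Real.exp_lt_one_iff]
    have := hf v hv
    linarith
  have hdisj : ∀ a ∈ Finset.range (N1 + 1), ∀ c ∈ Finset.range (N1 + 1), a ≠ c →
      Disjoint ((occImg V a).filter (fun m => m k0 = 0))
        ((occImg V c).filter (fun m => m k0 = 0)) := by
    intro a _ c _ hac
    rw [Finset.disjoint_left]
    intro m hma hmc
    obtain ⟨k, _, hk⟩ := Finset.mem_image.1 (Finset.mem_filter.1 hma).1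
    obtain ⟨l, _, hl⟩ := Finset.mem_image.1 (Finset.mem_filter.1 hmc).1
    apply hac
    rw [← sum_occ k, ← sum_occ l, hk, hl]
  rw [← Finset.sum_biUnion hdisj]
  calc ∑ m ∈ (Finset.range (N1 + 1)).biUnion
        (fun N => (occImg V N).filter (fun m => m k0 = 0)), ∏ v, q v ^ m v
      ≤ ∑ m ∈ Fintype.piFinset (fun v : V => if v = k0 then {0} else Finset.range (N1 + 1)),
          ∏ v, q v ^ m v := by
        refine Finset.sum_le_sum_of_subset_of_nonneg ?_ fun m _ _ =>
          Finset.prod_nonneg fun v _ => pow_nonneg (hq0 v) _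
        intro m hm
        obtain ⟨N, hN, hm2⟩ := Finset.mem_biUnion.1 hm
        obtain ⟨hm3, hm4⟩ := Finset.mem_filter.1 hm2
        obtain ⟨k, _, hk⟩ := Finset.mem_image.1 hm3
        rw [Fintype.mem_piFinset]
        intro v
        by_cases hv : v = k0
        · rw [if_pos hv, hv, Finset.mem_singleton]
          exact hm4
        · rw [if_neg hv]
          have h1 : m v ≤ ∑ w, m w :=
            Finset.single_le_sum (fun _ _ => Nat.zero_le _) (Finset.mem_univ v)
          have h2 : ∑ w, m w = N := by rw [← hk]; exact sum_occ k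
          have h3 := Finset.mem_range.1 hN
          rw [Finset.mem_range]; omega
    _ = ∏ v, ∑ j ∈ (if v = k0 then {0} else Finset.range (N1 + 1)), q v ^ j := by
        rw [Finset.prod_univ_sum]
    _ ≤ ∏ v, (if v = k0 then 1 else (1 - q v)⁻¹) := by
        refine Finset.prod_le_prod (fun v _ => Finset.sum_nonneg fun j _ => pow_nonneg (hq0 v) _)
          fun v _ => ?_
        by_cases hv : v = k0
        · rw [if_pos hv, if_pos hv]; simp
        · rw [if_neg hv, if_neg hv, ← tsum_geometric_of_lt_one (hq0 v) (hq1 v hv)]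
          exact (summable_geometric_of_lt_one (hq0 v) (hq1 v hv)).sum_le_tsum _
            fun j _ => pow_nonneg (hq0 v) _

/-- One-particle lower bounds lift to the wave functions of `N + 1` particles. -/
theorem sum_f_le (hS : Spec adj e lam) (f : V → ℝ) (q : (V → ℝ) → ℝ)
    (hq : ∀ g : V → ℝ, ∑ k, f k * (∑ v, e k v * g v) ^ 2 ≤ q g) (ψ : (V → ℕ) → ℝ) :
    ∑ k : Fin (N + 1) → V, (∑ j, f (k j)) * four e (wf (N + 1) ψ) k ^ 2 ≤
      (N + 1 : ℝ) * ∑ x : Fin N → V, q (fun v => wf (N + 1) ψ (Fin.cons v x)) := by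
  have h7 : ∑ x : Fin N → V, ∑ k, f k * (∑ v, e k v * wf (N + 1) ψ (Fin.cons v x)) ^ 2 =
      ∑ k : Fin (N + 1) → V, f (k 0) * four e (wf (N + 1) ψ) k ^ 2 := by
    rw [Finset.sum_comm]
    rw [← (Fin.consEquiv fun _ => V).sum_comp, Fintype.sum_prod_type]
    refine Finset.sum_congr rfl fun k0 _ => ?_
    have h8 := parseval hS (fun x : Fin N → V => ∑ v, e k0 v * wf (N + 1) ψ (Fin.cons v x))
    rw [← Finset.mul_sum, ← h8, Finset.mul_sum]
    refine Finset.sum_congr rfl fun k _ => ?_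
    change _ = f ((Fin.cons k0 k : Fin (N + 1) → V) 0) *
      four e (wf (N + 1) ψ) (Fin.cons k0 k) ^ 2
    rw [four_cons, Fin.cons_zero]
  have h9 : ∀ i : Fin (N + 1), ∑ k : Fin (N + 1) → V, f (k i) * four e (wf (N + 1) ψ) k ^ 2 =
      ∑ k : Fin (N + 1) → V, f (k 0) * four e (wf (N + 1) ψ) k ^ 2 := by
    intro i
    rw [← (Equiv.arrowCongr (Equiv.swap 0 i) (Equiv.refl V)).sum_comp]
    refine Finset.sum_congr rfl fun k _ => ?_
    have e1 : (Equiv.arrowCongr (Equiv.swap 0 i) (Equiv.refl V)) k = k ∘ Equiv.swap 0 i := by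
      ext j; simp [Equiv.arrowCongr]
    rw [e1, four_perm hS _ (wf_perm ψ)]
    simp
  have h10 : ∑ k : Fin (N + 1) → V, (∑ j, f (k j)) * four e (wf (N + 1) ψ) k ^ 2 =
      ∑ i : Fin (N + 1), ∑ k : Fin (N + 1) → V, f (k i) * four e (wf (N + 1) ψ) k ^ 2 := by
    rw [Finset.sum_comm]
    refine Finset.sum_congr rfl fun k _ => ?_
    rw [← Finset.sum_mul]
  rw [h10]
  simp only [h9]
  rw [Finset.sum_const, Finset.card_univ, Fintype.card_fin, nsmul_eq_mul, ← h7]
  push_cast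
  refine mul_le_mul_of_nonneg_left (Finset.sum_le_sum fun x _ => ?_) (by positivity)
  exact hq fun v => wf (N + 1) ψ (Fin.cons v x)

/-- The one-particle form of a pair interaction (signed couplings), in occupation numbers. -/
theorem pair_q (J : V → V → ℝ) (ψ : (V → ℕ) → ℝ) (h1 : ∀ ζ, ζ ∉ occBox V n → ψ ζ = 0)
    (h2 : ∀ ζ : V → ℕ, ∑ v, ζ v ≠ N + 1 → ψ ζ = 0) :
    (N + 1 : ℝ) * ∑ x : Fin N → V, (∑ u, ∑ v, J u v * (wf (N + 1) ψ (Fin.cons u x) -
      wf (N + 1) ψ (Fin.cons v x)) ^ 2) =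
    ∑ u, ∑ v, J u v * ∑ σ ∈ occBox V n, (Real.sqrt ((σ u : ℝ) + 1) * ψ (σ + Pi.single u 1) -
      Real.sqrt ((σ v : ℝ) + 1) * ψ (σ + Pi.single v 1)) ^ 2 := by
  rw [Finset.sum_comm, Finset.mul_sum]
  refine Finset.sum_congr rfl fun u _ => ?_
  rw [Finset.sum_comm, Finset.mul_sum]
  refine Finset.sum_congr rfl fun v _ => ?_
  rw [hop_sum ψ h1 h2 u v, ← Finset.mul_sum]
  ring

end Vale.Agent.P361.B.Hw
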