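import Mathlib

/-!
P361, stages R1-R3, block (1'): abstract joint-law lemmas.

`μ` = joint law of `(J, M)` (weights, sum 1), `D = (J_max - J)/|b|`, `X = 1 - M/J`,
`a K i = A_K(J)/A_K(J_max)`.
-/

namespace Vale.Agent.P361.LRO.Bloch

open Finset

/-- Data of the joint law. -/
structure JL {ι : Type*} [Fintype ι] (μ D X : ι → ℝ) (a : ℝ → ι → ℝ) (c K : ℝ) : Prop where
  μ0 : ∀ i, 0 ≤ μ i
  μ1 : ∑ i, μ i = 1
  D0 : ∀ i, 0 ≤ D i
  D1 : ∀ i, D i ≤ 1
  X0 : ∀ i, 0 ≤ X i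
  X2 : ∀ i, X i ≤ 2
  c0 : 0 < c
  K1 : 1 ≤ K
  alow : ∀ K', 1 ≤ K' → K' ≤ K → ∀ i, Real.exp (-(K' * D i)) ≤ a K' i
  ahigh : ∀ K', 1 ≤ K' → K' ≤ K → ∀ i, a K' i ≤ 1
  mom : ∀ K', 1 ≤ K' → K' ≤ K → ∀ p : ℕ,
    (c * K') ^ p * ∑ i, μ i * a K' i * X i ^ p ≤ (p.factorial : ℝ) * ∑ i, μ i * a K' i

namespace JL

variable {ι : Type*} [Fintype ι] {μ D X : ι → ℝ} {a : ℝ → ι → ℝ} {c K : ℝ}

theorem a0 (h : JL μ D X a c K) {K' : ℝ} (h1 : 1 ≤ K') (h2 : K' ≤ K) (i : ι) : 0 ≤ a K' i :=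
  (Real.exp_pos _).le.trans (h.alow K' h1 h2 i)

theorem suma (h : JL μ D X a c K) {K' : ℝ} (h1 : 1 ≤ K') (h2 : K' ≤ K) :
    ∑ i, μ i * a K' i ≤ 1 := by
  calc ∑ i, μ i * a K' i ≤ ∑ i, μ i * 1 :=
        sum_le_sum fun i _ => mul_le_mul_of_nonneg_left (h.ahigh K' h1 h2 i) (h.μ0 i)
    _ = 1 := by simp [h.μ1]

/-- p-th moment on the event `K' D ≤ L`. -/
theorem momE (h : JL μ D X a c K) {K' : ℝ} (h1 : 1 ≤ K') (h2 : K' ≤ K) (p : ℕ) (E : Finset ι)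
    {L : ℝ} (hE : ∀ i ∈ E, K' * D i ≤ L) :
    ∑ i ∈ E, μ i * X i ^ p ≤
      Real.exp L * ((p.factorial : ℝ) / (c * K') ^ p) * ∑ i, μ i * a K' i := by
  have hcK : 0 < (c * K') ^ p := pow_pos (mul_pos h.c0 (by linarith)) p
  have hx : ∀ i, 0 ≤ μ i * X i ^ p := fun i => mul_nonneg (h.μ0 i) (pow_nonneg (h.X0 i) p)
  have s1 : ∑ i ∈ E, μ i * X i ^ p ≤ Real.exp L * ∑ i ∈ E, μ i * a K' i * X i ^ p := by
    rw [mul_sum]
    refine sum_le_sum fun i hi => ?_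
    have e1 : Real.exp (-L) ≤ a K' i :=
      (Real.exp_le_exp.2 (by linarith [hE i hi])).trans (h.alow K' h1 h2 i)
    have e2 : 1 ≤ Real.exp L * a K' i := by
      have := mul_le_mul_of_nonneg_left e1 (Real.exp_pos L).le
      rwa [← Real.exp_add, add_neg_cancel, Real.exp_zero] at this
    calc μ i * X i ^ p = (μ i * X i ^ p) * 1 := by ring
      _ ≤ (μ i * X i ^ p) * (Real.exp L * a K' i) := mul_le_mul_of_nonneg_left e2 (hx i)
      _ = _ := by ring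
  have s2 : ∑ i ∈ E, μ i * a K' i * X i ^ p ≤ ∑ i, μ i * a K' i * X i ^ p := by
    refine sum_le_sum_of_subset_of_nonneg (subset_univ _) fun i _ _ => ?_
    exact mul_nonneg (mul_nonneg (h.μ0 i) (h.a0 h1 h2 i)) (pow_nonneg (h.X0 i) p)
  have s3 : ∑ i, μ i * a K' i * X i ^ p ≤
      ((p.factorial : ℝ) / (c * K') ^ p) * ∑ i, μ i * a K' i := by
    rw [div_mul_eq_mul_div, le_div_iff₀ hcK, mul_comm]
    exact h.mom K' h1 h2 p
  calc ∑ i ∈ E, μ i * X i ^ p ≤ Real.exp L * ∑ i ∈ E, μ i * a K' i * X i ^ p := s1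
    _ ≤ Real.exp L * (((p.factorial : ℝ) / (c * K') ^ p) * ∑ i, μ i * a K' i) :=
        mul_le_mul_of_nonneg_left (s2.trans s3) (Real.exp_pos L).le
    _ = _ := by ring

/-- first moment on the event `K' D ≤ L` -/
theorem mean (h : JL μ D X a c K) {K' : ℝ} (h1 : 1 ≤ K') (h2 : K' ≤ K) (E : Finset ι)
    {L : ℝ} (hE : ∀ i ∈ E, K' * D i ≤ L) :
    ∑ i ∈ E, μ i * X i ≤ Real.exp L / (c * K') * ∑ i, μ i * a K' i := by
  have := h.momE h1 h2 1 E hE
  simp only [pow_one, Nat.factorial_one, Nat.cast_one] at this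
  calc _ ≤ _ := this
    _ = _ := by ring

/-- Hoelder on the event `K' D ≤ L`. -/
theorem holder (h : JL μ D X a c K) {K' : ℝ} (h1 : 1 ≤ K') (h2 : K' ≤ K) {p : ℕ} (hp : 1 ≤ p)
    (E : Finset ι) {L : ℝ} (hE : ∀ i ∈ E, K' * D i ≤ L) :
    ∑ i ∈ E, μ i * X i ≤ (∑ i ∈ E, μ i) ^ (1 - (p : ℝ)⁻¹) *
      ((Real.exp L * (p.factorial : ℝ)) ^ ((p : ℝ)⁻¹) / (c * K')) := by
  have hp1 : (1 : ℝ) ≤ (p : ℝ) := by exact_mod_cast hp
  have hcK : 0 < c * K' := mul_pos h.c0 (by linarith)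
  have H := Real.inner_le_weight_mul_Lp_of_nonneg E hp1 μ X h.μ0 h.X0
  have hsum0 : 0 ≤ ∑ i ∈ E, μ i := sum_nonneg fun i _ => h.μ0 i
  refine H.trans (mul_le_mul_of_nonneg_left ?_ (Real.rpow_nonneg hsum0 _))
  have hm := h.momE h1 h2 p E hE
  have hm2 : ∑ i ∈ E, μ i * X i ^ (p : ℝ) ≤
      (Real.exp L * (p.factorial : ℝ)) / (c * K') ^ p := by
    calc ∑ i ∈ E, μ i * X i ^ (p : ℝ) = ∑ i ∈ E, μ i * X i ^ p := by
          simp only [Real.rpow_natCast]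
      _ ≤ Real.exp L * ((p.factorial : ℝ) / (c * K') ^ p) * ∑ i, μ i * a K' i := hm
      _ ≤ Real.exp L * ((p.factorial : ℝ) / (c * K') ^ p) * 1 := by
          refine mul_le_mul_of_nonneg_left (h.suma h1 h2) ?_
          positivity
      _ = _ := by ring
  have hnn : 0 ≤ ∑ i ∈ E, μ i * X i ^ (p : ℝ) :=
    sum_nonneg fun i _ => mul_nonneg (h.μ0 i) (Real.rpow_nonneg (h.X0 i) _)
  calc (∑ i ∈ E, μ i * X i ^ (p : ℝ)) ^ ((p : ℝ)⁻¹)
      ≤ ((Real.exp L * (p.factorial : ℝ)) / (c * K') ^ p) ^ ((p : ℝ)⁻¹) :=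
        Real.rpow_le_rpow hnn hm2 (by positivity)
    _ = (Real.exp L * (p.factorial : ℝ)) ^ ((p : ℝ)⁻¹) / (c * K') := by
        rw [Real.div_rpow (by positivity) (by positivity),
          Real.pow_rpow_inv_natCast hcK.le (by omega)]

/-- Hoelder on `E ⊆ {1/K₁ < D ≤ 1/K'}`, `K₁ ≤ R K'`. -/
theorem shell (h : JL μ D X a c K) {K' K1 R : ℝ} (h1 : 1 ≤ K') (h2 : K' ≤ K) (h3 : 1 ≤ K1)
    (h4 : K1 ≤ R * K') {p : ℕ} (hp : 1 ≤ p) (E : Finset ι)
    (hE : ∀ i ∈ E, K' * D i ≤ 1) (hE1 : ∀ i ∈ E, 1 ≤ K1 * D i) {d' : ℝ}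
    (hd : ∑ i, μ i * D i ≤ d') (hd2 : (K ^ 2)⁻¹ ≤ d') :
    ∑ i ∈ E, μ i * X i ≤
      R * K ^ (2 / (p : ℝ)) * (Real.exp 1 * (p.factorial : ℝ)) ^ ((p : ℝ)⁻¹) / c * d' := by
  have hp1 : (1 : ℝ) ≤ (p : ℝ) := by exact_mod_cast hp
  have hp0 : (0 : ℝ) < (p : ℝ) := by linarith
  have hK0 : 0 < K := by linarith [h.K1]
  have hK'0 : 0 < K' := by linarith
  have hc := h.c0
  have hd0 : 0 < d' := lt_of_lt_of_le (by positivity) hd2
  have hPE : ∑ i ∈ E, μ i ≤ K1 * d' := by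
    calc ∑ i ∈ E, μ i ≤ ∑ i ∈ E, μ i * (K1 * D i) :=
          sum_le_sum fun i hi => by
            have := mul_le_mul_of_nonneg_left (hE1 i hi) (h.μ0 i)
            simpa using this
      _ ≤ ∑ i, μ i * (K1 * D i) :=
          sum_le_sum_of_subset_of_nonneg (subset_univ _) fun i _ _ =>
            mul_nonneg (h.μ0 i) (mul_nonneg (by linarith) (h.D0 i))
      _ = K1 * ∑ i, μ i * D i := by
          rw [mul_sum]; exact sum_congr rfl fun i _ => by ring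
      _ ≤ K1 * d' := mul_le_mul_of_nonneg_left hd (by linarith)
  have hinv : (p : ℝ)⁻¹ ≤ 1 := inv_le_one_of_one_le₀ hp1
  have hx0 : 0 < K1 * d' := by positivity
  have hxlow : (K ^ 2)⁻¹ ≤ K1 * d' := by nlinarith
  have hpow : (∑ i ∈ E, μ i) ^ (1 - (p : ℝ)⁻¹) ≤ K1 * d' * K ^ (2 / (p : ℝ)) := by
    calc (∑ i ∈ E, μ i) ^ (1 - (p : ℝ)⁻¹) ≤ (K1 * d') ^ (1 - (p : ℝ)⁻¹) :=
          Real.rpow_le_rpow (sum_nonneg fun i _ => h.μ0 i) hPE (by linarith)
      _ = K1 * d' * (K1 * d') ^ (-(p : ℝ)⁻¹) := by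
          rw [sub_eq_add_neg, Real.rpow_add hx0, Real.rpow_one]
      _ ≤ K1 * d' * ((K ^ 2)⁻¹) ^ (-(p : ℝ)⁻¹) := by
          refine mul_le_mul_of_nonneg_left ?_ hx0.le
          refine Real.rpow_le_rpow_of_nonpos (by positivity) hxlow ?_
          have : 0 ≤ (p : ℝ)⁻¹ := by positivity
          linarith
      _ = K1 * d' * K ^ (2 / (p : ℝ)) := by
          congr 1
          rw [Real.inv_rpow (by positivity), ← Real.rpow_neg (by positivity), neg_neg,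
            ← Real.rpow_natCast, ← Real.rpow_mul hK0.le]
          congr 1
  have hC : 0 ≤ (Real.exp 1 * (p.factorial : ℝ)) ^ ((p : ℝ)⁻¹) := by positivity
  have hKp : 0 ≤ K ^ (2 / (p : ℝ)) := Real.rpow_nonneg hK0.le _
  have H := h.holder h1 h2 hp E hE
  refine H.trans ?_
  calc (∑ i ∈ E, μ i) ^ (1 - (p : ℝ)⁻¹) *
        ((Real.exp 1 * (p.factorial : ℝ)) ^ ((p : ℝ)⁻¹) / (c * K'))
      ≤ (K1 * d' * K ^ (2 / (p : ℝ))) *
        ((Real.exp 1 * (p.factorial : ℝ)) ^ ((p : ℝ)⁻¹) / (c * K')) := by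
        refine mul_le_mul_of_nonneg_right hpow ?_
        positivity
    _ ≤ (R * K' * d' * K ^ (2 / (p : ℝ))) *
        ((Real.exp 1 * (p.factorial : ℝ)) ^ ((p : ℝ)⁻¹) / (c * K')) := by
        refine mul_le_mul_of_nonneg_right ?_ (by positivity)
        refine mul_le_mul_of_nonneg_right ?_ hKp
        exact mul_le_mul_of_nonneg_right h4 hd0.le
    _ = _ := by
        field_simp

/-- scales -/
noncomputable def sc (K R : ℝ) (j : ℕ) : ℝ := max (K / R ^ j) 1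

/-- **(1'), stages R1 and R2.** -/
theorem total (h : JL μ D X a c K) {R : ℝ} (hR : 1 ≤ R) {m : ℕ} (hm : K ≤ R ^ m) {p : ℕ}
    (hp : 1 ≤ p) :
    ∑ i, μ i * X i ≤ Real.exp 1 / (c * K) +
      m * (R * K ^ (2 / (p : ℝ)) * (Real.exp 1 * (p.factorial : ℝ)) ^ ((p : ℝ)⁻¹) / c *
        (∑ i, μ i * D i + (K ^ 2)⁻¹)) := by
  classical
  have hK0 : 0 < K := by linarith [h.K1]
  have hR0 : 0 < R := by linarith
  have hs1 : ∀ j, 1 ≤ sc K R j := fun j => le_max_right _ _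
  have hsK : ∀ j, sc K R j ≤ K := fun j =>
    max_le (div_le_self hK0.le (one_le_pow₀ hR)) h.K1
  have hsR : ∀ j, sc K R j ≤ R * sc K R (j + 1) := by
    intro j
    refine max_le ?_ ?_
    · calc K / R ^ j = R * (K / R ^ (j + 1)) := by
            rw [pow_succ]; field_simp
        _ ≤ R * sc K R (j + 1) := mul_le_mul_of_nonneg_left (le_max_left _ _) hR0.le
    · nlinarith [hs1 (j + 1)]
  set B : ℝ := R * K ^ (2 / (p : ℝ)) * (Real.exp 1 * (p.factorial : ℝ)) ^ ((p : ℝ)⁻¹) / c *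
        (∑ i, μ i * D i + (K ^ 2)⁻¹) with hB
  have hD0 : 0 ≤ ∑ i, μ i * D i := sum_nonneg fun i _ => mul_nonneg (h.μ0 i) (h.D0 i)
  have key : ∀ j : ℕ, ∑ i ∈ univ.filter (fun i => sc K R j * D i ≤ 1), μ i * X i ≤
      Real.exp 1 / (c * K) + j * B := by
    intro j
    induction j with
    | zero =>
      have e0 : sc K R 0 = K := by simp [sc, h.K1]
      rw [e0]
      have h1 := h.mean h.K1 le_rfl (univ.filter (fun i => K * D i ≤ 1)) (L := 1)
        (fun i hi => (mem_filter.1 hi).2)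
      have h2 := h.suma h.K1 le_rfl
      have h3 : 0 ≤ Real.exp 1 / (c * K) := by
        have := h.c0
        positivity
      have h4 := mul_le_mul_of_nonneg_left h2 h3
      rw [mul_one] at h4
      simpa using h1.trans h4
    | succ j ih =>
      set S0 := univ.filter (fun i => sc K R j * D i ≤ 1) with hS0
      set S1 := univ.filter (fun i => sc K R (j + 1) * D i ≤ 1) with hS1
      have hsplit : ∑ i ∈ S1, μ i * X i ≤ ∑ i ∈ S0, μ i * X i + ∑ i ∈ S1 \ S0, μ i * X i := by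
        rw [← sum_union (disjoint_sdiff)]
        refine sum_le_sum_of_subset_of_nonneg ?_ fun i _ _ => mul_nonneg (h.μ0 i) (h.X0 i)
        intro i hi
        by_cases h0 : i ∈ S0
        · exact mem_union_left _ h0
        · exact mem_union_right _ (mem_sdiff.2 ⟨hi, h0⟩)
      have hsh := h.shell (hs1 (j + 1)) (hsK (j + 1)) (hs1 j) (hsR j) hp (S1 \ S0)
        (fun i hi => (mem_filter.1 (mem_sdiff.1 hi).1).2)
        (fun i hi => by
          have := (mem_sdiff.1 hi).2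
          rw [hS0, mem_filter] at this
          push Not at this
          exact (this (mem_univ _)).le)
        (d' := ∑ i, μ i * D i + (K ^ 2)⁻¹) (by
          have : 0 ≤ (K ^ 2)⁻¹ := by positivity
          linarith) (by linarith)
      rw [← hB] at hsh
      push_cast
      linarith
  have hlast : sc K R m = 1 := by
    unfold sc
    exact max_eq_right ((div_le_one (by positivity)).2 hm)
  have h1 := key m
  rw [hlast] at h1
  have h2 : univ.filter (fun i => 1 * D i ≤ 1) = (univ : Finset ι) := by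
    refine filter_true_of_mem fun i _ => ?_
    rw [one_mul]
    exact h.D1 i
  rwa [h2] at h1

end JL

end Vale.Agent.P361.LRO.Bloch
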