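import Mathlib

/-!
P361, stage R2/R3: lower bound of the heat kernel of the cycle `ZMod n`, uniform in `n`
(finite Fourier sums, no Bessel functions).
-/

namespace Vale.Agent.P361.LRO.Bloch.Ker

open Finset

noncomputable section

/-- Heat kernel of the cycle of length `n` at time `t` (rate `1/2` in both directions). -/
def ker1 (n : ℕ) (t : ℝ) (j : ℤ) : ℝ :=
  (∑ k ∈ range n, Real.exp (-(t * (1 - Real.cos (2 * Real.pi * k / n)))) *
    Real.cos (2 * Real.pi * k / n * j)) / n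

lemma tele {y : ℝ} (hy : 0 < y) (M : ℕ) :
    ∑ i ∈ range M, 1 / (1 + ((i : ℝ) + 1) * y) ^ 2 ≤ (1 - 1 / (1 + M * y)) / y := by
  induction M with
  | zero => simp
  | succ M ih =>
    rw [sum_range_succ]
    have hM : (0 : ℝ) ≤ M := Nat.cast_nonneg M
    have a1 : 0 < 1 + (M : ℝ) * y := by positivity
    have a2 : 0 < 1 + ((M : ℝ) + 1) * y := by positivity
    have key : 1 / (1 + ((M : ℝ) + 1) * y) ^ 2 ≤
        (1 / (1 + (M : ℝ) * y) - 1 / (1 + ((M : ℝ) + 1) * y)) / y := by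
      have e : (1 / (1 + (M : ℝ) * y) - 1 / (1 + ((M : ℝ) + 1) * y)) / y =
          1 / ((1 + (M : ℝ) * y) * (1 + ((M : ℝ) + 1) * y)) := by
        field_simp
        ring
      rw [e]
      apply one_div_le_one_div_of_le (by positivity)
      rw [sq]
      exact mul_le_mul_of_nonneg_right (by linarith) a2.le
    push_cast
    calc _ ≤ (1 - 1 / (1 + (M : ℝ) * y)) / y +
          (1 / (1 + (M : ℝ) * y) - 1 / (1 + ((M : ℝ) + 1) * y)) / y := add_le_add ih key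
      _ = _ := by ring

lemma tele' {y : ℝ} (hy : 0 < y) (M : ℕ) :
    ∑ i ∈ range M, 1 / (1 + ((i : ℝ) + 1) * y) ^ 2 ≤ 1 / y := by
  refine le_trans (tele hy M) ?_
  apply div_le_div_of_nonneg_right _ hy.le
  have : 0 ≤ 1 / (1 + (M : ℝ) * y) := by positivity
  linarith

lemma f_le (x : ℝ) (hx : 0 ≤ x) : x ^ 2 * Real.exp (-(8 * x ^ 2)) ≤ 1 / 4 * (1 / (1 + x) ^ 2) := by
  have h1 : 1 + 8 * x ^ 2 + (8 * x ^ 2) ^ 2 / 2 ≤ Real.exp (8 * x ^ 2) :=
    Real.quadratic_le_exp_of_nonneg (by positivity)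
  rw [Real.exp_neg, ← div_eq_mul_inv, div_le_iff₀ (Real.exp_pos _)]
  have h2 : 0 < (1 + x) ^ 2 := by positivity
  have h3 : x ^ 2 * (1 + x) ^ 2 ≤ 1 / 4 * Real.exp (8 * x ^ 2) := by
    nlinarith [sq_nonneg (x - 1), sq_nonneg x, mul_nonneg hx (sq_nonneg (x - 1)),
      mul_nonneg (mul_nonneg hx hx) (sq_nonneg (x - 1))]
  calc x ^ 2 = x ^ 2 * (1 + x) ^ 2 / (1 + x) ^ 2 := by field_simp
    _ ≤ 1 / 4 * Real.exp (8 * x ^ 2) / (1 + x) ^ 2 := div_le_div_of_nonneg_right h3 h2.le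
    _ = _ := by ring

/-- One term, small angle. -/
lemma term_le {n m : ℕ} (hn : 0 < n) (hm : 2 * m ≤ n) {t : ℝ} (ht : 0 < t) (j : ℤ) :
    Real.exp (-(t * (1 - Real.cos (2 * Real.pi * m / n)))) *
      (1 - Real.cos (2 * Real.pi * m / n * j)) ≤
      Real.pi ^ 2 * j ^ 2 / (2 * t) * (1 / (1 + m * (Real.sqrt t / n)) ^ 2) := by
  have hn' : (0 : ℝ) < n := by exact_mod_cast hn
  have hm' : 2 * (m : ℝ) ≤ n := by exact_mod_cast hm
  have hπ := Real.pi_pos
  set φ : ℝ := 2 * Real.pi * m / n with hφ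
  have hφ0 : 0 ≤ φ := by positivity
  have hφ1 : φ ≤ Real.pi := by
    rw [hφ, div_le_iff₀ hn']
    nlinarith
  have hc := Real.cos_le_one_sub_mul_cos_sq (x := φ) (by rw [abs_of_nonneg hφ0]; exact hφ1)
  set x : ℝ := m * (Real.sqrt t / n) with hx
  have hx0 : 0 ≤ x := by positivity
  have hsq : Real.sqrt t ^ 2 = t := Real.sq_sqrt ht.le
  have hx2 : x ^ 2 = t * m ^ 2 / n ^ 2 := by
    rw [hx, mul_pow, div_pow, hsq]; ring
  have e1 : 8 * x ^ 2 ≤ t * (1 - Real.cos φ) := by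
    have : 8 * x ^ 2 = t * (2 / Real.pi ^ 2 * φ ^ 2) := by
      rw [hx2, hφ]; field_simp; ring
    rw [this]
    apply mul_le_mul_of_nonneg_left _ ht.le
    linarith
  have e2 : 1 - Real.cos (φ * j) ≤ 2 * Real.pi ^ 2 * j ^ 2 / t * x ^ 2 := by
    have h1 := Real.one_sub_sq_div_two_le_cos (x := φ * j)
    have h2 : (φ * j) ^ 2 / 2 = 2 * Real.pi ^ 2 * j ^ 2 / t * x ^ 2 := by
      rw [hx2, hφ]; field_simp
    linarith
  have e3 : 0 ≤ 1 - Real.cos (φ * j) := by linarith [Real.cos_le_one (φ * j)]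
  calc Real.exp (-(t * (1 - Real.cos φ))) * (1 - Real.cos (φ * j))
      ≤ Real.exp (-(8 * x ^ 2)) * (2 * Real.pi ^ 2 * j ^ 2 / t * x ^ 2) :=
        mul_le_mul (Real.exp_le_exp.2 (by linarith)) e2 e3 (Real.exp_pos _).le
    _ = 2 * Real.pi ^ 2 * j ^ 2 / t * (x ^ 2 * Real.exp (-(8 * x ^ 2))) := by ring
    _ ≤ 2 * Real.pi ^ 2 * j ^ 2 / t * (1 / 4 * (1 / (1 + x) ^ 2)) :=
        mul_le_mul_of_nonneg_left (f_le x hx0) (by positivity)
    _ = _ := by ring

/-- One term, any angle. -/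
lemma term_le' {n k : ℕ} (hn : 0 < n) (hk : k ≤ n) {t : ℝ} (ht : 0 < t) (j : ℤ) :
    Real.exp (-(t * (1 - Real.cos (2 * Real.pi * k / n)))) *
      (1 - Real.cos (2 * Real.pi * k / n * j)) ≤
      Real.pi ^ 2 * j ^ 2 / (2 * t) * (1 / (1 + k * (Real.sqrt t / n)) ^ 2) +
      Real.pi ^ 2 * j ^ 2 / (2 * t) * (1 / (1 + (n - k : ℕ) * (Real.sqrt t / n)) ^ 2) := by
  have hn' : (0 : ℝ) < n := by exact_mod_cast hn
  have hpos : ∀ m : ℕ, 0 ≤ Real.pi ^ 2 * j ^ 2 / (2 * t) *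
      (1 / (1 + m * (Real.sqrt t / n)) ^ 2) := fun m => by positivity
  by_cases h : 2 * k ≤ n
  · have := term_le hn h ht j
    linarith [hpos (n - k)]
  · have h2 : 2 * (n - k) ≤ n := by omega
    have := term_le hn h2 ht j
    have hc : ((n - k : ℕ) : ℝ) = n - k := by push_cast [hk]; ring
    have e1 : 2 * Real.pi * ((n - k : ℕ) : ℝ) / n = 2 * Real.pi - 2 * Real.pi * k / n := by
      rw [hc]; field_simp
    have e2 : 2 * Real.pi * ((n - k : ℕ) : ℝ) / n * j =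
        (j : ℝ) * (2 * Real.pi) - 2 * Real.pi * k / n * j := by
      rw [e1]; ring
    rw [e2, e1, Real.cos_two_pi_sub, Real.cos_int_mul_two_pi_sub] at this
    linarith [hpos k]

lemma diff_le {n : ℕ} (hn : 0 < n) {t : ℝ} (ht : 0 < t) (j : ℤ) :
    ker1 n t 0 - ker1 n t j ≤ Real.pi ^ 2 * j ^ 2 / (t * Real.sqrt t) := by
  have hn' : (0 : ℝ) < n := by exact_mod_cast hn
  have hs : 0 < Real.sqrt t := Real.sqrt_pos.2 ht
  set y : ℝ := Real.sqrt t / n with hy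
  have hy0 : 0 < y := by positivity
  set c : ℝ := Real.pi ^ 2 * j ^ 2 / (2 * t) with hc
  have hc0 : 0 ≤ c := by positivity
  have e0 : ker1 n t 0 - ker1 n t j = (∑ k ∈ range n,
      Real.exp (-(t * (1 - Real.cos (2 * Real.pi * k / n)))) *
      (1 - Real.cos (2 * Real.pi * k / n * j))) / n := by
    unfold ker1
    rw [← sub_div, ← sum_sub_distrib]
    congr 1
    refine sum_congr rfl fun k _ => ?_
    simp only [Int.cast_zero, mul_zero, Real.cos_zero]
    ring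
  rw [e0]
  obtain ⟨n', rfl⟩ : ∃ n', n = n' + 1 := ⟨n - 1, by omega⟩
  rw [sum_range_succ']
  have e1 : Real.exp (-(t * (1 - Real.cos (2 * Real.pi * ((0 : ℕ) : ℝ) / ((n' + 1 : ℕ) : ℝ))))) *
      (1 - Real.cos (2 * Real.pi * ((0 : ℕ) : ℝ) / ((n' + 1 : ℕ) : ℝ) * j)) = 0 := by
    simp
  rw [e1, add_zero]
  have e2 : ∑ k ∈ range n', Real.exp (-(t * (1 - Real.cos (2 * Real.pi * ((k + 1 : ℕ) : ℝ) /
      ((n' + 1 : ℕ) : ℝ))))) * (1 - Real.cos (2 * Real.pi * ((k + 1 : ℕ) : ℝ) /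
      ((n' + 1 : ℕ) : ℝ) * j)) ≤ ∑ k ∈ range n', (c * (1 / (1 + ((k : ℝ) + 1) * y) ^ 2) +
      c * (1 / (1 + (((n' - 1 - k : ℕ) : ℝ) + 1) * y) ^ 2)) := by
    refine sum_le_sum fun k hk => ?_
    have hk' : k < n' := mem_range.1 hk
    have := term_le' (n := n' + 1) (k := k + 1) (by omega) (by omega) ht j
    refine le_trans this (le_of_eq ?_)
    have e3 : n' + 1 - (k + 1) = (n' - 1 - k) + 1 := by omega
    rw [e3, hc, hy]
    push_cast
    rfl
  have e4 : ∑ k ∈ range n', (c * (1 / (1 + ((k : ℝ) + 1) * y) ^ 2) +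
      c * (1 / (1 + (((n' - 1 - k : ℕ) : ℝ) + 1) * y) ^ 2)) ≤ 2 * c / y := by
    rw [sum_add_distrib, ← mul_sum, ← mul_sum,
      sum_range_reflect (fun k => 1 / (1 + ((k : ℝ) + 1) * y) ^ 2) n']
    have := mul_le_mul_of_nonneg_left (tele' hy0 n') hc0
    calc _ ≤ c * (1 / y) + c * (1 / y) := add_le_add this this
      _ = _ := by ring
  have h5 := e2.trans e4
  rw [div_le_iff₀ hn']
  refine h5.trans (le_of_eq ?_)
  rw [hc, hy]
  field_simp

lemma zero_ge {n : ℕ} (hn : 0 < n) {t : ℝ} (ht : 1 ≤ t) :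
    1 / (14 * Real.sqrt t) ≤ ker1 n t 0 := by
  have hn' : (0 : ℝ) < n := by exact_mod_cast hn
  have hs1 : 1 ≤ Real.sqrt t := Real.one_le_sqrt.2 ht
  have hs : 0 < Real.sqrt t := by linarith
  have hsq : Real.sqrt t ^ 2 = t := Real.sq_sqrt (by linarith)
  set x : ℝ := n / (5 * Real.sqrt t) with hx
  have hx0 : 0 < x := by positivity
  set K : ℕ := ⌊x⌋₊ + 1 with hK
  have hxn : x < n := by
    rw [hx, div_lt_iff₀ (by positivity)]
    nlinarith
  have hKn : K ≤ n := by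
    have : ⌊x⌋₊ < n := (Nat.floor_lt hx0.le).2 hxn
    omega
  have hKx : x ≤ K := by
    rw [hK]; push_cast
    exact (Nat.lt_floor_add_one x).le
  have hterm : ∀ k ∈ range K, Real.exp (-1) ≤
      Real.exp (-(t * (1 - Real.cos (2 * Real.pi * k / n)))) *
        Real.cos (2 * Real.pi * k / n * ((0 : ℤ) : ℝ)) := by
    intro k hk
    have hk1 : k ≤ ⌊x⌋₊ := by have := mem_range.1 hk; omega
    have hkx : (k : ℝ) ≤ x := (Nat.le_floor_iff hx0.le).1 hk1
    simp only [Int.cast_zero, mul_zero, Real.cos_zero, mul_one]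
    apply Real.exp_le_exp.2
    have h1 := Real.one_sub_sq_div_two_le_cos (x := 2 * Real.pi * k / n)
    have h2 : t * (1 - Real.cos (2 * Real.pi * k / n)) ≤
        t * ((2 * Real.pi * k / n) ^ 2 / 2) :=
      mul_le_mul_of_nonneg_left (by linarith) (by linarith)
    have h3 : t * ((2 * Real.pi * k / n) ^ 2 / 2) ≤ 1 := by
      have hk0 : (0 : ℝ) ≤ k := Nat.cast_nonneg k
      have h4 : 5 * Real.sqrt t * k ≤ n := by
        rw [hx, le_div_iff₀ (by positivity)] at hkx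
        linarith
      have h5 : (5 * Real.sqrt t * k) ^ 2 ≤ (n : ℝ) ^ 2 :=
        pow_le_pow_left₀ (by positivity) h4 2
      have h6 : 25 * t * k ^ 2 ≤ (n : ℝ) ^ 2 := by
        calc 25 * t * (k : ℝ) ^ 2 = (5 * Real.sqrt t * k) ^ 2 := by
              rw [mul_pow, mul_pow, hsq]; ring
          _ ≤ _ := h5
      have hπ : Real.pi ^ 2 < 10 := by
        have := Real.pi_lt_d2
        have := Real.pi_pos
        nlinarith
      have e : t * ((2 * Real.pi * k / n) ^ 2 / 2) = 2 * Real.pi ^ 2 * (t * k ^ 2) / n ^ 2 := by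
        ring
      rw [e, div_le_one (by positivity)]
      have h7 : 0 ≤ t * (k : ℝ) ^ 2 := by positivity
      nlinarith
    linarith
  have hrest : ∀ k ∈ range n, k ∉ range K → 0 ≤
      Real.exp (-(t * (1 - Real.cos (2 * Real.pi * k / n)))) *
        Real.cos (2 * Real.pi * k / n * ((0 : ℤ) : ℝ)) := by
    intro k _ _
    simp only [Int.cast_zero, mul_zero, Real.cos_zero, mul_one]
    exact (Real.exp_pos _).le
  have h1 : (K : ℝ) * Real.exp (-1) ≤ ∑ k ∈ range n,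
      Real.exp (-(t * (1 - Real.cos (2 * Real.pi * k / n)))) *
        Real.cos (2 * Real.pi * k / n * ((0 : ℤ) : ℝ)) := by
    calc (K : ℝ) * Real.exp (-1) = ∑ k ∈ range K, Real.exp (-1) := by
          rw [sum_const, card_range, nsmul_eq_mul]
      _ ≤ ∑ k ∈ range K, _ := sum_le_sum hterm
      _ ≤ _ := sum_le_sum_of_subset_of_nonneg (range_subset_range.2 hKn) hrest
  unfold ker1
  rw [le_div_iff₀ hn']
  refine le_trans ?_ h1
  have he : Real.exp 1 < 2.7182818286 := Real.exp_one_lt_d9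
  have he' : 1 / 2.8 ≤ Real.exp (-1) := by
    rw [Real.exp_neg, inv_eq_one_div]
    apply one_div_le_one_div_of_le (Real.exp_pos _)
    linarith
  calc 1 / (14 * Real.sqrt t) * n = x * (1 / 2.8) := by
        rw [hx]; field_simp; norm_num
    _ ≤ K * Real.exp (-1) := mul_le_mul hKx he' (by norm_num) (by positivity)

/-- **Kernel of the cycle**: `≥ 1 / (28 √t)` for `280 j² ≤ t`. -/
theorem ker1_ge {n : ℕ} (hn : 0 < n) {t : ℝ} (ht : 1 ≤ t) {j : ℤ} (hj : 280 * (j : ℝ) ^ 2 ≤ t) :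
    1 / (28 * Real.sqrt t) ≤ ker1 n t j := by
  have hs1 : 1 ≤ Real.sqrt t := Real.one_le_sqrt.2 ht
  have h1 := zero_ge hn ht
  have h2 := diff_le hn (by linarith : 0 < t) j
  have hπ : Real.pi ^ 2 < 10 := by
    have := Real.pi_lt_d2
    have := Real.pi_pos
    nlinarith
  have h3 : Real.pi ^ 2 * j ^ 2 / (t * Real.sqrt t) ≤ 1 / (28 * Real.sqrt t) := by
    rw [div_le_div_iff₀ (by positivity) (by positivity)]
    have h4 : Real.pi ^ 2 * (j : ℝ) ^ 2 * 28 ≤ t := by nlinarith [sq_nonneg (j : ℝ)]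
    nlinarith
  have h5 : 1 / (14 * Real.sqrt t) = 1 / (28 * Real.sqrt t) + 1 / (28 * Real.sqrt t) := by
    field_simp; norm_num
  linarith

end

end Vale.Agent.P361.LRO.Bloch.Ker
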