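import Mathlib

/-!
P361, stages R2/R3: lower bound for the kernel of the lazy simple random walk on `ℤ` with `m` steps,
probability `r` for each direction, `t = 2 r m ≥ 1`:  `P(X = z) ≥ 1 / (128 √t)` for `|z| ≤ √t / 2`.
Also the comparison with the walk on `ZMod n`.
-/

namespace Vale.Agent.P361.LRO.Bloch

open Finset

/-- one step of the walk, acting on functions, on an additive group with a generator `e` -/
def stp {G : Type*} [AddCommGroup G] (e : G) (r : ℝ) (f : G → ℝ) : G → ℝ :=
  fun z => (1 - 2 * r) * f z + r * f (z + e) + r * f (z - e)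

theorem stp_apply {G : Type*} [AddCommGroup G] (e : G) (r : ℝ) (f : G → ℝ) (z : G) :
    stp e r f z = (1 - 2 * r) * f z + r * f (z + e) + r * f (z - e) := rfl

section general

variable {G : Type*} [AddCommGroup G] {e : G} {r : ℝ}

theorem stp_mono (h0 : 0 ≤ r) (h1 : r ≤ 1 / 3) {f g : G → ℝ} (h : ∀ z, f z ≤ g z) (z : G) :
    stp e r f z ≤ stp e r g z := by
  simp only [stp_apply]
  have a1 := mul_le_mul_of_nonneg_left (h z) (show 0 ≤ 1 - 2 * r by linarith)
  have a2 := mul_le_mul_of_nonneg_left (h (z + e)) h0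
  have a3 := mul_le_mul_of_nonneg_left (h (z - e)) h0
  linarith

theorem iter_mono (h0 : 0 ≤ r) (h1 : r ≤ 1 / 3) {f g : G → ℝ} (h : ∀ z, f z ≤ g z) (m : ℕ)
    (z : G) : (stp e r)^[m] f z ≤ (stp e r)^[m] g z := by
  induction m generalizing z with
  | zero => exact h z
  | succ m ih =>
    rw [Function.iterate_succ_apply', Function.iterate_succ_apply']
    exact stp_mono h0 h1 ih z

theorem iter_nonneg (h0 : 0 ≤ r) (h1 : r ≤ 1 / 3) {f : G → ℝ} (h : ∀ z, 0 ≤ f z) (m : ℕ)
    (z : G) : 0 ≤ (stp e r)^[m] f z := by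
  induction m generalizing z with
  | zero => exact h z
  | succ m ih =>
    rw [Function.iterate_succ_apply']
    simp only [stp_apply]
    have a1 := mul_nonneg (show 0 ≤ 1 - 2 * r by linarith) (ih z)
    have a2 := mul_nonneg h0 (ih (z + e))
    have a3 := mul_nonneg h0 (ih (z - e))
    linarith

/-- linearity in finite sums -/
theorem iter_sum {κ : Type*} (A : Finset κ) (F : κ → G → ℝ) (m : ℕ) (z : G) :
    (stp e r)^[m] (fun w => ∑ k ∈ A, F k w) z = ∑ k ∈ A, (stp e r)^[m] (F k) z := by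
  induction m generalizing z with
  | zero => rfl
  | succ m ih =>
    rw [Function.iterate_succ_apply']
    simp only [Function.iterate_succ_apply']
    simp only [stp_apply]
    rw [ih, ih, ih, mul_sum, mul_sum, mul_sum, ← sum_add_distrib, ← sum_add_distrib]

theorem iter_shift (f : G → ℝ) (a : G) (m : ℕ) (z : G) :
    (stp e r)^[m] (fun w => f (w + a)) z = (stp e r)^[m] f (z + a) := by
  induction m generalizing z with
  | zero => rfl
  | succ m ih =>
    rw [Function.iterate_succ_apply', Function.iterate_succ_apply']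
    simp only [stp_apply]
    rw [ih, ih, ih]
    have e1 : z + e + a = z + a + e := by abel
    have e2 : z - e + a = z + a - e := by abel
    rw [e1, e2]

theorem iter_neg (f : G → ℝ) (m : ℕ) (z : G) :
    (stp e r)^[m] (fun w => f (-w)) z = (stp e r)^[m] f (-z) := by
  induction m generalizing z with
  | zero => rfl
  | succ m ih =>
    rw [Function.iterate_succ_apply', Function.iterate_succ_apply']
    simp only [stp_apply]
    rw [ih, ih, ih]
    have e1 : -(z + e) = -z - e := by abel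
    have e2 : -(z - e) = -z + e := by abel
    rw [e1, e2]
    ring

end general

/-- the kernel on `ℤ` -/
noncomputable def uk (r : ℝ) (m : ℕ) : ℤ → ℝ := (stp 1 r)^[m] (fun z => if z = 0 then 1 else 0)

theorem uk_succ (r : ℝ) (m : ℕ) (z : ℤ) :
    uk r (m + 1) z = (1 - 2 * r) * uk r m z + r * uk r m (z + 1) + r * uk r m (z - 1) := by
  unfold uk
  rw [Function.iterate_succ_apply']
  rfl

theorem uk_nonneg {r : ℝ} (h0 : 0 ≤ r) (h1 : r ≤ 1 / 3) (m : ℕ) (z : ℤ) : 0 ≤ uk r m z :=
  iter_nonneg h0 h1 (fun z => by positivity) m z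

theorem uk_neg (r : ℝ) (m : ℕ) (z : ℤ) : uk r m (-z) = uk r m z := by
  unfold uk
  rw [← iter_neg]
  have : (fun w : ℤ => if -w = 0 then (1 : ℝ) else 0) = fun z => if z = 0 then 1 else 0 := by
    funext w
    simp
  rw [this]

/-- unimodality -/
theorem uk_anti {r : ℝ} (h0 : 0 ≤ r) (h1 : r ≤ 1 / 3) (m : ℕ) :
    ∀ z : ℤ, 0 ≤ z → uk r m (z + 1) ≤ uk r m z := by
  induction m with
  | zero =>
    intro z hz
    unfold uk
    simp only [Function.iterate_zero, id]
    rw [if_neg (by omega)]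
    positivity
  | succ m ih =>
    intro z hz
    rw [uk_succ, uk_succ]
    have a0 := ih z hz
    have a1 := ih (z + 1) (by omega)
    rcases eq_or_lt_of_le hz with h | h
    · subst h
      have e1 : uk r m (0 - 1) = uk r m 1 := by
        have := uk_neg r m 1
        simpa using this
      simp only [zero_add] at *
      rw [e1]
      have e2 : ((1 : ℤ) - 1) = 0 := by norm_num
      rw [e2]
      have b1 := mul_nonneg (show 0 ≤ 1 - 3 * r by linarith) (sub_nonneg.2 a0)
      have b2 := mul_nonneg h0 (sub_nonneg.2 a1)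
      nlinarith
    · have a2 := ih (z - 1) (by omega)
      have e1 : z - 1 + 1 = z := by ring
      have e2 : z + 1 - 1 = z := by ring
      rw [e1] at a2
      rw [e2]
      have b0 := mul_nonneg (show 0 ≤ 1 - 2 * r by linarith) (sub_nonneg.2 a0)
      have b1 := mul_nonneg h0 (sub_nonneg.2 a1)
      have b2 := mul_nonneg h0 (sub_nonneg.2 a2)
      nlinarith

theorem uk_anti' {r : ℝ} (h0 : 0 ≤ r) (h1 : r ≤ 1 / 3) (m : ℕ) {z w : ℤ} (hz : 0 ≤ z)
    (hw : z ≤ w) : uk r m w ≤ uk r m z := by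
  obtain ⟨k, rfl⟩ := Int.le.dest hw
  induction k with
  | zero => simp
  | succ k ih =>
    have := uk_anti h0 h1 m (z + k) (by omega)
    have h2 := ih (by omega)
    push_cast
    rw [← add_assoc]
    exact this.trans h2

theorem uk_abs (r : ℝ) (m : ℕ) (z : ℤ) : uk r m |z| = uk r m z := by
  rcases abs_choice z with h | h
  · rw [h]
  · rw [h, uk_neg]

/-- `E φ = ∑ φ(z) P(X = z)` for indicator functions -/
theorem iter_ind (r : ℝ) (m : ℕ) (A : Finset ℤ) :
    (stp 1 r)^[m] (fun z : ℤ => if z ∈ A then (1 : ℝ) else 0) 0 = ∑ z ∈ A, uk r m z := by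
  have e1 : (fun z : ℤ => if z ∈ A then (1 : ℝ) else 0) =
      fun z => ∑ a ∈ A, if z + (-a) = 0 then (1 : ℝ) else 0 := by
    funext z
    have : ∀ a ∈ A, (if z + (-a) = 0 then (1 : ℝ) else 0) = if z = a then 1 else 0 := by
      intro a _
      congr 1
      exact propext ⟨fun h => by omega, fun h => by omega⟩
    rw [sum_congr rfl this, sum_ite_eq]
  rw [e1, iter_sum]
  refine sum_congr rfl fun a _ => ?_
  have := iter_shift (e := (1 : ℤ)) (r := r) (fun z : ℤ => if z = 0 then (1 : ℝ) else 0) (-a) m 0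
  rw [this, zero_add]
  exact uk_neg r m a

/-- moments -/
theorem iter_poly (r A B C : ℝ) (m : ℕ) (z : ℤ) :
    (stp 1 r)^[m] (fun w : ℤ => A + B * (w : ℝ) ^ 2 + C * (w : ℝ) ^ 4) z =
      A + B * ((z : ℝ) ^ 2 + 2 * r * m) +
        C * ((z : ℝ) ^ 4 + 12 * r * m * (z : ℝ) ^ 2 + (2 * r * m + 12 * r ^ 2 * (m * (m - 1)))) := by
  induction m generalizing z with
  | zero => simp
  | succ m ih =>
    rw [Function.iterate_succ_apply']
    simp only [stp_apply]
    rw [ih, ih, ih]
    push_cast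
    ring

/-- **Lower bound for the kernel.** -/
theorem uk_low {r : ℝ} (h0 : 0 ≤ r) (h1 : r ≤ 1 / 3) {m : ℕ} {t : ℝ} (ht : 2 * r * m = t)
    (ht1 : 1 ≤ t) {z : ℤ} (hz : (2 * (z : ℝ)) ^ 2 ≤ t) : 1 / (128 * √t) ≤ uk r m z := by
  have ht0 : 0 < t := by linarith
  have hs : 1 ≤ √t := by rwa [Real.one_le_sqrt]
  have hs2 : √t ^ 2 = t := Real.sq_sqrt ht0.le
  set b : ℤ := ⌊4 * √t⌋ with hb
  set A : Finset ℤ := (Icc (-b) b).filter (fun w => t ≤ (2 * (w : ℝ)) ^ 2) with hA
  set c : ℝ := 3 / (16 * t) with hc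
  have hc0 : 0 < c := by positivity
  have hct : c * t = 3 / 16 := by rw [hc]; field_simp
  -- polynomial minorant of the indicator
  have hmin : ∀ w : ℤ, -(c * t / 2) + (2 * c - 1 / (16 * t)) * (w : ℝ) ^ 2 +
      (-(c ^ 2)) * (w : ℝ) ^ 4 ≤ if w ∈ A then (1 : ℝ) else 0 := by
    intro w
    have hsq : 2 * c * (w : ℝ) ^ 2 - c ^ 2 * (w : ℝ) ^ 4 ≤ 1 := by
      nlinarith [sq_nonneg (1 - c * (w : ℝ) ^ 2)]
    have hct0 : 0 ≤ c * t / 2 := by positivity
    have hw0 : 0 ≤ 1 / (16 * t) * (w : ℝ) ^ 2 := by positivity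
    split_ifs with hw
    · linarith
    · rw [hA, mem_filter] at hw
      by_cases h2 : t ≤ (2 * (w : ℝ)) ^ 2
      · have h3 : w ∉ Icc (-b) b := fun h => hw ⟨h, h2⟩
        have h4 : 4 * √t < |(w : ℝ)| := by
          rw [mem_Icc, not_and_or] at h3
          rcases h3 with h3 | h3
          · have h5 : b < -w := by omega
            rw [hb, Int.floor_lt] at h5
            push_cast at h5
            exact h5.trans_le (neg_le_abs _)
          · have h5 : b < w := by omega
            rw [hb, Int.floor_lt] at h5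
            exact h5.trans_le (le_abs_self _)
        have h6 : 16 * t ≤ (w : ℝ) ^ 2 := by
          rw [← sq_abs]
          nlinarith
        have h7 : 1 ≤ 1 / (16 * t) * (w : ℝ) ^ 2 := by
          rw [div_mul_eq_mul_div, one_mul, le_div_iff₀ (by positivity)]
          linarith
        linarith
      · push Not at h2
        have h3 : 2 * c * (w : ℝ) ^ 2 ≤ c * t / 2 := by nlinarith
        have h4 : 0 ≤ c ^ 2 * (w : ℝ) ^ 4 := by positivity
        linarith
  have hE := iter_mono (e := (1 : ℤ)) h0 h1 hmin m 0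
  rw [iter_ind, iter_poly] at hE
  have hm4 : 2 * r * m + 12 * r ^ 2 * (m * ((m : ℝ) - 1)) ≤ 4 * t ^ 2 := by
    have e1 : 12 * r ^ 2 * (m * ((m : ℝ) - 1)) = 3 * (2 * r * m) ^ 2 - 12 * r ^ 2 * m := by ring
    rw [e1, ht]
    have : 0 ≤ 12 * r ^ 2 * (m : ℝ) := by positivity
    nlinarith
  have hE2 : 5 / 64 ≤ ∑ z ∈ A, uk r m z := by
    refine le_trans ?_ hE
    push_cast
    rw [ht]
    have e2 : (-(c ^ 2)) * (0 ^ 4 + 12 * r * m * 0 ^ 2 + (2 * r * m + 12 * r ^ 2 *
        (m * ((m : ℝ) - 1)))) ≥ -(c ^ 2) * (4 * t ^ 2) := by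
      have := mul_le_mul_of_nonneg_left hm4 (sq_nonneg c)
      nlinarith
    have e3 : -(c ^ 2) * (4 * t ^ 2) = -(4 * (c * t) ^ 2) := by ring
    have e4 : (2 * c - 1 / (16 * t)) * (0 ^ 2 + t) = 2 * (c * t) - 1 / 16 := by
      field_simp
      ring
    rw [ht] at e2
    rw [e4]
    rw [e3, hct] at e2
    rw [hct]
    linarith
  -- upper bound of the sum
  have hup : ∑ w ∈ A, uk r m w ≤ ∑ _w ∈ A, uk r m z := by
    refine sum_le_sum fun w hw => ?_
    rw [← uk_abs r m w, ← uk_abs r m z]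
    refine uk_anti' h0 h1 m (abs_nonneg z) ?_
    have h2 := (mem_filter.1 hw).2
    have h3 : (2 * (z : ℝ)) ^ 2 ≤ (2 * (w : ℝ)) ^ 2 := hz.trans h2
    have h4 : (z : ℝ) ^ 2 ≤ (w : ℝ) ^ 2 := by nlinarith
    have h5 : z ^ 2 ≤ w ^ 2 := by exact_mod_cast h4
    exact sq_le_sq.1 h5
  rw [sum_const, nsmul_eq_mul] at hup
  -- cardinality
  have hcard : (A.card : ℝ) ≤ 8 * √t := by
    have hb0 : 0 ≤ b := Int.floor_nonneg.2 (by positivity)
    have hsub : A ⊆ (Icc (-b) b).erase 0 := by
      intro w hw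
      refine mem_erase.2 ⟨?_, (mem_filter.1 hw).1⟩
      rintro rfl
      have := (mem_filter.1 hw).2
      simp at this
      linarith
    have h2 := card_le_card hsub
    have h3 : ((Icc (-b) b).erase 0).card = (2 * b).toNat := by
      rw [card_erase_of_mem (mem_Icc.2 ⟨by omega, by omega⟩), Int.card_Icc]
      omega
    rw [h3] at h2
    have h4 : (A.card : ℤ) ≤ 2 * b := by omega
    have h5 : (A.card : ℝ) ≤ 2 * (b : ℝ) := by exact_mod_cast h4
    have h6 : (b : ℝ) ≤ 4 * √t := Int.floor_le _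
    linarith
  have hu := uk_nonneg h0 h1 m z
  have h7 : 5 / 64 ≤ 8 * √t * uk r m z := by
    have := mul_le_mul_of_nonneg_right hcard hu
    linarith
  rw [div_le_iff₀ (by positivity)]
  nlinarith

/-- comparison with the walk on `ZMod n` (or any group) -/
theorem uk_le_group {G : Type*} [AddCommGroup G] [DecidableEq G] {e : G} {r : ℝ} (h0 : 0 ≤ r)
    (h1 : r ≤ 1 / 3) (m : ℕ) (z : ℤ) :
    uk r m z ≤ (stp e r)^[m] (fun w : G => if w = 0 then (1 : ℝ) else 0) (z • e) := by
  induction m generalizing z with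
  | zero =>
    unfold uk
    simp only [Function.iterate_zero, id]
    by_cases hz : z = 0
    · simp [hz]
    · rw [if_neg hz]
      positivity
  | succ m ih =>
    rw [uk_succ, Function.iterate_succ_apply']
    simp only [stp_apply]
    have e1 : z • e + e = (z + 1) • e := by rw [add_smul, one_smul]
    have e2 : z • e - e = (z - 1) • e := by rw [sub_smul, one_smul]
    rw [e1, e2]
    have a1 := mul_le_mul_of_nonneg_left (ih z) (show 0 ≤ 1 - 2 * r by linarith)
    have a2 := mul_le_mul_of_nonneg_left (ih (z + 1)) h0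
    have a3 := mul_le_mul_of_nonneg_left (ih (z - 1)) h0
    linarith

end Vale.Agent.P361.LRO.Bloch
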