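import Vale.Agent.P361.LRO.Defs
import Vale.Agent.P361.LRO.Tw.Pow
import Vale.Agent.P361.LRO.Bloch.Walk1

/-!
P361, stages R2/R3: lower bound for the heat kernel of the torus.
`exp ((t/2) ∑_e (τ_e - 1)) x y ≥ (1 / (128 √t))³` for `y = x + v`, `|v_i| ≤ √t / 2`, `t ≥ 1`.
-/

namespace Vale.Agent.P361.LRO.Bloch

open Finset Matrix Filter Topology
open scoped Matrix.Norms.Operator

section group

variable {V : Type} [Fintype V] [DecidableEq V] [AddCommGroup V]

/-- `f ↦ f (x + e) + f (x - e) - 2 f x` -/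
def dirM (e : V) : Matrix V V ℝ :=
  Matrix.of fun x y => (if y = x + e then 1 else 0) + (if y = x - e then 1 else 0) -
    2 * (if y = x then 1 else 0)

theorem dirM_mulVec (e : V) (f : V → ℝ) (x : V) :
    (dirM e *ᵥ f) x = f (x + e) + f (x - e) - 2 * f x := by
  unfold dirM mulVec dotProduct
  simp only [Matrix.of_apply, sub_mul, add_mul, sum_sub_distrib, sum_add_distrib, ite_mul,
    one_mul, zero_mul, sum_ite_eq', mem_univ, if_true, mul_ite, mul_one, mul_zero]

theorem one_add_mulVec (e : V) (r : ℝ) (f : V → ℝ) :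
    (1 + r • dirM e) *ᵥ f = stp e r f := by
  funext x
  rw [Matrix.add_mulVec, Matrix.one_mulVec, Matrix.smul_mulVec, Pi.add_apply, Pi.smul_apply,
    dirM_mulVec, stp_apply, smul_eq_mul]
  ring

theorem pow_mulVec (e : V) (r : ℝ) (m : ℕ) (f : V → ℝ) :
    ((1 + r • dirM e) ^ m) *ᵥ f = (stp e r)^[m] f := by
  induction m with
  | zero => simp
  | succ m ih =>
    rw [pow_succ', ← Matrix.mulVec_mulVec, ih, one_add_mulVec, Function.iterate_succ_apply']

theorem pow_entry (e : V) (r : ℝ) (m : ℕ) (x y : V) :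
    ((1 + r • dirM e) ^ m) x y = (stp e r)^[m] (fun w => if w = y then (1 : ℝ) else 0) x := by
  rw [← pow_mulVec]
  unfold mulVec dotProduct
  simp

theorem pow_entry_nonneg (e : V) {r : ℝ} (h0 : 0 ≤ r) (h1 : r ≤ 1 / 3) (m : ℕ) (x y : V) :
    0 ≤ ((1 + r • dirM e) ^ m) x y := by
  rw [pow_entry]
  exact iter_nonneg h0 h1 (fun z => by positivity) m x

theorem pow_entry_ge (e : V) {r : ℝ} (h0 : 0 ≤ r) (h1 : r ≤ 1 / 3) (m : ℕ) (x : V) (z : ℤ) :
    uk r m z ≤ ((1 + r • dirM e) ^ m) x (x + z • e) := by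
  rw [pow_entry, ← uk_neg]
  have h := uk_le_group (e := e) h0 h1 m (-z)
  have e1 : (fun w : V => if w = x + z • e then (1 : ℝ) else 0) =
      fun w => (fun w : V => if w = 0 then (1 : ℝ) else 0) (w + (-(x + z • e))) := by
    funext w
    simp only
    congr 1
    exact propext ⟨fun h => by rw [h]; abel, fun h => by
      have := add_neg_eq_zero.1 h
      exact this⟩
  have h2 := iter_shift (e := e) (r := r) (fun w : V => if w = 0 then (1 : ℝ) else 0)
    (-(x + z • e)) m x
  rw [e1, h2]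
  have e2 : x + -(x + z • e) = (-z) • e := by rw [neg_smul]; abel
  rw [e2]
  exact h

omit [AddCommGroup V] in
theorem norm_one_le : ‖(1 : Matrix V V ℝ)‖ ≤ 1 := by
  rcases isEmpty_or_nonempty V with h | h
  · have : (1 : Matrix V V ℝ) = 0 := Subsingleton.elim _ _
    rw [this, norm_zero]
    exact zero_le_one
  · rw [norm_one]

theorem pow_tendsto (e : V) (s : ℝ) :
    Tendsto (fun m : ℕ => (1 + (s / m) • dirM e) ^ m) atTop
      (𝓝 (NormedSpace.exp (s • dirM e))) := by
  refine Trot.pow_tendsto_exp (𝔸 := Matrix V V ℝ) norm_one_le ?_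
  refine tendsto_const_nhds.congr' ?_
  filter_upwards [eventually_gt_atTop 0] with m hm
  have hm0 : (m : ℝ) ≠ 0 := by exact_mod_cast hm.ne'
  rw [add_sub_cancel_left, smul_smul, mul_div_cancel₀ _ hm0]

theorem entry_tendsto (e : V) (s : ℝ) (x y : V) :
    Tendsto (fun m : ℕ => ((1 + (s / m) • dirM e) ^ m) x y) atTop
      (𝓝 (NormedSpace.exp (s • dirM e) x y)) :=
  ((continuous_apply_apply x y).tendsto _).comp (pow_tendsto e s)

theorem exp_nonneg (e : V) {s : ℝ} (hs : 0 ≤ s) (x y : V) :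
    0 ≤ NormedSpace.exp (s • dirM e) x y := by
  refine ge_of_tendsto (entry_tendsto e s x y) ?_
  have h1 : Tendsto (fun m : ℕ => s / m) atTop (𝓝 0) := tendsto_const_div_atTop_nhds_zero_nat s
  filter_upwards [h1.eventually (gt_mem_nhds (show (0 : ℝ) < 1 / 3 by norm_num))] with m hm
  exact pow_entry_nonneg e (by positivity) hm.le m x y

theorem exp_ge (e : V) {t : ℝ} (ht : 1 ≤ t) (x : V) {z : ℤ} (hz : (2 * (z : ℝ)) ^ 2 ≤ t) :
    1 / (128 * √t) ≤ NormedSpace.exp ((t / 2) • dirM e) x (x + z • e) := by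
  refine ge_of_tendsto (entry_tendsto e (t / 2) x (x + z • e)) ?_
  have h1 : Tendsto (fun m : ℕ => t / 2 / m) atTop (𝓝 0) :=
    tendsto_const_div_atTop_nhds_zero_nat (t / 2)
  filter_upwards [h1.eventually (gt_mem_nhds (show (0 : ℝ) < 1 / 3 by norm_num)),
    eventually_gt_atTop 0] with m hm hm0
  have hm1 : (m : ℝ) ≠ 0 := by exact_mod_cast hm0.ne'
  refine le_trans ?_ (pow_entry_ge e (by positivity) hm.le m x z)
  refine uk_low (by positivity) hm.le (t := t) ?_ ht hz
  field_simp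

theorem dirM_comm (e e' : V) : Commute (dirM e) (dirM e') := by
  refine Matrix.ext_of_mulVec_single fun i => ?_
  rw [← Matrix.mulVec_mulVec, ← Matrix.mulVec_mulVec]
  funext x
  simp only [dirM_mulVec]
  have e1 : x + e + e' = x + e' + e := by abel
  have e2 : x + e - e' = x - e' + e := by abel
  have e3 : x - e + e' = x + e' - e := by abel
  have e4 : x - e - e' = x - e' - e := by abel
  rw [e1, e2, e3, e4]
  ring

end group

/-- `∑_{e ∈ L} (τ_e - 1)`, `τ_e` = permutation matrix of the transposition -/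
def lapL {V : Type} [Fintype V] [DecidableEq V] (L : List (V × V)) : Matrix V V ℝ :=
  (L.map fun e => (Equiv.swap e.1 e.2).permMatrix ℝ - 1).sum

theorem lapL_mulVec {V : Type} [Fintype V] [DecidableEq V] (L : List (V × V)) (f : V → ℝ)
    (x : V) : (lapL L *ᵥ f) x = (L.map fun e => f (Equiv.swap e.1 e.2 x) - f x).sum := by
  unfold lapL
  induction L with
  | nil => simp
  | cons e L ih =>
    simp only [List.map_cons, List.sum_cons]
    rw [Matrix.add_mulVec, Pi.add_apply, ih, Matrix.sub_mulVec, Matrix.one_mulVec, Pi.sub_apply,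
      Matrix.permMatrix_mulVec]
    rfl

theorem sum_swap {V : Type} [Fintype V] [DecidableEq V] [AddCommGroup V] (e : V) (f : V → ℝ)
    (x : V) : ∑ a, (f (Equiv.swap a (a + e) x) - f x) = f (x + e) + f (x - e) - 2 * f x := by
  by_cases he : e = 0
  · subst he
    simp only [add_zero, sub_zero, Equiv.swap_self, Equiv.refl_apply, sub_self, sum_const_zero]
    ring
  · have h : ∀ a : V, f (Equiv.swap a (a + e) x) - f x =
        (if a = x then f (x + e) - f x else 0) + (if a = x - e then f (x - e) - f x else 0) := by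
      intro a
      by_cases h1 : a = x
      · subst h1
        have h2 : ¬ a = a - e := by
          intro h
          apply he
          have := sub_eq_self.1 h.symm
          exact this
        rw [if_pos rfl, if_neg h2, Equiv.swap_apply_left, add_zero]
      · by_cases h2 : a = x - e
        · rw [if_neg h1, if_pos h2, h2, sub_add_cancel, Equiv.swap_apply_right, zero_add]
        · rw [if_neg h1, if_neg h2, Equiv.swap_apply_of_ne_of_ne (Ne.symm h1)]
          · simp
          · intro h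
            apply h2
            rw [h]
            abel
    simp only [h, sum_add_distrib, sum_ite_eq', mem_univ, if_true]
    ring

theorem edges_sum (n : ℕ) [NeZero n] (F : Tor n → Tor n → ℝ) :
    ((edges n).map fun e => F e.1 e.2).sum =
      ∑ i : Fin 3, ∑ a : Tor n, F a (a + Pi.single i 1) := by
  unfold edges
  rw [List.map_map, Finset.sum_map_toList, Fintype.sum_prod_type_right]
  rfl

theorem lapL_edges_mulVec (n : ℕ) [NeZero n] (f : Tor n → ℝ) (x : Tor n) :
    (lapL (edges n) *ᵥ f) x = ((∑ i : Fin 3, dirM (Pi.single i 1 : Tor n)) *ᵥ f) x := by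
  rw [lapL_mulVec, edges_sum n fun a b => f (Equiv.swap a b x) - f x, Matrix.sum_mulVec,
    Finset.sum_apply]
  refine sum_congr rfl fun i _ => ?_
  rw [dirM_mulVec]
  exact sum_swap (Pi.single i 1 : Tor n) f x

theorem lapL_edges (n : ℕ) [NeZero n] :
    lapL (edges n) = ∑ i : Fin 3, dirM (Pi.single i 1 : Tor n) :=
  Matrix.ext_of_mulVec_single fun j => funext fun x => lapL_edges_mulVec n (Pi.single j 1) x

/-- **Heat kernel of the torus.** -/
theorem torus_ge (n : ℕ) [NeZero n] {t : ℝ} (ht : 1 ≤ t) (x : Tor n) (z : Fin 3 → ℤ)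
    (hz : ∀ i, (2 * (z i : ℝ)) ^ 2 ≤ t) :
    (1 / (128 * √t)) ^ 3 ≤
      NormedSpace.exp ((t / 2) • lapL (edges n)) x (x + fun i => ((z i : ℤ) : ZMod n)) := by
  have ht0 : 0 ≤ t / 2 := by linarith
  set e : Fin 3 → Tor n := fun i => Pi.single i 1 with he
  have hL : (t / 2) • lapL (edges n) =
      (t / 2) • dirM (e 0) + (t / 2) • dirM (e 1) + (t / 2) • dirM (e 2) := by
    rw [lapL_edges, Fin.sum_univ_three, smul_add, smul_add]
  have c1 : Commute ((t / 2) • dirM (e 0) + (t / 2) • dirM (e 1)) ((t / 2) • dirM (e 2)) :=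
    (((dirM_comm (e 0) (e 2)).smul_left _).smul_right _).add_left
      (((dirM_comm (e 1) (e 2)).smul_left _).smul_right _)
  have c2 : Commute ((t / 2) • dirM (e 0)) ((t / 2) • dirM (e 1)) :=
    ((dirM_comm (e 0) (e 1)).smul_left _).smul_right _
  rw [hL, Matrix.exp_add_of_commute _ _ c1, Matrix.exp_add_of_commute _ _ c2]
  set A0 := NormedSpace.exp ((t / 2) • dirM (e 0)) with hA0
  set A1 := NormedSpace.exp ((t / 2) • dirM (e 1)) with hA1
  set A2 := NormedSpace.exp ((t / 2) • dirM (e 2)) with hA2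
  have n0 : ∀ a b, 0 ≤ A0 a b := exp_nonneg (e 0) ht0
  have n1 : ∀ a b, 0 ≤ A1 a b := exp_nonneg (e 1) ht0
  have n2 : ∀ a b, 0 ≤ A2 a b := exp_nonneg (e 2) ht0
  have hy : (x + fun i => ((z i : ℤ) : ZMod n)) = x + z 0 • e 0 + z 1 • e 1 + z 2 • e 2 := by
    funext i
    simp only [he, Pi.add_apply, Pi.smul_apply]
    fin_cases i <;> simp
  rw [hy]
  have g0 := exp_ge (e 0) ht x (hz 0)
  have g1 := exp_ge (e 1) ht (x + z 0 • e 0) (hz 1)
  have g2 := exp_ge (e 2) ht (x + z 0 • e 0 + z 1 • e 1) (hz 2)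
  have hc : 0 ≤ 1 / (128 * √t) := by positivity
  have m1 : A0 x (x + z 0 • e 0) * A1 (x + z 0 • e 0) (x + z 0 • e 0 + z 1 • e 1) ≤
      (A0 * A1) x (x + z 0 • e 0 + z 1 • e 1) := by
    rw [Matrix.mul_apply]
    exact single_le_sum (f := fun j => A0 x j * A1 j (x + z 0 • e 0 + z 1 • e 1))
      (fun j _ => mul_nonneg (n0 _ _) (n1 _ _)) (mem_univ _)
  have n01 : ∀ a b, 0 ≤ (A0 * A1) a b := fun a b => by
    rw [Matrix.mul_apply]
    exact sum_nonneg fun j _ => mul_nonneg (n0 _ _) (n1 _ _)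
  have m2 : (A0 * A1) x (x + z 0 • e 0 + z 1 • e 1) *
      A2 (x + z 0 • e 0 + z 1 • e 1) (x + z 0 • e 0 + z 1 • e 1 + z 2 • e 2) ≤
      (A0 * A1 * A2) x (x + z 0 • e 0 + z 1 • e 1 + z 2 • e 2) := by
    rw [Matrix.mul_apply (M := A0 * A1)]
    exact single_le_sum
      (f := fun j => (A0 * A1) x j * A2 j (x + z 0 • e 0 + z 1 • e 1 + z 2 • e 2))
      (fun j _ => mul_nonneg (n01 _ _) (n2 _ _)) (mem_univ _)
  calc (1 / (128 * √t)) ^ 3 = (1 / (128 * √t)) * (1 / (128 * √t)) * (1 / (128 * √t)) := by ring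
    _ ≤ (A0 x (x + z 0 • e 0) * A1 (x + z 0 • e 0) (x + z 0 • e 0 + z 1 • e 1)) *
        A2 (x + z 0 • e 0 + z 1 • e 1) (x + z 0 • e 0 + z 1 • e 1 + z 2 • e 2) :=
        mul_le_mul (mul_le_mul g0 g1 hc (n0 _ _)) g2 hc (mul_nonneg (n0 _ _) (n1 _ _))
    _ ≤ (A0 * A1) x (x + z 0 • e 0 + z 1 • e 1) *
        A2 (x + z 0 • e 0 + z 1 • e 1) (x + z 0 • e 0 + z 1 • e 1 + z 2 • e 2) :=
        mul_le_mul_of_nonneg_right m1 (n2 _ _)
    _ ≤ _ := m2

end Vale.Agent.P361.LRO.Bloch
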