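import Mathlib

/-!
# P361, stage R3, heat kernel: one-dimensional lower bound

Poisson weights and the Skellam lower bound `e^{-2s} ∑_b s^b s^{b+j} / (b! (b+j)!) ≥ c_A / √s`
for `0 ≤ j ≤ A √s`, `s ≥ 1`.
-/

namespace Vale.Agent.P361.LRO.Bloch.Ker

open Finset

noncomputable section

/-- Poisson weight. -/
def po (s : ℝ) (b : ℕ) : ℝ := Real.exp (-s) * (s ^ b / b.factorial)

theorem po_nonneg {s : ℝ} (hs : 0 ≤ s) (b : ℕ) : 0 ≤ po s b := by
  unfold po
  positivity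

theorem fact_le {n : ℕ} (hn : 0 < n) :
    (n.factorial : ℝ) ≤ Real.exp 1 * √n * (n / Real.exp 1) ^ n := by
  obtain ⟨m, rfl⟩ : ∃ m, n = m + 1 := ⟨n - 1, by omega⟩
  have h : Stirling.stirlingSeq (m + 1) ≤ Stirling.stirlingSeq 1 :=
    Stirling.stirlingSeq'_antitone (Nat.zero_le m)
  rw [Stirling.stirlingSeq_one, Stirling.stirlingSeq] at h
  have h2 : (0 : ℝ) < √2 := by positivity
  have hp : (0 : ℝ) < √(2 * ((m + 1 : ℕ) : ℝ)) * (((m + 1 : ℕ) : ℝ) / Real.exp 1) ^ (m + 1) := by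
    positivity
  rw [div_le_iff₀ hp] at h
  refine h.trans (le_of_eq ?_)
  rw [Real.sqrt_mul (by norm_num)]
  field_simp

theorem fact_add_le (b i : ℕ) : (b + i).factorial ≤ b.factorial * (b + i) ^ i := by
  induction i with
  | zero => simp
  | succ i ih =>
    rw [← add_assoc, Nat.factorial_succ]
    calc (b + i + 1) * (b + i).factorial ≤ (b + i + 1) * (b.factorial * (b + i) ^ i) :=
          Nat.mul_le_mul_left _ ih
      _ ≤ (b + i + 1) * (b.factorial * (b + i + 1) ^ i) :=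
          Nat.mul_le_mul_left _ (Nat.mul_le_mul_left _ (Nat.pow_le_pow_left (Nat.le_succ _) _))
      _ = b.factorial * (b + i + 1) ^ (i + 1) := by ring

theorem po_floor {s : ℝ} (hs : 1 ≤ s) : Real.exp (-2) / √s ≤ po s ⌊s⌋₊ := by
  set b := ⌊s⌋₊ with hb
  have hb1 : 1 ≤ b := by
    rw [hb]
    exact Nat.le_floor (by exact_mod_cast hs)
  have hs0 : 0 < s := by linarith
  have hbs : (b : ℝ) ≤ s := Nat.floor_le hs0.le
  have hsb : s < b + 1 := Nat.lt_floor_add_one s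
  have hbp : (0 : ℝ) < b := by exact_mod_cast hb1
  have hf : (0 : ℝ) < b.factorial := by exact_mod_cast Nat.factorial_pos b
  have hsq : (0 : ℝ) < √s := Real.sqrt_pos.2 hs0
  unfold po
  rw [← mul_div_assoc, le_div_iff₀ hf]
  have h1 : Real.exp (-2) / √s * (b.factorial : ℝ) ≤
      Real.exp (-2) / √s * (Real.exp 1 * √b * (b / Real.exp 1) ^ b) :=
    mul_le_mul_of_nonneg_left (fact_le hb1) (by positivity)
  refine h1.trans ?_
  have h2 : √(b : ℝ) ≤ √s := Real.sqrt_le_sqrt hbs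
  have h3 : (b / Real.exp 1 : ℝ) ^ b ≤ s ^ b * Real.exp (-b) := by
    rw [div_pow, ← Real.exp_nat_mul, mul_one, Real.exp_neg, ← div_eq_mul_inv]
    gcongr
  have h4 : Real.exp (-2) / √s * (Real.exp 1 * √b * (b / Real.exp 1) ^ b) ≤
      Real.exp (-2) / √s * (Real.exp 1 * √s * (s ^ b * Real.exp (-b))) := by
    gcongr
  refine h4.trans ?_
  have h5 : Real.exp (-2) / √s * (Real.exp 1 * √s * (s ^ b * Real.exp (-b))) =
      Real.exp (-(b + 1)) * s ^ b := by
    have e : Real.exp (-(b + 1) : ℝ) = Real.exp (-2) * Real.exp 1 * Real.exp (-b) := by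
      rw [← Real.exp_add, ← Real.exp_add]
      congr 1
      ring
    rw [e]
    field_simp
  rw [h5]
  have h6 : Real.exp (-(b + 1) : ℝ) ≤ Real.exp (-s) := Real.exp_le_exp.2 (by linarith)
  gcongr

theorem po_add {s : ℝ} (hs : 1 ≤ s) (i : ℕ) :
    po s ⌊s⌋₊ * Real.exp (-((i : ℝ) ^ 2 / s)) ≤ po s (⌊s⌋₊ + i) := by
  set b := ⌊s⌋₊ with hb
  have hs0 : 0 < s := by linarith
  have hbs : (b : ℝ) ≤ s := Nat.floor_le hs0.le
  have hf : (0 : ℝ) < b.factorial := by exact_mod_cast Nat.factorial_pos b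
  have hf2 : (0 : ℝ) < (b + i).factorial := by exact_mod_cast Nat.factorial_pos _
  have h1 : ((b + i).factorial : ℝ) ≤ b.factorial * (s + i) ^ i := by
    have h := fact_add_le b i
    have h' : ((b + i).factorial : ℝ) ≤ b.factorial * ((b : ℝ) + i) ^ i := by exact_mod_cast h
    refine h'.trans ?_
    gcongr
  have h2 : Real.exp (-((i : ℝ) ^ 2 / s)) * (s + i) ^ i ≤ s ^ i := by
    have e : Real.exp (-((i : ℝ) ^ 2 / s)) = Real.exp (-((i : ℝ) / s)) ^ i := by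
      rw [← Real.exp_nat_mul]
      congr 1
      ring
    rw [e, ← mul_pow]
    refine pow_le_pow_left₀ (by positivity) ?_ i
    have h3 : (i : ℝ) / s + 1 ≤ Real.exp ((i : ℝ) / s) := Real.add_one_le_exp _
    have h4 : s + i = s * ((i : ℝ) / s + 1) := by field_simp; ring
    rw [h4, Real.exp_neg]
    rw [inv_mul_le_iff₀ (Real.exp_pos _)]
    nlinarith
  unfold po
  have h5 : s ^ b / (b.factorial : ℝ) * Real.exp (-((i : ℝ) ^ 2 / s)) ≤
      s ^ (b + i) / ((b + i).factorial : ℝ) := by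
    rw [le_div_iff₀ hf2]
    have h6 : s ^ b / (b.factorial : ℝ) * Real.exp (-((i : ℝ) ^ 2 / s)) *
        ((b + i).factorial : ℝ) ≤ s ^ b / (b.factorial : ℝ) * Real.exp (-((i : ℝ) ^ 2 / s)) *
        (b.factorial * (s + i) ^ i) := mul_le_mul_of_nonneg_left h1 (by positivity)
    refine h6.trans ?_
    have h7 : s ^ b / (b.factorial : ℝ) * Real.exp (-((i : ℝ) ^ 2 / s)) *
        (b.factorial * (s + i) ^ i) = s ^ b * (Real.exp (-((i : ℝ) ^ 2 / s)) * (s + i) ^ i) := by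
      field_simp
    rw [h7, pow_add]
    exact mul_le_mul_of_nonneg_left h2 (by positivity)
  rw [mul_assoc]
  exact mul_le_mul_of_nonneg_left h5 (Real.exp_pos _).le

/-- Local lower bound for the Poisson distribution. -/
theorem po_ge {s : ℝ} (hs : 1 ≤ s) {B : ℝ} {i : ℕ} (hi : (i : ℝ) ≤ B * √s) :
    Real.exp (-(2 + B ^ 2)) / √s ≤ po s (⌊s⌋₊ + i) := by
  have hs0 : 0 < s := by linarith
  have hsq : (0 : ℝ) < √s := Real.sqrt_pos.2 hs0
  refine le_trans ?_ (po_add hs i)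
  have h1 : (i : ℝ) ^ 2 / s ≤ B ^ 2 := by
    rw [div_le_iff₀ hs0]
    have h : (i : ℝ) ^ 2 ≤ (B * √s) ^ 2 := pow_le_pow_left₀ (by positivity) hi 2
    rw [mul_pow, Real.sq_sqrt hs0.le] at h
    exact h
  have h2 : Real.exp (-(2 + B ^ 2)) / √s = Real.exp (-2) / √s * Real.exp (-(B ^ 2)) := by
    rw [neg_add, Real.exp_add]
    ring
  rw [h2]
  exact mul_le_mul (po_floor hs) (Real.exp_le_exp.2 (by linarith)) (Real.exp_pos _).le
    (po_nonneg hs0.le _)

/-- One-dimensional heat kernel lower bound. -/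
theorem one_dim {A : ℝ} (hA : 0 ≤ A) {s : ℝ} (hs : 1 ≤ s) {j : ℕ} (hj : (j : ℝ) ≤ A * √s) :
    Real.exp (-(4 + 2 * (A + 1) ^ 2)) / √s ≤
      ∑ i ∈ range (⌊√s⌋₊ + 1), po s (⌊s⌋₊ + i) * po s (⌊s⌋₊ + i + j) := by
  have hs0 : 0 < s := by linarith
  have hsq : (0 : ℝ) < √s := Real.sqrt_pos.2 hs0
  have hterm : ∀ i ∈ range (⌊√s⌋₊ + 1), (Real.exp (-(2 + (A + 1) ^ 2)) / √s) ^ 2 ≤
      po s (⌊s⌋₊ + i) * po s (⌊s⌋₊ + i + j) := by
    intro i hi
    rw [mem_range, Nat.lt_succ_iff] at hi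
    have hi' : (i : ℝ) ≤ √s := (Nat.le_floor_iff hsq.le).1 hi
    have h1 : Real.exp (-(2 + (A + 1) ^ 2)) / √s ≤ po s (⌊s⌋₊ + i) := by
      refine po_ge hs (hi'.trans ?_)
      have := mul_nonneg hA hsq.le
      linarith
    have h2 : Real.exp (-(2 + (A + 1) ^ 2)) / √s ≤ po s (⌊s⌋₊ + i + j) := by
      rw [add_assoc]
      refine po_ge hs ?_
      push_cast
      nlinarith
    rw [sq]
    exact mul_le_mul h1 h2 (by positivity) (po_nonneg hs0.le _)
  have hsum := card_nsmul_le_sum _ _ _ hterm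
  refine le_trans ?_ hsum
  rw [card_range, nsmul_eq_mul]
  have h1 : √s ≤ ((⌊√s⌋₊ + 1 : ℕ) : ℝ) := by
    push_cast
    exact (Nat.lt_floor_add_one _).le
  refine le_trans (le_of_eq ?_) (mul_le_mul_of_nonneg_right h1 (by positivity))
  have e : Real.exp (-(4 + 2 * (A + 1) ^ 2)) = Real.exp (-(2 + (A + 1) ^ 2)) ^ 2 := by
    rw [← Real.exp_nat_mul]
    congr 1
    push_cast
    ring
  rw [e]
  field_simp

end

end Vale.Agent.P361.LRO.Bloch.Ker
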