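import Vale.Agent.P361.LRO.Bloch.Kernel1

/-!
# P361, stage R3, heat kernel: lower bound on the torus (any finite abelian group)
-/

namespace Vale.Agent.P361.LRO.Bloch.Ker

open Finset NormedSpace

noncomputable section

section Gen

variable {ι : Type*} [Fintype ι] [DecidableEq ι]

/-- Entrywise order. -/
def Le (A B : Matrix ι ι ℝ) : Prop := ∀ i j, A i j ≤ B i j

omit [Fintype ι] [DecidableEq ι] in
theorem Le.refl (A : Matrix ι ι ℝ) : Le A A := fun _ _ => le_rfl

omit [Fintype ι] [DecidableEq ι] in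
theorem Le.trans {A B C : Matrix ι ι ℝ} (h : Le A B) (h' : Le B C) : Le A C :=
  fun i j => (h i j).trans (h' i j)

omit [DecidableEq ι] in
theorem Le.mul {A B C D : Matrix ι ι ℝ} (hA : Le 0 A) (hC : Le 0 C) (h : Le A B) (h' : Le C D) :
    Le (A * C) (B * D) := by
  intro i j
  rw [Matrix.mul_apply, Matrix.mul_apply]
  exact sum_le_sum fun k _ => mul_le_mul (h i k) (h' k j) (hC k j) ((hA i k).trans (h i k))

omit [DecidableEq ι] in
theorem Le.mul_nonneg {A B : Matrix ι ι ℝ} (hA : Le 0 A) (hB : Le 0 B) : Le 0 (A * B) := by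
  intro i j
  rw [Matrix.mul_apply]
  exact sum_nonneg fun k _ => _root_.mul_nonneg (hA i k) (hB k j)

theorem Le.pow_nonneg {A : Matrix ι ι ℝ} (hA : Le 0 A) (k : ℕ) : Le 0 (A ^ k) := by
  induction k with
  | zero =>
    intro i j
    rw [pow_zero, Matrix.one_apply]
    simp only [Matrix.zero_apply]
    split_ifs <;> norm_num
  | succ k ih =>
    rw [pow_succ]
    exact ih.mul_nonneg hA

omit [Fintype ι] [DecidableEq ι] in
theorem Le.smul {A B : Matrix ι ι ℝ} {c : ℝ} (hc : 0 ≤ c) (h : Le A B) : Le (c • A) (c • B) := by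
  intro i j
  simp only [Matrix.smul_apply, smul_eq_mul]
  exact mul_le_mul_of_nonneg_left (h i j) hc

theorem exp_ge_sum {X : Matrix ι ι ℝ} (hX : Le 0 X) (F : Finset ℕ) :
    Le (∑ b ∈ F, ((b.factorial : ℝ)⁻¹) • X ^ b) (exp X) := by
  intro i j
  have h : HasSum (fun b : ℕ => ((b.factorial : ℝ)⁻¹) • X ^ b) (exp X) := by
    open scoped Matrix.Norms.Operator in
    exact exp_series_hasSum_exp' (𝕂 := ℝ) X
  have h2 : HasSum (fun b : ℕ => (((b.factorial : ℝ)⁻¹) • X ^ b) i j) (exp X i j) :=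
    (Pi.hasSum.1 (Pi.hasSum.1 h i)) j
  have h3 := sum_le_hasSum F (fun b _ => ?_) h2
  · rw [Matrix.sum_apply]
    exact h3
  · simp only [Matrix.smul_apply, smul_eq_mul]
    exact _root_.mul_nonneg (by positivity) (hX.pow_nonneg b i j)

theorem exp_nonneg' {X : Matrix ι ι ℝ} (hX : Le 0 X) : Le 0 (exp X) := by
  have := exp_ge_sum hX ∅
  simpa using this

theorem exp_ge_single {X : Matrix ι ι ℝ} (hX : Le 0 X) (b : ℕ) :
    Le (((b.factorial : ℝ)⁻¹) • X ^ b) (exp X) := by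
  have := exp_ge_sum hX {b}
  simpa using this

end Gen

section Shift

variable {G : Type*} [AddCommGroup G] [Fintype G] [DecidableEq G]

/-- Translation matrix. -/
def Sh (v : G) : Matrix G G ℝ := Matrix.of fun x y => if y = x + v then 1 else 0

omit [Fintype G] in
theorem Sh_nonneg (v : G) : Le 0 (Sh v) := by
  intro i j
  simp only [Sh, Matrix.of_apply, Matrix.zero_apply]
  split_ifs <;> norm_num

theorem Sh_mul (v w : G) : Sh v * Sh w = Sh (v + w) := by
  ext x y
  simp only [Sh, Matrix.mul_apply, Matrix.of_apply, ite_mul, one_mul, zero_mul]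
  rw [sum_ite_eq' univ (x + v)]
  simp [add_assoc]

omit [Fintype G] in
theorem Sh_zero : Sh (0 : G) = 1 := by
  ext x y
  simp [Sh, Matrix.one_apply, eq_comm]

theorem Sh_pow (v : G) (k : ℕ) : Sh v ^ k = Sh (k • v) := by
  induction k with
  | zero => rw [pow_zero, zero_smul, Sh_zero]
  | succ k ih => rw [pow_succ, ih, Sh_mul, succ_nsmul]

theorem Sh_comm (v w : G) : Commute (Sh v) (Sh w) := by
  rw [Commute, SemiconjBy, Sh_mul, Sh_mul, add_comm]

/-- One-dimensional heat kernel in the direction `v`. -/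
def HK (s : ℝ) (v : G) : Matrix G G ℝ :=
  Real.exp (-(2 * s)) • (exp (s • Sh v) * exp (s • Sh (-v)))

theorem HK_nonneg {s : ℝ} (hs : 0 ≤ s) (v : G) : Le 0 (HK s v) := by
  have h : ∀ w : G, Le 0 (exp (s • Sh w)) := fun w =>
    exp_nonneg' (by simpa using (Sh_nonneg w).smul hs)
  simpa [HK] using ((h v).mul_nonneg (h (-v))).smul (Real.exp_pos (-(2 * s))).le

theorem HK_ge {s : ℝ} (hs : 0 ≤ s) (v : G) (j : ℕ) (F : Finset ℕ) :
    Le ((∑ b ∈ F, po s b * po s (b + j)) • Sh (j • v)) (HK s v) := by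
  have hn : ∀ w : G, Le 0 (s • Sh w) := fun w => by simpa using (Sh_nonneg w).smul hs
  have he : ∀ w : G, Le 0 (exp (s • Sh w)) := fun w => exp_nonneg' (hn w)
  have h1 : Le (exp (s • Sh v) * ∑ b ∈ F, ((b.factorial : ℝ)⁻¹) • (s • Sh (-v)) ^ b)
      (exp (s • Sh v) * exp (s • Sh (-v))) := by
    refine Le.mul (he v) ?_ (Le.refl _) (exp_ge_sum (hn (-v)) F)
    intro i k
    rw [Matrix.sum_apply]
    refine sum_nonneg fun b _ => ?_
    simp only [Matrix.smul_apply, smul_eq_mul]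
    exact mul_nonneg (by positivity) ((hn (-v)).pow_nonneg b i k)
  have h2 : Le (∑ b ∈ F, (((b + j).factorial : ℝ)⁻¹ • (s • Sh v) ^ (b + j)) *
        (((b.factorial : ℝ)⁻¹) • (s • Sh (-v)) ^ b))
      (exp (s • Sh v) * ∑ b ∈ F, ((b.factorial : ℝ)⁻¹) • (s • Sh (-v)) ^ b) := by
    rw [mul_sum]
    intro i k
    rw [Matrix.sum_apply, Matrix.sum_apply]
    refine sum_le_sum fun b _ => ?_
    refine Le.mul ?_ ?_ (exp_ge_single (hn v) (b + j)) (Le.refl _) i k
    · simpa using ((hn v).pow_nonneg (b + j)).smul (by positivity : 0 ≤ ((b + j).factorial : ℝ)⁻¹)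
    · simpa using ((hn (-v)).pow_nonneg b).smul (by positivity : 0 ≤ (b.factorial : ℝ)⁻¹)
  have h3 : ∀ b : ℕ, (((b + j).factorial : ℝ)⁻¹ • (s • Sh v) ^ (b + j)) *
        (((b.factorial : ℝ)⁻¹) • (s • Sh (-v)) ^ b) =
      ((s ^ b / b.factorial) * (s ^ (b + j) / (b + j).factorial)) • Sh (j • v) := by
    intro b
    rw [smul_pow, smul_pow, Sh_pow, Sh_pow, smul_smul, smul_smul, smul_mul_smul_comm, Sh_mul]
    have e : (b + j) • v + b • -v = j • v := by
      rw [add_smul, smul_neg]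
      abel
    rw [e]
    congr 1
    field_simp
  have h4 := (h2.trans h1).smul (Real.exp_pos (-(2 * s))).le
  refine Le.trans (fun i k => le_of_eq ?_) h4
  simp only [h3, Matrix.smul_apply, Matrix.sum_apply, smul_eq_mul, po]
  rw [sum_mul, mul_sum]
  refine sum_congr rfl fun b _ => ?_
  have e : Real.exp (-(2 * s)) = Real.exp (-s) * Real.exp (-s) := by
    rw [← Real.exp_add]
    congr 1
    ring
  rw [e]
  ring

theorem HK_neg (s : ℝ) (v : G) : HK s (-v) = HK s v := by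
  unfold HK
  rw [neg_neg]
  congr 1
  exact (((Sh_comm (-v) v).smul_left s).smul_right s).exp

/-- the constant of the kernel bound -/
def cK (A : ℝ) : ℝ := Real.exp (-(4 + 2 * (A + 1) ^ 2))

theorem cK_pos (A : ℝ) : 0 < cK A := Real.exp_pos _

theorem HK_ge_nat {A : ℝ} (hA : 0 ≤ A) {s : ℝ} (hs : 1 ≤ s) {j : ℕ} (hj : (j : ℝ) ≤ A * √s)
    (v : G) : Le ((cK A / √s) • Sh (j • v)) (HK s v) := by
  have hs0 : 0 ≤ s := by linarith
  have h1 := HK_ge hs0 v j ((range (⌊√s⌋₊ + 1)).image fun i => ⌊s⌋₊ + i)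
  rw [sum_image (fun a _ b _ h => Nat.add_left_cancel h)] at h1
  refine Le.trans (fun i k => ?_) h1
  simp only [Matrix.smul_apply, smul_eq_mul]
  refine mul_le_mul_of_nonneg_right ?_ (Sh_nonneg _ i k)
  exact one_dim hA hs hj

theorem HK_ge_int {A : ℝ} (hA : 0 ≤ A) {s : ℝ} (hs : 1 ≤ s) {j : ℤ} (hj : |(j : ℝ)| ≤ A * √s)
    (v : G) : Le ((cK A / √s) • Sh (j • v)) (HK s v) := by
  rcases Int.le_total 0 j with h | h
  · obtain ⟨m, rfl⟩ := Int.eq_ofNat_of_zero_le h
    have h1 : |(((m : ℕ) : ℤ) : ℝ)| = (m : ℝ) := by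
      rw [Int.cast_natCast]
      exact abs_of_nonneg (Nat.cast_nonneg m)
    have := HK_ge_nat hA hs (j := m) (by rw [← h1]; exact hj) v
    simpa using this
  · obtain ⟨m, hm⟩ := Int.eq_ofNat_of_zero_le (Int.neg_nonneg_of_nonpos h)
    have hj2 : j = -(m : ℤ) := by omega
    subst hj2
    have h1 : |((-((m : ℕ) : ℤ) : ℤ) : ℝ)| = (m : ℝ) := by
      push_cast
      rw [abs_neg]
      exact abs_of_nonneg (Nat.cast_nonneg m)
    have := HK_ge_nat hA hs (j := m) (by rw [← h1]; exact hj) (-v)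
    rw [HK_neg] at this
    simpa using this

/-- `exp (s (T_v + T_v⁻¹ - 2))` -/
theorem HK_eq (s : ℝ) (v : G) : HK s v = exp (s • (Sh v + Sh (-v) - (2 : ℝ) • 1)) := by
  have h1 : s • (Sh v + Sh (-v) - (2 : ℝ) • (1 : Matrix G G ℝ)) =
      (s • Sh v + s • Sh (-v)) + (-(2 * s)) • (1 : Matrix G G ℝ) := by
    rw [smul_sub, smul_add, smul_smul, sub_eq_add_neg, ← neg_smul]
    congr 2
    ring
  rw [h1, Matrix.exp_add_of_commute _ _ ((Commute.one_right _).smul_right _),
    Matrix.exp_add_of_commute _ _ (((Sh_comm v (-v)).smul_left s).smul_right s)]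
  have h2 : exp ((-(2 * s)) • (1 : Matrix G G ℝ)) = Real.exp (-(2 * s)) • 1 := by
    rw [← Algebra.algebraMap_eq_smul_one, ← Algebra.algebraMap_eq_smul_one, Real.exp_eq_exp_ℝ]
    have h3 : algebraMap ℝ (Matrix G G ℝ) (exp (-(2 * s))) =
        exp (algebraMap ℝ (Matrix G G ℝ) (-(2 * s))) := by
      open scoped Matrix.Norms.Operator in
      exact algebraMap_exp_comm (-(2 * s))
    exact h3.symm
  rw [h2, mul_smul_comm, mul_one]
  rfl

end Shift

end

end Vale.Agent.P361.LRO.Bloch.Ker
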