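import Vale.Agent.P361.LRO.Bloch.Kernel2
import Vale.Agent.P361.LRO.Defs
import Vale.Agent.P361.LRO.Trot.Lin

/-!
# P361, stage R3, heat kernel: the torus
-/

namespace Vale.Agent.P361.LRO.Bloch.Ker

open Finset NormedSpace

noncomputable section

section Edge

variable {V : Type*} [DecidableEq V]

/-- The off-diagonal part of the one-particle swap of the edge `e`. -/
def Swt (e : V × V) : Matrix V V ℝ :=
  Matrix.of fun a b => if (a = e.1 ∧ b = e.2) ∨ (a = e.2 ∧ b = e.1) then 1 else 0

/-- The indicator of the two sites of `e`. -/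
def Dg (e : V × V) : Matrix V V ℝ :=
  Matrix.of fun a b => if a = b ∧ (a = e.1 ∨ a = e.2) then 1 else 0

end Edge

section Group

variable {G : Type*} [AddCommGroup G] [Fintype G] [DecidableEq G]

theorem sum_Swt {v : G} (hv : v ≠ 0) : ∑ x : G, Swt (x, x + v) = Sh v + Sh (-v) := by
  ext a b
  rw [Matrix.sum_apply]
  simp only [Swt, Sh, Matrix.add_apply, Matrix.of_apply]
  have h : ∀ x : G, (if (a = x ∧ b = x + v) ∨ (a = x + v ∧ b = x) then (1 : ℝ) else 0) =
      (if x = a then (if b = a + v then 1 else 0) else 0) +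
      (if x = b then (if b = a + -v then 1 else 0) else 0) := by
    intro x
    by_cases h1 : x = a
    · subst h1
      by_cases h2 : x = b
      · subst h2
        have h3 : ¬ (x = x + v) := fun h => hv (by simpa using h.symm)
        have h4 : ¬ (x = x + -v) := fun h => hv (by simpa using h.symm)
        simp [h3, h4]
      · by_cases h3 : b = x + v
        · simp [h3]
          exact fun h => absurd h hv
        · have h5 : ¬ (x = x + v ∧ b = x) := fun h => h2 h.2.symm
          simp [h3, h2]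
          intro h
          exact absurd h hv
    · by_cases h2 : x = b
      · subst h2
        by_cases h3 : a = x + v
        · have h4 : x = a + -v := by rw [h3]; abel
          have h5 : ¬ (x = a) := h1
          simp [h3]
          exact fun h => absurd h hv
        · have h4 : ¬ (x = a + -v) := fun h => h3 (by rw [h]; abel)
          have h5 : ¬ a = x := fun h => h1 h.symm
          simp [h3, h4, h5, h1]
      · have h5 : ¬ a = x := fun h => h1 h.symm
        have h6 : ¬ b = x := fun h => h2 h.symm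
        simp [h1, h2, h5, h6]
  simp only [h]
  rw [sum_add_distrib, sum_ite_eq' univ a, sum_ite_eq' univ b]
  simp

theorem sum_Dg {v : G} (hv : v ≠ 0) : ∑ x : G, Dg (x, x + v) = (2 : ℝ) • 1 := by
  ext a b
  rw [Matrix.sum_apply]
  simp only [Dg, Matrix.of_apply, Matrix.smul_apply, Matrix.one_apply, smul_eq_mul]
  by_cases hab : a = b
  · subst hab
    have h : ∀ x : G, (if a = a ∧ (a = x ∨ a = x + v) then (1 : ℝ) else 0) =
        (if x = a then 1 else 0) + (if x = a - v then 1 else 0) := by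
      intro x
      by_cases h1 : x = a
      · subst h1
        have h3 : ¬ (x = x - v) := fun h => hv (by simpa using h.symm)
        simp [h3]
      · by_cases h2 : x = a - v
        · subst h2
          simp [hv]
        · have h4 : ¬ a = x := fun h => h1 h.symm
          have h5 : ¬ a = x + v := fun h => h2 (by rw [h]; abel)
          simp [h1, h2, h4, h5]
    rw [sum_congr rfl fun x _ => h x, sum_add_distrib, sum_ite_eq' univ a,
      sum_ite_eq' univ (a - v)]
    simp
    norm_num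
  · simp [hab]

end Group

/-- Generator `Δ` of the torus. -/
def Lap (n : ℕ) : Matrix (Tor n) (Tor n) ℝ :=
  ∑ i : Fin 3, (Sh (Pi.single i 1) + Sh (-Pi.single i 1) - (2 : ℝ) • 1)

theorem single_ne {n : ℕ} (hn : 2 ≤ n) (i : Fin 3) : (Pi.single i 1 : Tor n) ≠ 0 := by
  intro h
  have h1 := congrFun h i
  rw [Pi.single_eq_same, Pi.zero_apply] at h1
  have : Fact (1 < n) := ⟨by omega⟩
  exact one_ne_zero h1

/-- one-particle generator, each move with the weight `a`. -/
def genE (a : ℝ) {n : ℕ} (e : Tor n × Tor n) : Matrix (Tor n) (Tor n) ℝ := a • Swt e - Dg e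

theorem sum_genE {n : ℕ} [NeZero n] (hn : 2 ≤ n) (a : ℝ) :
    ((edges n).map (genE a)).sum = a • Lap n + (6 * (a - 1)) • 1 := by
  have h1 : ((edges n).map (genE a)).sum =
      ∑ z : Tor n × Fin 3, genE a (z.1, z.1 + Pi.single z.2 1) := by
    rw [edges, List.map_map, Finset.sum_map_toList]
    rfl
  rw [h1, Fintype.sum_prod_type_right]
  have h2 : ∀ i : Fin 3, ∑ x : Tor n, genE a (x, x + Pi.single i 1) =
      a • (Sh (Pi.single i 1) + Sh (-Pi.single i 1) - (2 : ℝ) • 1) + (2 * (a - 1)) • 1 := by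
    intro i
    simp only [genE]
    rw [sum_sub_distrib, ← smul_sum, sum_Swt (single_ne hn i), sum_Dg (single_ne hn i)]
    rw [smul_sub, smul_smul]
    have : (2 * (a - 1)) • (1 : Matrix (Tor n) (Tor n) ℝ) = (a * 2) • 1 - (2 : ℝ) • 1 := by
      rw [← sub_smul]
      congr 1
      ring
    rw [this]
    abel
  simp only [h2]
  rw [sum_add_distrib, ← smul_sum, Lap]
  congr 1
  rw [sum_const, card_univ, Fintype.card_fin, ← Nat.cast_smul_eq_nsmul ℝ, smul_smul]
  congr 1
  push_cast
  ring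

theorem exp_Lap (n : ℕ) [NeZero n] (s : ℝ) :
    exp (s • Lap n) = HK s (Pi.single 0 1 : Tor n) * HK s (Pi.single 1 1 : Tor n) *
      HK s (Pi.single 2 1 : Tor n) := by
  have hc : ∀ i k : Fin 3, Commute
      (s • (Sh (Pi.single i 1 : Tor n) + Sh (-Pi.single i 1) - (2 : ℝ) • 1))
      (s • (Sh (Pi.single k 1 : Tor n) + Sh (-Pi.single k 1) - (2 : ℝ) • 1)) := by
    intro i k
    refine Commute.smul_left (Commute.smul_right ?_ s) s
    refine Commute.sub_left ?_ ((Commute.one_left _).smul_left _)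
    refine Commute.sub_right ?_ ((Commute.one_right _).smul_right _)
    exact ((Sh_comm _ _).add_right (Sh_comm _ _)).add_left
      ((Sh_comm _ _).add_right (Sh_comm _ _))
  rw [Lap, Fin.sum_univ_three, smul_add, smul_add,
    Matrix.exp_add_of_commute _ _ ((hc 0 2).add_left (hc 1 2)),
    Matrix.exp_add_of_commute _ _ (hc 0 1), ← HK_eq, ← HK_eq, ← HK_eq]

/-- **Heat kernel lower bound on the torus.** -/
theorem Lap_lower {n : ℕ} [NeZero n] {A : ℝ} (hA : 0 ≤ A) {s : ℝ} (hs : 1 ≤ s) {j : Fin 3 → ℤ}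
    (hj : ∀ i, |(j i : ℝ)| ≤ A * √s) (x : Tor n) :
    (cK A / √s) ^ 3 ≤ exp (s • Lap n) x (x + fun i => (j i : ZMod n)) := by
  have hs0 : 0 ≤ s := by linarith
  have hc0 : 0 ≤ cK A / √s := by
    have := cK_pos A
    positivity
  have hcS : ∀ v : Tor n, Le 0 ((cK A / √s) • Sh v) := fun v => by
    simpa using (Sh_nonneg v).smul hc0
  rw [exp_Lap]
  have h01 := Le.mul (hcS _) (hcS _) (HK_ge_int hA hs (hj 0) (Pi.single 0 1 : Tor n))
    (HK_ge_int hA hs (hj 1) (Pi.single 1 1 : Tor n))
  have h012 := Le.mul ((hcS _).mul_nonneg (hcS _)) (hcS _) h01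
    (HK_ge_int hA hs (hj 2) (Pi.single 2 1 : Tor n))
  refine le_trans (le_of_eq ?_) (h012 x (x + fun i => (j i : ZMod n)))
  rw [smul_mul_smul_comm, smul_mul_smul_comm, Sh_mul, Sh_mul]
  have e : j 0 • (Pi.single 0 1 : Tor n) + j 1 • (Pi.single 1 1 : Tor n) +
      j 2 • (Pi.single 2 1 : Tor n) = fun i => (j i : ZMod n) := by
    funext i
    fin_cases i <;> simp
  rw [e]
  simp only [Matrix.smul_apply, Sh, Matrix.of_apply, if_true, smul_eq_mul]
  ring

section Norm

variable {ι : Type*} [Fintype ι] [DecidableEq ι]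

open scoped Matrix.Norms.Operator

theorem entry_le_norm (A : Matrix ι ι ℝ) (i j : ι) : |A i j| ≤ ‖A‖ := by
  rw [Matrix.linfty_opNorm_def]
  have h1 : ‖A i j‖₊ ≤ ∑ k, ‖A i k‖₊ :=
    single_le_sum (f := fun k => ‖A i k‖₊) (fun _ _ => zero_le) (mem_univ j)
  have h2 : ∑ k, ‖A i k‖₊ ≤ univ.sup fun i => ∑ k, ‖A i k‖₊ :=
    le_sup (f := fun i => ∑ k, ‖A i k‖₊) (mem_univ i)
  have h3 := h1.trans h2
  rw [← NNReal.coe_le_coe] at h3
  exact h3

theorem norm_le_of_row {A : Matrix ι ι ℝ} {c : ℝ} (hc : 0 ≤ c) (h : ∀ i, ∑ j, |A i j| ≤ c) :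
    ‖A‖ ≤ c := by
  rw [Matrix.linfty_opNorm_def]
  have h1 : (univ.sup fun i => ∑ k, ‖A i k‖₊) ≤ (⟨c, hc⟩ : NNReal) := Finset.sup_le fun i _ =>
    NNReal.coe_le_coe.1 (by
      push_cast
      exact h i)
  exact NNReal.coe_le_coe.2 h1

theorem norm_one_le : ‖(1 : Matrix ι ι ℝ)‖ ≤ 1 := by
  refine norm_le_of_row zero_le_one fun i => ?_
  have : ∑ j, |(1 : Matrix ι ι ℝ) i j| = ∑ j, if i = j then 1 else 0 :=
    sum_congr rfl fun j _ => by
      rw [Matrix.one_apply]
      split_ifs <;> simp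
  rw [this, sum_ite_eq univ i]
  exact (if_pos (mem_univ _)).le

theorem norm_Sh_le {G : Type*} [AddCommGroup G] [Fintype G] [DecidableEq G] (v : G) :
    ‖(Sh v : Matrix G G ℝ)‖ ≤ 1 := by
  refine norm_le_of_row zero_le_one fun i => ?_
  have : ∑ j, |(Sh v : Matrix G G ℝ) i j| = ∑ j, if j = i + v then 1 else 0 :=
    sum_congr rfl fun j _ => by
      simp only [Sh, Matrix.of_apply]
      split_ifs <;> simp
  rw [this, sum_ite_eq' univ (i + v)]
  exact (if_pos (mem_univ _)).le

/-- Upper bound for the move generating function. -/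
theorem exp_two_le {n : ℕ} [NeZero n] {s : ℝ} (hs : 0 ≤ s) (x y : Tor n) :
    exp (s • ((2 : ℝ) • Lap n + (6 : ℝ) • 1)) x y ≤ Real.exp (6 * s) := by
  set B : Matrix (Tor n) (Tor n) ℝ := ∑ i : Fin 3, (Sh (Pi.single i 1) + Sh (-Pi.single i 1))
    with hB
  have hBn : ‖B‖ ≤ 6 := by
    refine (norm_sum_le _ _).trans ?_
    refine (sum_le_sum fun i _ => (norm_add_le _ _).trans
      (add_le_add (norm_Sh_le _) (norm_Sh_le _))).trans ?_
    rw [sum_const, card_univ, Fintype.card_fin]
    norm_num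
  have h1 : s • ((2 : ℝ) • Lap n + (6 : ℝ) • 1) = (2 * s) • B + (-(6 * s)) • 1 := by
    have h2 : Lap n = B - (6 : ℝ) • 1 := by
      rw [Lap, sum_sub_distrib, hB, sum_const, card_univ, Fintype.card_fin,
        ← Nat.cast_smul_eq_nsmul ℝ, smul_smul]
      norm_num
    rw [h2]
    module
  rw [h1, Matrix.exp_add_of_commute _ _ ((Commute.one_right _).smul_right _)]
  have h2 : exp ((-(6 * s)) • (1 : Matrix (Tor n) (Tor n) ℝ)) = Real.exp (-(6 * s)) • 1 := by
    rw [← Algebra.algebraMap_eq_smul_one, ← Algebra.algebraMap_eq_smul_one, Real.exp_eq_exp_ℝ]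
    exact (algebraMap_exp_comm (-(6 * s))).symm
  rw [h2, mul_smul_comm, mul_one, Matrix.smul_apply, smul_eq_mul]
  have h3 : exp ((2 * s) • B) x y ≤ Real.exp (12 * s) := by
    refine (le_abs_self _).trans ((entry_le_norm _ x y).trans ?_)
    refine (Trot.norm_exp_le norm_one_le _).trans (Real.exp_le_exp.2 ?_)
    rw [norm_smul, Real.norm_of_nonneg (by positivity)]
    nlinarith
  calc Real.exp (-(6 * s)) * exp ((2 * s) • B) x y ≤ Real.exp (-(6 * s)) * Real.exp (12 * s) :=
        mul_le_mul_of_nonneg_left h3 (Real.exp_pos _).le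
    _ = Real.exp (6 * s) := by
      rw [← Real.exp_add]
      congr 1
      ring

end Norm

end

end Vale.Agent.P361.LRO.Bloch.Ker
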