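import Vale.Agent.P361.LRO.Defs

/-!
P361, low-temperature order, stage R2/R3: lower bound for the conductance between two nodes far
apart in time (long windows).  One induction over the letters of the word between the two nodes.
-/

namespace Vale.Agent.P361.LRO.Bloch

open Finset Matrix

set_option linter.unusedSectionVars false

noncomputable section

variable {V : Type} [Fintype V] [DecidableEq V]

/-- Real matrices on the configurations. -/
abbrev MM (V : Type) : Type := Matrix (V → Fin 2) (V → Fin 2) ℝ

/-- Letters: gates and slices. -/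
inductive Lt (V : Type) : Type
  | gate (a b : V) (p : ℝ) : Lt V
  | node (z : V) (t : ℝ) : Lt V

/-- The matrix of a letter. -/
def mt : Lt V → MM V
  | .gate a b p => (1 - p) • (1 : MM V) + p • swapM a b
  | .node z t => 1 + t • szM z

/-- The matrix of a word. -/
def wd (w : List (Lt V)) : MM V := (w.map mt).prod

/-- Honest letters. -/
def Ok : Lt V → Prop
  | .gate _ _ p => 0 ≤ p ∧ p ≤ 1
  | .node _ t => 0 ≤ t ∧ t ≤ 1

/-- Entrywise order. -/
def Le (A B : MM V) : Prop := ∀ i j, A i j ≤ B i j

theorem Le.refl (A : MM V) : Le A A := fun _ _ => le_rfl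

theorem Le.trans {A B C : MM V} (h : Le A B) (h' : Le B C) : Le A C :=
  fun i j => (h i j).trans (h' i j)

theorem Le.add {A B C D : MM V} (h : Le A B) (h' : Le C D) : Le (A + C) (B + D) :=
  fun i j => add_le_add (h i j) (h' i j)

theorem Le.mul_right {A B C : MM V} (h : Le A B) (hC : Le 0 C) : Le (A * C) (B * C) := by
  intro i j
  simp only [Matrix.mul_apply]
  exact Finset.sum_le_sum fun k _ => mul_le_mul_of_nonneg_right (h i k) (hC k j)

theorem Le.mul_left {A B C : MM V} (h : Le A B) (hC : Le 0 C) : Le (C * A) (C * B) := by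
  intro i j
  simp only [Matrix.mul_apply]
  exact Finset.sum_le_sum fun k _ => mul_le_mul_of_nonneg_left (h k j) (hC i k)

theorem Le.smul {A B : MM V} (h : Le A B) {c : ℝ} (hc : 0 ≤ c) : Le (c • A) (c • B) :=
  fun i j => by simpa using mul_le_mul_of_nonneg_left (h i j) hc

theorem Le.zero_mul {A C : MM V} (h : Le 0 A) (hC : Le 0 C) : Le 0 (A * C) := by
  have := h.mul_right hC
  rwa [Matrix.zero_mul] at this

theorem Le.zero_smul {A : MM V} (h : Le 0 A) {c : ℝ} (hc : 0 ≤ c) : Le 0 (c • A) := by
  have := h.smul hc
  rwa [_root_.smul_zero] at this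

theorem Le.zero_add {A B : MM V} (h : Le 0 A) (h' : Le 0 B) : Le 0 (A + B) := by
  have := h.add h'
  rwa [_root_.add_zero] at this

theorem Le.sum {ι : Type*} {s : Finset ι} {f g : ι → MM V} (h : ∀ i ∈ s, Le (f i) (g i)) :
    Le (∑ i ∈ s, f i) (∑ i ∈ s, g i) := by
  intro i j
  simp only [Matrix.sum_apply]
  exact Finset.sum_le_sum fun k hk => h k hk i j

theorem Le.zero_sum {ι : Type*} {s : Finset ι} {f : ι → MM V} (h : ∀ i ∈ s, Le 0 (f i)) :
    Le 0 (∑ i ∈ s, f i) := by
  intro i j
  simp only [Matrix.sum_apply, Matrix.zero_apply]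
  exact Finset.sum_nonneg fun k hk => h k hk i j

theorem Le.trace {A B : MM V} (h : Le A B) : trace A ≤ trace B := by
  unfold Matrix.trace
  exact Finset.sum_le_sum fun i _ => h i i

theorem one_nonneg : Le (0 : MM V) 1 := by
  intro i j
  rw [Matrix.zero_apply, Matrix.one_apply]
  split_ifs <;> norm_num

theorem swapM_nonneg (a b : V) : Le (0 : MM V) (swapM a b) := by
  intro i j
  simp only [swapM, Matrix.zero_apply, Matrix.of_apply]
  split_ifs <;> norm_num

theorem sxM_nonneg (x : V) : Le (0 : MM V) (sxM x) := by
  intro i j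
  simp only [sxM, Matrix.zero_apply, Matrix.of_apply]
  split_ifs <;> norm_num

theorem node_nonneg (z : V) {t : ℝ} (h0 : 0 ≤ t) (h1 : t ≤ 1) : Le (0 : MM V) (1 + t • szM z) := by
  intro i j
  simp only [szM, Matrix.zero_apply, Matrix.add_apply, Matrix.smul_apply, Matrix.one_apply,
    Matrix.diagonal_apply, smul_eq_mul]
  split_ifs <;> linarith

theorem gate_nonneg (a b : V) {p : ℝ} (h0 : 0 ≤ p) (h1 : p ≤ 1) :
    Le (0 : MM V) ((1 - p) • (1 : MM V) + p • swapM a b) :=
  (one_nonneg.zero_smul (by linarith)).zero_add ((swapM_nonneg a b).zero_smul h0)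

theorem mt_nonneg {l : Lt V} (h : Ok l) : Le 0 (mt l) := by
  cases l with
  | gate a b p => exact gate_nonneg a b h.1 h.2
  | node z t => exact node_nonneg z h.1 h.2

theorem wd_nonneg {w : List (Lt V)} (h : ∀ l ∈ w, Ok l) : Le 0 (wd w) := by
  induction w with
  | nil => exact one_nonneg
  | cons l w ih =>
    unfold wd
    rw [List.map_cons, List.prod_cons]
    exact (mt_nonneg (h l (by simp))).zero_mul (ih fun l' hl' => h l' (by simp [hl']))

/-- Projection on equal spins at `a, b`. -/
def eqM (a b : V) : MM V := Matrix.diagonal fun σ => if σ a = σ b then 1 else 0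

theorem eqM_nonneg (a b : V) : Le (0 : MM V) (eqM a b) := by
  intro i j
  simp only [eqM, Matrix.zero_apply, Matrix.diagonal_apply]
  split_ifs <;> norm_num

theorem eqM_le_one (a b : V) : Le (eqM a b) (1 : MM V) := by
  intro i j
  simp only [eqM, Matrix.diagonal_apply, Matrix.one_apply]
  split_ifs <;> norm_num

theorem eqM_le_swapM (a b : V) : Le (eqM a b) (swapM a b) := by
  intro i j
  simp only [eqM, Matrix.diagonal_apply, swapM, Matrix.of_apply]
  split_ifs with h1 h2 h3 h4
  · exact le_rfl
  · exfalso
    apply h3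
    subst h1
    funext z
    simp only [Function.comp_apply]
    rcases eq_or_ne z a with rfl | hza
    · simp [h2]
    · rcases eq_or_ne z b with rfl | hzb
      · simp [h2]
      · rw [Equiv.swap_apply_of_ne_of_ne hza hzb]
  · norm_num
  · norm_num
  · norm_num
  · norm_num

/-- exchange of unequal spins -/
def exM (a b : V) : MM V := swapM a b - eqM a b

/-- unequal spins -/
def neM (a b : V) : MM V := 1 - eqM a b

theorem exM_nonneg (a b : V) : Le (0 : MM V) (exM a b) := by
  intro i j
  have := eqM_le_swapM a b i j
  simp only [exM, Matrix.zero_apply, Matrix.sub_apply]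
  linarith

theorem neM_nonneg (a b : V) : Le (0 : MM V) (neM a b) := by
  intro i j
  have := eqM_le_one a b i j
  simp only [neM, Matrix.zero_apply, Matrix.sub_apply]
  linarith

/-! ### The walk -/

/-- one letter: scalar weights -/
def stq : Lt V → (V → ℕ → ℝ) → V → ℕ → ℝ
  | .gate a b p, q => fun y j => if y = a ∨ y = b then
      (1 - p) * q y j + p * (if j = 0 then 0 else q (Equiv.swap a b y) (j - 1)) else q y j
  | .node z t, q => fun y j => if y = z then (1 - t) / (1 + t) * q y j else q y j

/-- one letter: matrices -/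
def stY : Lt V → (V → ℕ → MM V) → V → ℕ → MM V
  | .gate a b p, Y => fun y j => if y = a ∨ y = b then
      (1 - p) • Y y j + p • (if j = 0 then 0 else Y (Equiv.swap a b y) (j - 1) * swapM a b)
      else Y y j * ((1 - p) • (1 : MM V) + p • swapM a b)
  | .node z t, Y => fun y j => if y = z then (1 - t) • Y y j else Y y j * (1 + t • szM z)

/-- the weights after a word -/
def qq : List (Lt V) → (V → ℕ → ℝ) → V → ℕ → ℝ
  | [], q => q
  | l :: w, q => qq w (stq l q)

/-- the matrices after a word -/
def YY : List (Lt V) → (V → ℕ → MM V) → V → ℕ → MM V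
  | [], Y => Y
  | l :: w, Y => YY w (stY l Y)

theorem stY_nonneg {l : Lt V} (hl : Ok l) {Y : V → ℕ → MM V} (hY : ∀ y j, Le 0 (Y y j)) (y : V)
    (j : ℕ) : Le 0 (stY l Y y j) := by
  cases l with
  | gate a b p =>
    simp only [stY]
    split_ifs with h1 h2
    · exact ((hY y j).zero_smul (by linarith [hl.2])).zero_add ((Le.refl 0).zero_smul hl.1)
    · exact ((hY y j).zero_smul (by linarith [hl.2])).zero_add
        (((hY _ _).zero_mul (swapM_nonneg a b)).zero_smul hl.1)
    · exact (hY y j).zero_mul (gate_nonneg a b hl.1 hl.2)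
  | node z t =>
    simp only [stY]
    split_ifs with h1
    · exact (hY y j).zero_smul (by linarith [hl.2])
    · exact (hY y j).zero_mul (node_nonneg z hl.1 hl.2)

theorem stq_nonneg {l : Lt V} (hl : Ok l) {q : V → ℕ → ℝ} (hq : ∀ y j, 0 ≤ q y j) (y : V)
    (j : ℕ) : 0 ≤ stq l q y j := by
  cases l with
  | gate a b p =>
    simp only [stq]
    split_ifs with h1 h2
    · have := mul_nonneg (by linarith [hl.2] : 0 ≤ 1 - p) (hq y j)
      linarith
    · exact add_nonneg (mul_nonneg (by linarith [hl.2]) (hq _ _)) (mul_nonneg hl.1 (hq _ _))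
    · exact hq y j
  | node z t =>
    simp only [stq]
    split_ifs with h1
    · exact mul_nonneg (div_nonneg (by linarith [hl.2]) (by linarith [hl.1])) (hq y j)
    · exact hq y j

/-- `∑_{y, j < J} Y(y, j) σ¹_y` -/
def SS (J : ℕ) (Y : V → ℕ → MM V) : MM V := ∑ y, ∑ j ∈ range J, Y y j * sxM y

theorem sxM_mul_swapM (x a b : V) :
    (sxM x : MM V) * swapM a b = swapM a b * sxM (Equiv.swap a b x) := by
  ext σ τ
  have h1 : ((sxM x : MM V) * swapM a b) σ τ =
      if σ = Function.update (τ ∘ Equiv.swap a b) x (1 - (τ ∘ Equiv.swap a b) x) then 1 else 0 := by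
    rw [Matrix.mul_apply, Finset.sum_eq_single (τ ∘ Equiv.swap a b)]
    · simp [sxM, swapM]
    · intro ρ _ hρ
      simp [swapM, hρ]
    · intro h
      exact absurd (Finset.mem_univ _) h
  have h2 : (swapM a b * (sxM (Equiv.swap a b x) : MM V)) σ τ =
      if σ = (Function.update τ (Equiv.swap a b x) (1 - τ (Equiv.swap a b x))) ∘ Equiv.swap a b
        then 1 else 0 := by
    rw [Matrix.mul_apply, Finset.sum_eq_single
      (Function.update τ (Equiv.swap a b x) (1 - τ (Equiv.swap a b x)))]
    · simp [sxM, swapM]
    · intro ρ _ hρ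
      simp [sxM, hρ]
    · intro h
      exact absurd (Finset.mem_univ _) h
  have h3 : (Function.update τ (Equiv.swap a b x) (1 - τ (Equiv.swap a b x))) ∘ Equiv.swap a b =
      Function.update (τ ∘ Equiv.swap a b) x (1 - (τ ∘ Equiv.swap a b) x) := by
    funext z
    rcases eq_or_ne z x with rfl | hz
    · simp
    · have : Equiv.swap a b z ≠ Equiv.swap a b x := fun h => hz ((Equiv.swap a b).injective h)
      simp [Function.update_of_ne hz, Function.update_of_ne this]
  rw [h1, h2, h3]

theorem sxM_mul_szM {x z : V} (h : x ≠ z) : (sxM x : MM V) * szM z = szM z * sxM x := by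
  ext σ τ
  rw [szM, Matrix.mul_diagonal, Matrix.diagonal_mul]
  simp only [sxM, Matrix.of_apply]
  split_ifs with h1 h2 h3 h3
  · norm_num
  · exfalso
    apply h3
    rw [h1, Function.update_of_ne h.symm]
    exact h2
  · exfalso
    apply h2
    rw [h1, Function.update_of_ne h.symm] at h3
    exact h3
  · norm_num
  · norm_num
  · norm_num
  · norm_num
  · norm_num

theorem sxM_mul_node_le (x : V) {t : ℝ} (ht : 0 ≤ t) :
    Le ((1 - t) • (sxM x : MM V)) (sxM x * (1 + t • szM x)) := by
  intro σ τ
  have h0 := sxM_nonneg x σ τ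
  rw [Matrix.mul_add, Matrix.mul_one, Matrix.mul_smul, szM, Matrix.add_apply, Matrix.smul_apply,
    Matrix.smul_apply, Matrix.mul_diagonal]
  simp only [smul_eq_mul, Matrix.zero_apply] at *
  split_ifs
  · nlinarith
  · nlinarith

theorem shift_le {A : ℕ → MM V} (hA : ∀ j, Le 0 (A j)) (J : ℕ) :
    Le (∑ j ∈ range J, if j = 0 then 0 else A (j - 1)) (∑ j ∈ range J, A j) := by
  cases J with
  | zero => exact Le.refl _
  | succ J =>
    rw [Finset.sum_range_succ', Finset.sum_range_succ]
    simp only [Nat.add_eq_zero_iff, one_ne_zero, and_false, if_false, if_true, Nat.add_sub_cancel]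
    exact (Le.refl _).add (hA J)

theorem sxM_mul_gate (y a b : V) (p : ℝ) :
    (sxM y : MM V) * ((1 - p) • (1 : MM V) + p • swapM a b) =
      (1 - p) • sxM y + p • (swapM a b * sxM (Equiv.swap a b y)) := by
  rw [Matrix.mul_add, Matrix.mul_smul, Matrix.mul_smul, Matrix.mul_one, sxM_mul_swapM]

theorem SS_gate_ne (J : ℕ) {a b : V} {p : ℝ} (Y : V → ℕ → MM V) {y : V}
    (hy : ¬ (y = a ∨ y = b)) :
    ∑ j ∈ range J, stY (.gate a b p) Y y j * sxM y =
      (∑ j ∈ range J, (1 - p) • (Y y j * sxM y)) +
        ∑ j ∈ range J, p • (Y (Equiv.swap a b y) j * (swapM a b * sxM y)) := by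
  have hsw : Equiv.swap a b y = y := by
    push Not at hy
    exact Equiv.swap_apply_of_ne_of_ne hy.1 hy.2
  rw [← Finset.sum_add_distrib]
  refine Finset.sum_congr rfl fun j _ => ?_
  have h1 : stY (.gate a b p) Y y j = Y y j * ((1 - p) • (1 : MM V) + p • swapM a b) := by
    simp only [stY, if_neg hy]
  rw [h1, hsw, Matrix.mul_add, Matrix.add_mul, Matrix.mul_smul, Matrix.mul_smul, Matrix.smul_mul,
    Matrix.smul_mul, Matrix.mul_one, Matrix.mul_assoc]

theorem SS_gate_mem (J : ℕ) {a b : V} {p : ℝ} (Y : V → ℕ → MM V) {y : V}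
    (hy : y = a ∨ y = b) :
    ∑ j ∈ range J, stY (.gate a b p) Y y j * sxM y =
      (∑ j ∈ range J, (1 - p) • (Y y j * sxM y)) +
        ∑ j ∈ range J, (if j = 0 then 0 else
          (fun j => p • (Y (Equiv.swap a b y) j * (swapM a b * sxM y))) (j - 1)) := by
  rw [← Finset.sum_add_distrib]
  refine Finset.sum_congr rfl fun j _ => ?_
  have h1 : stY (.gate a b p) Y y j = (1 - p) • Y y j +
      p • (if j = 0 then 0 else Y (Equiv.swap a b y) (j - 1) * swapM a b) := by
    simp only [stY, if_pos hy]
  rw [h1]
  by_cases hj : j = 0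
  · rw [if_pos hj, if_pos hj, smul_zero, add_zero, add_zero, Matrix.smul_mul]
  · rw [if_neg hj, if_neg hj, Matrix.add_mul, Matrix.smul_mul, Matrix.smul_mul,
      Matrix.mul_assoc]

theorem SS_step_gate (J : ℕ) {a b : V} {p : ℝ} (h0 : 0 ≤ p) {Y : V → ℕ → MM V}
    (hY : ∀ y j, Le 0 (Y y j)) :
    Le (SS J (stY (.gate a b p) Y)) (SS J Y * ((1 - p) • (1 : MM V) + p • swapM a b)) := by
  have h1 : SS J Y * ((1 - p) • (1 : MM V) + p • swapM a b) =
      ∑ y, ((∑ j ∈ range J, (1 - p) • (Y y j * sxM y)) +
        ∑ j ∈ range J, p • (Y y j * (swapM a b * sxM (Equiv.swap a b y)))) := by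
    unfold SS
    rw [Finset.sum_mul]
    refine Finset.sum_congr rfl fun y _ => ?_
    rw [Finset.sum_mul, ← Finset.sum_add_distrib]
    refine Finset.sum_congr rfl fun j _ => ?_
    rw [Matrix.mul_assoc, sxM_mul_gate, Matrix.mul_add, Matrix.mul_smul, Matrix.mul_smul]
  have h2 : ∑ y, ∑ j ∈ range J, p • (Y y j * (swapM a b * sxM (Equiv.swap a b y))) =
      ∑ y, ∑ j ∈ range J, p • (Y (Equiv.swap a b y) j * (swapM a b * sxM y)) := by
    rw [← Equiv.sum_comp (Equiv.swap a b)
      (fun y => ∑ j ∈ range J, p • (Y y j * (swapM a b * sxM (Equiv.swap a b y))))]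
    refine Finset.sum_congr rfl fun y _ => Finset.sum_congr rfl fun j _ => ?_
    rw [Equiv.swap_apply_self]
  rw [h1, Finset.sum_add_distrib, h2, ← Finset.sum_add_distrib]
  unfold SS
  refine Le.sum fun y _ => ?_
  by_cases hy : y = a ∨ y = b
  · rw [SS_gate_mem J Y hy]
    have h3 : ∀ j, Le 0 (p • (Y (Equiv.swap a b y) j * (swapM a b * sxM y))) := fun j =>
      Le.zero_smul (Le.zero_mul (hY (Equiv.swap a b y) j)
        (Le.zero_mul (swapM_nonneg a b) (sxM_nonneg y))) h0
    have h4 := shift_le (A := fun j => p • (Y (Equiv.swap a b y) j * (swapM a b * sxM y))) h3 J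
    exact Le.add (Le.refl _) h4
  · rw [SS_gate_ne J Y hy]
    exact Le.refl _

theorem SS_step_node (J : ℕ) {z : V} {t : ℝ} (h0 : 0 ≤ t) {Y : V → ℕ → MM V}
    (hY : ∀ y j, Le 0 (Y y j)) :
    Le (SS J (stY (.node z t) Y)) (SS J Y * (1 + t • szM z)) := by
  unfold SS
  rw [Finset.sum_mul]
  refine Le.sum fun y _ => ?_
  rw [Finset.sum_mul]
  refine Le.sum fun j _ => ?_
  by_cases hy : y = z
  · have h1 : stY (.node z t) Y y j = (1 - t) • Y y j := by
      simp only [stY, if_pos hy]
    subst hy
    rw [h1, Matrix.smul_mul, ← Matrix.mul_smul, Matrix.mul_assoc]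
    exact (sxM_mul_node_le y h0).mul_left (hY y j)
  · have h1 : stY (.node z t) Y y j = Y y j * (1 + t • szM z) := by
      simp only [stY, if_neg hy]
    rw [h1, Matrix.mul_assoc, Matrix.mul_assoc]
    have h2 : (1 + t • szM z : MM V) * sxM y = sxM y * (1 + t • szM z) := by
      rw [Matrix.mul_add, Matrix.add_mul, Matrix.mul_one, Matrix.one_mul, Matrix.mul_smul,
        Matrix.smul_mul, sxM_mul_szM hy]
    rw [h2]
    exact Le.refl _

theorem SS_step (J : ℕ) {l : Lt V} (hl : Ok l) {Y : V → ℕ → MM V} (hY : ∀ y j, Le 0 (Y y j)) :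
    Le (SS J (stY l Y)) (SS J Y * mt l) := by
  cases l with
  | gate a b p => exact SS_step_gate J hl.1 hY
  | node z t => exact SS_step_node J hl.1 hY

theorem wd_cons (l : Lt V) (w : List (Lt V)) : wd (l :: w) = mt l * wd w := by
  unfold wd
  rw [List.map_cons, List.prod_cons]

theorem SS_word (J : ℕ) {w : List (Lt V)} (hw : ∀ l ∈ w, Ok l) {Y : V → ℕ → MM V}
    (hY : ∀ y j, Le 0 (Y y j)) : Le (SS J (YY w Y)) (SS J Y * wd w) := by
  induction w generalizing Y with
  | nil =>
    unfold wd
    simp only [YY, List.map_nil, List.prod_nil, Matrix.mul_one]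
    exact Le.refl _
  | cons l w ih =>
    have hl := hw l (by simp)
    have hw' : ∀ l' ∈ w, Ok l' := fun l' hl' => hw l' (by simp [hl'])
    rw [wd_cons, ← Matrix.mul_assoc]
    simp only [YY]
    exact (ih hw' fun y j => stY_nonneg hl hY y j).trans
      ((SS_step J hl hY).mul_right (wd_nonneg hw'))

/-! ### The defects -/

/-- Bounds for the defects at all gates of the word (`B = δ Z`). -/
def HX (C : MM V) (B : ℝ) : List (Lt V) → MM V → Prop
  | [], _ => True
  | .gate a b p :: w, Q => (trace (Q * exM a b * wd w * C) ≤ B ∧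
      trace (Q * neM a b * wd w * C) ≤ B) ∧ HX C B w (Q * mt (.gate a b p))
  | .node z t :: w, Q => HX C B w (Q * mt (.node z t))

/-- Transport of the potential along the word. -/
def Pot (c : ℝ) : List (Lt V) → (V → ℝ) → (V → ℝ) → Prop
  | [], a, a' => ∀ y, a y ≤ a' y
  | .gate x y p :: w, a, a' => ∃ a1 : V → ℝ,
      (∀ v, (v = x ∨ v = y) → a v + p ≤ a1 v ∧ a (Equiv.swap x y v) + (1 - p) ≤ a1 v + c) ∧
      (∀ v, a v ≤ a1 v) ∧ Pot c w a1 a'
  | .node _ _ :: w, a, a' => Pot c w a a'

theorem YY_trace (C : MM V) (hC : Le 0 C) {c B : ℝ} (hB : 0 ≤ B) :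
    ∀ (w : List (Lt V)), (∀ l ∈ w, Ok l) → ∀ (Y R : V → ℕ → MM V) (q : V → ℕ → ℝ) (Q : MM V)
      (a a' : V → ℝ), (∀ y j, Le 0 (Y y j)) → (∀ y j, Le 0 (R y j)) → (∀ y j, 0 ≤ q y j) →
      Le 0 Q → (∀ y j, Le (q y j • Q - R y j) (Y y j)) →
      (∀ y j, trace (R y j * wd w * C) ≤ B * (a y + c * j) * q y j) →
      HX C B w Q → Pot c w a a' → ∀ y j,
      qq w q y j * (trace (Q * wd w * C) - B * (a' y + c * j)) ≤ trace (YY w Y y j * C) := by
  intro w
  induction w with
  | nil =>
    intro _ Y R q Q a a' hY hR hq hQ hYq hr _ hpot y j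
    simp only [YY, qq, wd, List.map_nil, List.prod_nil, Matrix.mul_one] at *
    have h1 := ((hYq y j).mul_right hC).trace
    rw [Matrix.sub_mul, Matrix.smul_mul, Matrix.trace_sub, Matrix.trace_smul, smul_eq_mul] at h1
    have h2 := hr y j
    have h3 : B * (a y + c * j) * q y j ≤ B * (a' y + c * j) * q y j :=
      mul_le_mul_of_nonneg_right (mul_le_mul_of_nonneg_left (by linarith [hpot y]) hB) (hq y j)
    linarith
  | cons l w ih =>
    intro hw Y R q Q a a' hY hR hq hQ hYq hr hHX hpot y j
    have hl := hw l (by simp)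
    have hw' : ∀ l' ∈ w, Ok l' := fun l' hl' => hw l' (by simp [hl'])
    have hwn := wd_nonneg hw'
    have hZ : trace (Q * wd (l :: w) * C) = trace (Q * mt l * wd w * C) := by
      rw [wd_cons, ← Matrix.mul_assoc]
    rw [hZ]
    simp only [YY, qq]
    cases l with
    | gate x z p =>
      have hp := hl
      simp only [Ok] at hp
      obtain ⟨a1, ha1, ha2, hpot'⟩ := hpot
      obtain ⟨⟨hX, hN⟩, hHX'⟩ := hHX
      have hp1 : 0 ≤ 1 - p := by linarith [hp.2]
      set g : MM V := (1 - p) • (1 : MM V) + p • swapM x z with hg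
      have hgn : Le 0 g := gate_nonneg x z hp.1 hp.2
      have hrg : ∀ y j, trace (R y j * g * wd w * C) ≤ B * (a y + c * j) * q y j := by
        intro y j
        have := hr y j
        rwa [wd_cons, ← Matrix.mul_assoc] at this
      -- the new defects
      set R' : V → ℕ → MM V := fun y j => if y = x ∨ y = z then
        (1 - p) • ((q y j * p) • (Q * exM x z) + R y j * g) +
          p • (if j = 0 then 0 else (q (Equiv.swap x z y) (j - 1) * (1 - p)) • (Q * neM x z) +
            R (Equiv.swap x z y) (j - 1) * g) else R y j * g with hR'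
      refine ih hw' (stY (.gate x z p) Y) R' (stq (.gate x z p) q) (Q * g) a1 a'
        (fun y j => stY_nonneg hl hY y j) ?_ (fun y j => stq_nonneg hl hq y j)
        (hQ.zero_mul hgn) ?_ ?_ hHX' hpot' y j
      · intro y j
        rw [hR']
        simp only
        split_ifs with h1 h2
        · exact (((((hQ.zero_mul (exM_nonneg x z)).zero_smul (mul_nonneg (hq _ _) hp.1)).zero_add
            ((hR _ _).zero_mul hgn))).zero_smul hp1).zero_add ((Le.refl 0).zero_smul hp.1)
        · exact (((((hQ.zero_mul (exM_nonneg x z)).zero_smul (mul_nonneg (hq _ _) hp.1)).zero_add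
            ((hR _ _).zero_mul hgn))).zero_smul hp1).zero_add
            ((((hQ.zero_mul (neM_nonneg x z)).zero_smul (mul_nonneg (hq _ _) hp1)).zero_add
            ((hR _ _).zero_mul hgn)).zero_smul hp.1)
        · exact (hR _ _).zero_mul hgn
      · intro y j
        -- stay
        have hstay : ∀ y j, Le (q y j • (Q * g) - ((q y j * p) • (Q * exM x z) + R y j * g))
            (Y y j) := by
          intro y j
          have e1 : g - p • exM x z = (1 - p) • (1 : MM V) + p • eqM x z := by
            rw [hg, exM, smul_sub]; abel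
          have h0 : Le 0 (g - p • exM x z) := by
            rw [e1]
            exact (one_nonneg.zero_smul hp1).zero_add ((eqM_nonneg x z).zero_smul hp.1)
          have h1 : Le (g - p • exM x z) 1 := by
            rw [e1]
            have : Le ((1 - p) • (1 : MM V) + p • eqM x z) ((1 - p) • (1 : MM V) + p • 1) :=
              (Le.refl _).add ((eqM_le_one x z).smul hp.1)
            rwa [← add_smul, sub_add_cancel, one_smul] at this
          have h2 := h1.mul_left (hY y j)
          rw [Matrix.mul_one] at h2
          have h3 := (hYq y j).mul_right h0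
          have h4 : Le (R y j * (g - p • exM x z)) (R y j * g) := by
            refine Le.mul_left ?_ (hR y j)
            intro i k
            have := exM_nonneg x z i k
            simp only [Matrix.sub_apply, Matrix.smul_apply, smul_eq_mul, Matrix.zero_apply] at *
            have := mul_nonneg hp.1 this
            linarith
          refine Le.trans ?_ (h3.trans h2)
          intro i k
          have h5 := h4 i k
          have e2 : ((q y j • Q - R y j) * (g - p • exM x z)) i k =
              (q y j • (Q * g)) i k - ((q y j * p) • (Q * exM x z)) i k -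
                (R y j * (g - p • exM x z)) i k := by
            rw [Matrix.sub_mul, Matrix.smul_mul, Matrix.mul_sub, Matrix.mul_smul, smul_sub,
              smul_smul]
            simp only [Matrix.sub_apply]
          rw [e2]
          simp only [Matrix.sub_apply, Matrix.add_apply]
          linarith
        -- move
        have hmove : ∀ y j, Le (q y j • (Q * g) - ((q y j * (1 - p)) • (Q * neM x z) +
            R y j * g)) (Y y j * swapM x z) := by
          intro y j
          have e1 : g - (1 - p) • neM x z = p • swapM x z + (1 - p) • eqM x z := by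
            rw [hg, neM, smul_sub]; abel
          have h0 : Le 0 (g - (1 - p) • neM x z) := by
            rw [e1]
            exact ((swapM_nonneg x z).zero_smul hp.1).zero_add ((eqM_nonneg x z).zero_smul hp1)
          have h1 : Le (g - (1 - p) • neM x z) (swapM x z) := by
            rw [e1]
            have : Le (p • swapM x z + (1 - p) • eqM x z) (p • swapM x z + (1 - p) • swapM x z) :=
              (Le.refl _).add ((eqM_le_swapM x z).smul hp1)
            rwa [← add_smul, add_sub_cancel, one_smul] at this
          have h2 := h1.mul_left (hY y j)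
          have h3 := (hYq y j).mul_right h0
          have h4 : Le (R y j * (g - (1 - p) • neM x z)) (R y j * g) := by
            refine Le.mul_left ?_ (hR y j)
            intro i k
            have := neM_nonneg x z i k
            simp only [Matrix.sub_apply, Matrix.smul_apply, smul_eq_mul, Matrix.zero_apply] at *
            have := mul_nonneg hp1 this
            linarith
          refine Le.trans ?_ (h3.trans h2)
          intro i k
          have h5 := h4 i k
          have e2 : ((q y j • Q - R y j) * (g - (1 - p) • neM x z)) i k =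
              (q y j • (Q * g)) i k - ((q y j * (1 - p)) • (Q * neM x z)) i k -
                (R y j * (g - (1 - p) • neM x z)) i k := by
            rw [Matrix.sub_mul, Matrix.smul_mul, Matrix.mul_sub, Matrix.mul_smul, smul_sub,
              smul_smul]
            simp only [Matrix.sub_apply]
          rw [e2]
          simp only [Matrix.sub_apply, Matrix.add_apply]
          linarith
        rw [hR']
        simp only [stY, stq]
        by_cases h1 : y = x ∨ y = z
        · simp only [if_pos h1]
          by_cases h2 : j = 0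
          · simp only [if_pos h2, smul_zero, mul_zero, add_zero]
            intro i k
            have := (hstay y j i k)
            simp only [Matrix.sub_apply, Matrix.smul_apply, smul_eq_mul, Matrix.add_apply] at *
            nlinarith [mul_le_mul_of_nonneg_left this hp1]
          · simp only [if_neg h2]
            intro i k
            have h5 := (hstay y j i k)
            have h6 := (hmove (Equiv.swap x z y) (j - 1) i k)
            simp only [Matrix.sub_apply, Matrix.smul_apply, smul_eq_mul, Matrix.add_apply] at *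
            nlinarith [mul_le_mul_of_nonneg_left h5 hp1, mul_le_mul_of_nonneg_left h6 hp.1]
        · simp only [if_neg h1]
          have h5 := (hYq y j).mul_right hgn
          rw [Matrix.sub_mul, Matrix.smul_mul] at h5
          exact h5
      · intro y j
        rw [hR']
        simp only [stq]
        have hs : ∀ y j, trace (((q y j * p) • (Q * exM x z) + R y j * g) * wd w * C) ≤
            B * q y j * p + B * (a y + c * j) * q y j := by
          intro y j
          rw [Matrix.add_mul, Matrix.add_mul, Matrix.trace_add, Matrix.smul_mul, Matrix.smul_mul,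
            Matrix.trace_smul, smul_eq_mul]
          have h5 := mul_le_mul_of_nonneg_left hX (mul_nonneg (hq y j) hp.1)
          have h6 := hrg y j
          linarith
        have hm : ∀ y j, trace (((q y j * (1 - p)) • (Q * neM x z) + R y j * g) * wd w * C) ≤
            B * q y j * (1 - p) + B * (a y + c * j) * q y j := by
          intro y j
          rw [Matrix.add_mul, Matrix.add_mul, Matrix.trace_add, Matrix.smul_mul, Matrix.smul_mul,
            Matrix.trace_smul, smul_eq_mul]
          have h5 := mul_le_mul_of_nonneg_left hN (mul_nonneg (hq y j) hp1)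
          have h6 := hrg y j
          linarith
        by_cases h1 : y = x ∨ y = z
        · simp only [if_pos h1]
          obtain ⟨hb1, hb2⟩ := ha1 y h1
          by_cases h2 : j = 0
          · simp only [if_pos h2, smul_zero, mul_zero, add_zero]
            rw [Matrix.smul_mul, Matrix.smul_mul, Matrix.trace_smul, smul_eq_mul]
            have h5 := mul_le_mul_of_nonneg_left (hs y j) hp1
            have h7 : 0 ≤ (1 - p) * (B * q y j) * (a1 y - (a y + p)) :=
              mul_nonneg (mul_nonneg hp1 (mul_nonneg hB (hq y j))) (by linarith)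
            nlinarith
          · simp only [if_neg h2]
            rw [Matrix.add_mul, Matrix.add_mul, Matrix.trace_add, Matrix.smul_mul,
              Matrix.smul_mul, Matrix.trace_smul, smul_eq_mul, Matrix.smul_mul,
              Matrix.smul_mul, Matrix.trace_smul, smul_eq_mul]
            have h5 := mul_le_mul_of_nonneg_left (hs y j) hp1
            have h6 := mul_le_mul_of_nonneg_left (hm (Equiv.swap x z y) (j - 1)) hp.1
            have hj : ((j - 1 : ℕ) : ℝ) = (j : ℝ) - 1 := by
              rw [Nat.cast_sub (Nat.one_le_iff_ne_zero.2 h2)]; simp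
            rw [hj] at h6
            have h7 : 0 ≤ (1 - p) * (B * q y j) * (a1 y - (a y + p)) :=
              mul_nonneg (mul_nonneg hp1 (mul_nonneg hB (hq y j))) (by linarith)
            have h8 : 0 ≤ p * (B * q (Equiv.swap x z y) (j - 1)) *
                (a1 y + c - (a (Equiv.swap x z y) + (1 - p))) :=
              mul_nonneg (mul_nonneg hp.1 (mul_nonneg hB (hq _ _))) (by linarith)
            nlinarith
        · simp only [if_neg h1]
          refine (hrg y j).trans ?_
          exact mul_le_mul_of_nonneg_right
            (mul_le_mul_of_nonneg_left (by linarith [ha2 y]) hB) (hq y j)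
    | node z t =>
      have hp := hl
      simp only [Ok] at hp
      have hpot' : Pot c w a a' := hpot
      have hHX' : HX C B w (Q * mt (.node z t)) := hHX
      set g : MM V := 1 + t • szM z with hg
      have hgn : Le 0 g := node_nonneg z hp.1 hp.2
      have ht1 : (0 : ℝ) < 1 + t := by linarith [hp.1]
      have hrho : 0 ≤ (1 - t) / (1 + t) := div_nonneg (by linarith [hp.2]) ht1.le
      have hrg : ∀ y j, trace (R y j * g * wd w * C) ≤ B * (a y + c * j) * q y j := by
        intro y j
        have := hr y j
        rwa [wd_cons, ← Matrix.mul_assoc] at this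
      set R' : V → ℕ → MM V := fun y j => if y = z then ((1 - t) / (1 + t)) • (R y j * g)
        else R y j * g with hR'
      refine ih hw' (stY (.node z t) Y) R' (stq (.node z t) q) (Q * g) a a'
        (fun y j => stY_nonneg hl hY y j) ?_ (fun y j => stq_nonneg hl hq y j)
        (hQ.zero_mul hgn) ?_ ?_ hHX' hpot' y j
      · intro y j
        rw [hR']
        simp only
        split_ifs with h1
        · exact ((hR _ _).zero_mul hgn).zero_smul hrho
        · exact (hR _ _).zero_mul hgn
      · intro y j
        rw [hR']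
        simp only [stY, stq]
        have h5 := (hYq y j).mul_right hgn
        rw [Matrix.sub_mul, Matrix.smul_mul] at h5
        split_ifs with h1
        · have h6 : Le (((1 - t) / (1 + t)) • (Y y j * g)) ((1 - t) • Y y j) := by
            have h7 : Le g ((1 + t) • (1 : MM V)) := by
              intro i k
              rw [hg]
              simp only [szM, Matrix.add_apply, Matrix.smul_apply, Matrix.one_apply,
                Matrix.diagonal_apply, smul_eq_mul]
              split_ifs <;> linarith [hp.1]
            have h8 := (h7.mul_left (hY y j)).smul hrho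
            rw [Matrix.mul_smul, Matrix.mul_one, smul_smul, div_mul_cancel₀ _ ht1.ne'] at h8
            exact h8
          refine Le.trans ?_ h6
          have h9 := h5.smul hrho
          rw [smul_sub, smul_smul] at h9
          exact h9
        · exact h5
      · intro y j
        rw [hR']
        simp only [stq]
        split_ifs with h1
        · rw [Matrix.smul_mul, Matrix.smul_mul, Matrix.trace_smul, smul_eq_mul]
          have h5 := mul_le_mul_of_nonneg_left (hrg y j) hrho
          linarith
        · exact hrg y j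

/-- Start of the walk. -/
def q0 (x : V) (y : V) (j : ℕ) : ℝ := if y = x ∧ j = 0 then 1 else 0

/-- **Long windows, trace form.** -/
theorem long_trace (A C : MM V) (hA : Le 0 A) (hC : Le 0 C) {c δ : ℝ} (hδ : 0 ≤ δ)
    (w : List (Lt V)) (hw : ∀ l ∈ w, Ok l) (x y : V) (J : ℕ) (a' : V → ℝ)
    (hpot : Pot c w (fun _ => 0) a')
    (hX : HX C (δ * trace (A * wd w * C)) w A) :
    (∑ j ∈ range J, qq w (q0 x) y j * (1 - δ * (a' y + c * j))) * trace (A * wd w * C) ≤
      trace (A * sxM x * wd w * (sxM y * C)) := by
  have hZ : 0 ≤ trace (A * wd w * C) := by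
    have := ((hA.zero_mul (wd_nonneg hw)).zero_mul hC).trace
    rwa [Matrix.trace_zero] at this
  have hB : 0 ≤ δ * trace (A * wd w * C) := mul_nonneg hδ hZ
  set Y : V → ℕ → MM V := fun v j => if v = x ∧ j = 0 then A else 0 with hY
  have hYn : ∀ v j, Le 0 (Y v j) := by
    intro v j
    rw [hY]
    simp only
    split_ifs
    · exact hA
    · exact Le.refl 0
  rcases Nat.eq_zero_or_pos J with hJ | hJ
  · subst hJ
    simp only [Finset.range_zero, Finset.sum_empty, zero_mul]
    have := (((hA.zero_mul (sxM_nonneg x)).zero_mul (wd_nonneg hw)).zero_mul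
      ((sxM_nonneg y).zero_mul hC)).trace
    rwa [Matrix.trace_zero] at this
  have hSS : SS J Y = A * sxM x := by
    unfold SS
    rw [Finset.sum_eq_single x]
    · rw [Finset.sum_eq_single 0]
      · rw [hY]; simp
      · intro j _ hj
        rw [hY]; simp [hj]
      · intro h
        exact absurd (Finset.mem_range.2 hJ) h
    · intro v _ hv
      refine Finset.sum_eq_zero fun j _ => ?_
      rw [hY]; simp [hv]
    · intro h
      exact absurd (Finset.mem_univ _) h
  have hw2 := SS_word J hw hYn
  rw [hSS] at hw2
  have hsC : Le 0 ((sxM y : MM V) * C) := (sxM_nonneg y).zero_mul hC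
  have h1 := (hw2.mul_right hsC).trace
  refine le_trans ?_ h1
  have hYYn : ∀ (w : List (Lt V)), (∀ l ∈ w, Ok l) → ∀ Y : V → ℕ → MM V,
      (∀ v j, Le 0 (Y v j)) → ∀ v j, Le 0 (YY w Y v j) := by
    intro w
    induction w with
    | nil => intro _ Y hY; exact hY
    | cons l w ih =>
      intro hw Y hY
      simp only [YY]
      exact ih (fun l' hl' => hw l' (by simp [hl'])) _
        fun v j => stY_nonneg (hw l (by simp)) hY v j
  have hsx : (sxM y : MM V) * sxM y = 1 := by
    ext σ τ
    rw [Matrix.mul_apply, Finset.sum_eq_single (Function.update τ y (1 - τ y))]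
    · have e : Function.update (Function.update τ y (1 - τ y)) y
          (1 - (Function.update τ y (1 - τ y)) y) = τ := by
        funext v
        rcases eq_or_ne v y with rfl | hv
        · simp
        · simp [Function.update_of_ne hv]
      simp only [sxM, Matrix.of_apply, if_true, mul_one, e, Matrix.one_apply]
    · intro ρ _ hρ
      simp [sxM, hρ]
    · intro h
      exact absurd (Finset.mem_univ _) h
  have h2 : ∑ j ∈ range J, trace (YY w Y y j * C) ≤ trace (SS J (YY w Y) * (sxM y * C)) := by
    unfold SS
    rw [Finset.sum_mul, Matrix.trace_sum,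
      ← Finset.add_sum_erase Finset.univ _ (Finset.mem_univ y)]
    have h3 : trace ((∑ j ∈ range J, YY w Y y j * sxM y) * (sxM y * C)) =
        ∑ j ∈ range J, trace (YY w Y y j * C) := by
      rw [Finset.sum_mul, Matrix.trace_sum]
      refine Finset.sum_congr rfl fun j _ => ?_
      rw [Matrix.mul_assoc, ← Matrix.mul_assoc (sxM y) (sxM y) C, hsx, Matrix.one_mul]
    rw [h3]
    have h4 : 0 ≤ ∑ v ∈ Finset.univ.erase y,
        trace ((∑ j ∈ range J, YY w Y v j * sxM v) * (sxM y * C)) := by
      refine Finset.sum_nonneg fun v _ => ?_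
      have := ((Le.zero_sum fun j _ => (hYYn w hw Y hYn v j).zero_mul
        (sxM_nonneg v)).zero_mul hsC (A := ∑ j ∈ range J, YY w Y v j * sxM v)).trace
      rwa [Matrix.trace_zero] at this
    linarith
  refine le_trans ?_ h2
  rw [Finset.sum_mul]
  refine Finset.sum_le_sum fun j _ => ?_
  have h5 := YY_trace C hC (c := c) hB w hw Y (fun _ _ => 0) (q0 x) A (fun _ => 0) a' hYn
    (fun _ _ => Le.refl 0) (fun v j => by unfold q0; split_ifs <;> norm_num) hA
    (fun v j => by
      rw [hY]
      unfold q0
      simp only [sub_zero]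
      split_ifs
      · rw [one_smul]; exact Le.refl _
      · rw [zero_smul]; exact Le.refl _)
    (fun v j => by
      simp only [Matrix.zero_mul, Matrix.trace_zero, zero_add]
      unfold q0
      split_ifs with h
      · rw [h.2]; simp
      · simp)
    hX hpot y j
  refine le_trans (le_of_eq ?_) h5
  ring

end

end Vale.Agent.P361.LRO.Bloch
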