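import Vale.Agent.P361.LRO.Bloch.Kernel3
import Vale.Agent.P361.LRO.Bloch.Disc
import Vale.Agent.P361.LRO.Bloch.LongLoc

/-!
# P361, stage R3: lower bound for the walk weights `qq` of `LongLoc` (gates only)
-/

namespace Vale.Agent.P361.LRO.Bloch.Ker

open Finset NormedSpace

noncomputable section

section Walk

variable {V : Type} [DecidableEq V]

/-- One gate acting on the row vector `Q`; a move has the weight `s`. -/
def stG (s p : ℝ) (e : V × V) (Q : V → ℝ) : V → ℝ := fun y =>
  if y = e.1 ∨ y = e.2 then (1 - p) * Q y + p * (s * Q (Equiv.swap e.1 e.2 y)) else Q y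

/-- A list of gates acting on the row vector `Q`. -/
def QG (s p : ℝ) : List (V × V) → (V → ℝ) → V → ℝ
  | [], Q => Q
  | e :: l, Q => QG s p l (stG s p e Q)

theorem mem_swap (a b x : V) :
    (Equiv.swap a b x = a ∨ Equiv.swap a b x = b) ↔ (x = a ∨ x = b) := by
  constructor
  · rintro (h | h)
    · right
      have := congrArg (Equiv.swap a b) h
      rwa [Equiv.swap_apply_self, Equiv.swap_apply_left] at this
    · left
      have := congrArg (Equiv.swap a b) h
      rwa [Equiv.swap_apply_self, Equiv.swap_apply_right] at this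
  · rintro (h | h)
    · subst h
      right
      exact Equiv.swap_apply_left _ _
    · subst h
      left
      exact Equiv.swap_apply_right _ _

theorem QG_append (s p : ℝ) (l l' : List (V × V)) (Q : V → ℝ) :
    QG s p (l ++ l') Q = QG s p l' (QG s p l Q) := by
  induction l generalizing Q with
  | nil => rfl
  | cons e l ih => exact ih _

/-- truncation invariant -/
def Inv (q : V → ℕ → ℝ) (Q1 Q2 : V → ℝ) : Prop :=
  (∀ y, 0 ≤ Q1 y) ∧ (∀ y, Q1 y ≤ Q2 y) ∧
    ∀ y J, Q1 y - (1 / 2) ^ J * Q2 y ≤ ∑ j ∈ range J, q y j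

theorem Inv.step {q : V → ℕ → ℝ} {Q1 Q2 : V → ℝ} (h : Inv q Q1 Q2) {p : ℝ} (h0 : 0 ≤ p)
    (h1 : p ≤ 1) (e : V × V) :
    Inv (stq (.gate e.1 e.2 p) q) (stG 1 p e Q1) (stG 2 p e Q2) := by
  obtain ⟨i1, i2, i3⟩ := h
  have hp : 0 ≤ 1 - p := by linarith
  refine ⟨fun y => ?_, fun y => ?_, fun y J => ?_⟩
  · unfold stG
    split_ifs
    · have := mul_nonneg hp (i1 y)
      have := mul_nonneg h0 (i1 (Equiv.swap e.1 e.2 y))
      linarith
    · exact i1 y
  · unfold stG
    split_ifs
    · have a1 := mul_le_mul_of_nonneg_left (i2 y) hp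
      have a2 := mul_le_mul_of_nonneg_left (i2 (Equiv.swap e.1 e.2 y)) h0
      have a3 := mul_nonneg h0 (i1 (Equiv.swap e.1 e.2 y))
      linarith
    · exact i2 y
  · simp only [stG, stq]
    by_cases hy : y = e.1 ∨ y = e.2
    · simp only [if_pos hy]
      cases J with
      | zero =>
        have a1 := mul_le_mul_of_nonneg_left (i2 y) hp
        have a2 := mul_le_mul_of_nonneg_left (i2 (Equiv.swap e.1 e.2 y)) h0
        have a3 := mul_nonneg h0 (i1 (Equiv.swap e.1 e.2 y))
        simp only [pow_zero, range_zero, sum_empty]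
        linarith
      | succ J =>
        have b1 := mul_le_mul_of_nonneg_left (i3 y (J + 1)) hp
        have b2 := mul_le_mul_of_nonneg_left (i3 (Equiv.swap e.1 e.2 y) J) h0
        have b3 : ∑ j ∈ range (J + 1), ((1 - p) * q y j +
            p * (if j = 0 then 0 else q (Equiv.swap e.1 e.2 y) (j - 1))) =
            (1 - p) * ∑ j ∈ range (J + 1), q y j +
            p * ∑ j ∈ range J, q (Equiv.swap e.1 e.2 y) j := by
          rw [sum_add_distrib, ← mul_sum, ← mul_sum]
          congr 2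
          rw [sum_range_succ']
          simp
        rw [b3]
        have b4 : ((1 : ℝ) / 2) ^ (J + 1) = (1 / 2) ^ J * (1 / 2) := pow_succ _ _
        rw [b4] at b1 ⊢
        linarith
    · simp only [if_neg hy]
      exact i3 y J

theorem Inv.fold {p : ℝ} (h0 : 0 ≤ p) (h1 : p ≤ 1) (l : List (V × V)) {q : V → ℕ → ℝ}
    {Q1 Q2 : V → ℝ} (h : Inv q Q1 Q2) :
    Inv (qq (l.map fun e => .gate e.1 e.2 p) q) (QG 1 p l Q1) (QG 2 p l Q2) := by
  induction l generalizing q Q1 Q2 with
  | nil => exact h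
  | cons e l ih => exact ih (h.step h0 h1 e)

theorem Inv.start (x : V) : Inv (q0 x) (Pi.single x 1) (Pi.single x 1) := by
  have h0 : ∀ y : V, (0 : ℝ) ≤ (Pi.single x 1 : V → ℝ) y := fun y => by
    rw [Pi.single_apply]
    split_ifs <;> norm_num
  refine ⟨h0, fun _ => le_rfl, fun y J => ?_⟩
  cases J with
  | zero => simp
  | succ J =>
    rw [sum_range_succ']
    have h2 : ∑ j ∈ range J, q0 x y (j + 1) = 0 := sum_eq_zero fun j _ => by simp [q0]
    have h3 : q0 x y 0 = (Pi.single x 1 : V → ℝ) y := by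
      rw [Pi.single_apply]
      simp [q0]
    rw [h2, h3]
    have : 0 ≤ (1 / 2 : ℝ) ^ (J + 1) * (Pi.single x 1 : V → ℝ) y :=
      mul_nonneg (by positivity) (h0 y)
    linarith

variable [Fintype V]

theorem stG_eq (s p : ℝ) (e : V × V) (Q : V → ℝ) :
    stG s p e Q = Matrix.vecMul Q (1 + p • Disc.genE s e) := by
  funext y
  rw [Matrix.vecMul_add, Matrix.vecMul_one, Matrix.vecMul_smul, Pi.add_apply, Pi.smul_apply,
    smul_eq_mul]
  have h : Matrix.vecMul Q (Disc.genE s e) y =
      if y = e.1 ∨ y = e.2 then s * Q (Equiv.swap e.1 e.2 y) - Q y else 0 := by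
    simp only [Matrix.vecMul, dotProduct, Disc.genE, Matrix.of_apply]
    have h1 : ∀ x : V, Q x * (if x = e.1 ∨ x = e.2 then
        (if y = Equiv.swap e.1 e.2 x then s else 0) - (if y = x then 1 else 0) else 0) =
        (if x = Equiv.swap e.1 e.2 y then
          (if y = e.1 ∨ y = e.2 then s * Q (Equiv.swap e.1 e.2 y) else 0) else 0) -
        (if x = y then (if y = e.1 ∨ y = e.2 then Q y else 0) else 0) := by
      intro x
      have e1 : (y = Equiv.swap e.1 e.2 x) ↔ (x = Equiv.swap e.1 e.2 y) := by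
        constructor
        · intro h
          rw [h, Equiv.swap_apply_self]
        · intro h
          rw [h, Equiv.swap_apply_self]
      by_cases hx : x = e.1 ∨ x = e.2
      · rw [if_pos hx]
        by_cases h2 : x = Equiv.swap e.1 e.2 y
        · have h3 : y = e.1 ∨ y = e.2 := (mem_swap e.1 e.2 y).1 (h2 ▸ hx)
          rw [if_pos (e1.2 h2), if_pos h2, if_pos h3]
          by_cases h4 : x = y
          · rw [if_pos h4.symm, if_pos h4, if_pos h3, ← h2, h4]
            ring
          · rw [if_neg (fun h => h4 h.symm), if_neg h4, ← h2]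
            ring
        · rw [if_neg (fun h => h2 (e1.1 h)), if_neg h2]
          by_cases h4 : x = y
          · rw [if_pos h4.symm, if_pos h4, if_pos (h4 ▸ hx), h4]
            ring
          · rw [if_neg (fun h => h4 h.symm), if_neg h4]
            ring
      · rw [if_neg hx, mul_zero]
        by_cases h2 : x = Equiv.swap e.1 e.2 y
        · have h3 : ¬ (y = e.1 ∨ y = e.2) := fun h => hx (h2 ▸ (mem_swap e.1 e.2 y).2 h)
          rw [if_neg h3, if_neg h3]
          simp
        · rw [if_neg h2]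
          by_cases h4 : x = y
          · rw [if_pos h4, if_neg (h4 ▸ hx)]
            ring
          · rw [if_neg h4]
            ring
    rw [sum_congr rfl fun x _ => h1 x, sum_sub_distrib, sum_ite_eq' univ, sum_ite_eq' univ,
      if_pos (mem_univ _), if_pos (mem_univ _)]
    split_ifs
    · rfl
    · ring
  rw [h, stG]
  split_ifs
  · ring
  · ring

theorem QG_eq (s p : ℝ) (l : List (V × V)) (Q : V → ℝ) :
    QG s p l Q = Matrix.vecMul Q (Disc.layW s p l) := by
  induction l generalizing Q with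
  | nil => simp [QG, Disc.layW]
  | cons e l ih =>
    rw [QG, ih, stG_eq, Matrix.vecMul_vecMul]
    rfl

theorem QG_flatten (s p : ℝ) (l : List (V × V)) (m : ℕ) (Q : V → ℝ) :
    QG s p (List.replicate m l).flatten Q = Matrix.vecMul Q (Disc.layW s p l ^ m) := by
  induction m generalizing Q with
  | zero => simp [QG]
  | succ m ih =>
    rw [List.replicate_succ, List.flatten_cons, QG_append, ih, QG_eq, Matrix.vecMul_vecMul,
      pow_succ']

theorem QG_single (s p : ℝ) (l : List (V × V)) (m : ℕ) (x y : V) :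
    QG s p (List.replicate m l).flatten (Pi.single x 1) y = (Disc.layW s p l ^ m) x y := by
  rw [QG_flatten, Matrix.single_one_vecMul]
  rfl

end Walk

theorem genE_eq {n : ℕ} (a : ℝ) {e : Tor n × Tor n} (he : e.1 ≠ e.2) :
    Disc.genE a e = genE a e := by
  ext x y
  simp only [Disc.genE, genE, Swt, Dg, Matrix.of_apply, Matrix.sub_apply, Matrix.smul_apply,
    smul_eq_mul]
  by_cases h1 : x = e.1
  · have h2 : Equiv.swap e.1 e.2 x = e.2 := by rw [h1]; exact Equiv.swap_apply_left _ _
    have h3 : ¬ (x = e.2) := fun h => he (h1.symm.trans h)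
    rw [h2]
    by_cases h4 : y = e.2
    · have h5 : ¬ (y = x) := fun h => h3 (h.symm.trans h4)
      have h6 : ¬ (x = y) := fun h => h5 h.symm
      simp [h1, h4, he, Ne.symm he]
    · by_cases h5 : y = x
      · simp [h1, h5, he]
      · have h6 : ¬ (x = y) := fun h => h5 h.symm
        have h7 : ¬ y = e.1 := fun h => h5 (h.trans h1.symm)
        have h8 : ¬ e.1 = y := fun h => h7 h.symm
        simp [h1, h4, h7, h8, he]
  · by_cases h2 : x = e.2
    · have h3 : Equiv.swap e.1 e.2 x = e.1 := by rw [h2]; exact Equiv.swap_apply_right _ _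
      rw [h3]
      by_cases h4 : y = e.1
      · simp [h2, h4, he, Ne.symm he]
      · by_cases h5 : y = x
        · simp [h2, h5, Ne.symm he]
        · have h7 : ¬ y = e.2 := fun h => h5 (h.trans h2.symm)
          have h8 : ¬ e.2 = y := fun h => h7 h.symm
          simp [h2, h4, h7, h8, Ne.symm he]
    · simp [h1, h2]

theorem genL_perm {n : ℕ} [NeZero n] (hn : 2 ≤ n) (a : ℝ) {L : List (Tor n × Tor n)}
    (hL : L.Perm (edges n)) : Disc.genL a L = a • Lap n + (6 * (a - 1)) • 1 := by
  have h1 : Disc.genL a L = Disc.genL a (edges n) := (hL.map _).sum_eq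
  rw [h1, ← sum_genE hn a, Disc.genL]
  congr 1
  refine List.map_congr_left fun e he => genE_eq a ?_
  rw [edges, List.mem_map] at he
  obtain ⟨z, _, rfl⟩ := he
  intro h
  exact single_ne hn z.2 (by simpa using h.symm)

theorem cK_le_one {A : ℝ} : cK A ≤ 1 := by
  unfold cK
  rw [← Real.exp_zero]
  refine Real.exp_le_exp.2 ?_
  nlinarith [sq_nonneg (A + 1)]

/-- the constant for the number of moves -/
def cJ (A : ℝ) : ℝ := (9 + Real.log (4 / cK A ^ 3)) / Real.log 2

theorem half_pow_le {A s : ℝ} (hs : 1 ≤ s) {J : ℕ} (hJ : cJ A * s ≤ J) :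
    (1 / 2 : ℝ) ^ J * Real.exp (6 * s) ≤ (cK A / √s) ^ 3 / 4 := by
  have hc := cK_pos A
  have hc3 : 0 < cK A ^ 3 := by positivity
  have hs0 : 0 < s := by linarith
  have hsq : 0 < √s := Real.sqrt_pos.2 hs0
  have hl2 : 0 < Real.log 2 := Real.log_pos (by norm_num)
  set l := Real.log (4 / cK A ^ 3) with hl
  have hl0 : 0 ≤ l := by
    refine Real.log_nonneg ?_
    rw [le_div_iff₀ hc3]
    have : cK A ^ 3 ≤ 1 := pow_le_one₀ hc.le cK_le_one
    linarith
  have h1 : (9 + l) * s ≤ J * Real.log 2 := by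
    have h := mul_le_mul_of_nonneg_right hJ hl2.le
    have e : cJ A * s * Real.log 2 = (9 + l) * s := by
      unfold cJ
      rw [← hl]
      field_simp
    rw [e] at h
    exact h
  have h2 : (1 / 2 : ℝ) ^ J = Real.exp (-(J * Real.log 2)) := by
    rw [Real.exp_neg, Real.exp_nat_mul, Real.exp_log (by norm_num), one_div, inv_pow]
  have h3 : √s ≤ Real.exp s := by
    have a1 : √s ≤ s := by
      rw [Real.sqrt_le_left (by linarith)]
      nlinarith
    linarith [Real.add_one_le_exp s]
  have h4 : √s ^ 3 ≤ Real.exp (3 * s) := by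
    have := pow_le_pow_left₀ hsq.le h3 3
    rwa [← Real.exp_nat_mul] at this
  have h5 : Real.exp (-l) = cK A ^ 3 / 4 := by
    rw [hl, Real.exp_neg, Real.exp_log (by positivity), inv_div]
  rw [h2, ← Real.exp_add, div_pow, div_div, le_div_iff₀ (by positivity)]
  calc Real.exp (-(J * Real.log 2) + 6 * s) * (√s ^ 3 * 4) ≤
      Real.exp (-((9 + l) * s) + 6 * s) * (Real.exp (3 * s) * 4) := by
        gcongr
    _ = Real.exp (-(l * s)) * 4 := by
        rw [← mul_assoc, ← Real.exp_add]
        congr 2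
        ring
    _ ≤ Real.exp (-l) * 4 := by
        have : -(l * s) ≤ -l := by nlinarith
        gcongr
    _ = cK A ^ 3 := by
        rw [h5]
        ring

/-- **Lower bound for the walk through `m` layers of gates.** -/
theorem gates_lower {A : ℝ} (hA : 0 ≤ A) {n : ℕ} [NeZero n] (hn : 2 ≤ n) {β : ℝ} (hβ : 0 < β) :
    ∃ N0 : ℕ, ∀ N : ℕ, N0 ≤ N → ∀ L : List (Tor n × Tor n), L.Perm (edges n) → ∀ m ≤ N,
      ∀ s : ℝ, s = m * (β / (2 * N)) → 1 ≤ s → ∀ J : ℕ, cJ A * s ≤ J →
      ∀ (x : Tor n) (z : Fin 3 → ℤ), (∀ i, |(z i : ℝ)| ≤ A * √s) →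
      (cK A / √s) ^ 3 / 2 ≤ ∑ i ∈ range J,
        qq ((List.replicate m L).flatten.map fun e => Lt.gate e.1 e.2 (β / (2 * N))) (q0 x)
          (x + fun i => (z i : ZMod n)) i := by
  set c : ℝ := 3 * (edges n).length with hc
  have hc0 : 0 ≤ c := by positivity
  set K : ℝ := β ^ 2 * c ^ 2 * Real.exp (β * c) with hK
  have hK0 : 0 ≤ K := by positivity
  set T0 : ℝ := (cK A / √(β / 2)) ^ 3 with hT0
  have hT0p : 0 < T0 := by
    have := cK_pos A
    have : 0 < √(β / 2) := Real.sqrt_pos.2 (by linarith)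
    positivity
  refine ⟨max 1 (max ⌈β⌉₊ ⌈8 * K / T0⌉₊), fun N hN L hL m hm s hs hs1 J hJ x z hz => ?_⟩
  have hN1 : 1 ≤ N := (le_max_left _ _).trans hN
  have hNβ : β ≤ N := (Nat.le_ceil β).trans
    (by exact_mod_cast ((le_max_left _ _).trans (le_max_right _ _)).trans hN)
  have hNK : 8 * K / T0 ≤ N := (Nat.le_ceil _).trans
    (by exact_mod_cast ((le_max_right _ _).trans (le_max_right _ _)).trans hN)
  have hN0 : (0 : ℝ) < N := by exact_mod_cast hN1
  set p : ℝ := β / (2 * N) with hp
  have hp0 : 0 ≤ p := by positivity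
  have hp1 : p ≤ 1 := by
    rw [hp, div_le_one (by positivity)]
    linarith
  have hsβ : s ≤ β / 2 := by
    rw [hs, hp]
    have : (m : ℝ) ≤ N := by exact_mod_cast hm
    rw [← mul_div_assoc, div_le_iff₀ (by positivity)]
    nlinarith
  have hs0 : 0 < s := by linarith
  set y : Tor n := x + fun i => (z i : ZMod n) with hy
  set T : ℝ := (cK A / √s) ^ 3 with hT
  have hTT : T0 ≤ T := by
    rw [hT0, hT]
    have := cK_pos A
    have h1 : 0 < √s := Real.sqrt_pos.2 hs0
    have h2 : √s ≤ √(β / 2) := Real.sqrt_le_sqrt hsβ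
    gcongr
  -- the error of the discretization
  have herr : ∀ a : ℝ, 0 ≤ a → a ≤ 2 →
      |(Disc.layW a p L ^ m) x y - (exp (s • Disc.genL a L)) x y| ≤ T / 8 := by
    intro a ha ha2
    have h := Disc.layW_pow a p ha hp0 L m x y
    rw [← hs] at h
    refine h.trans ?_
    have hlen : (L.length : ℝ) = (edges n).length := by rw [hL.length_eq]
    have e1 : (a + 1) * (L.length : ℝ) ≤ c := by
      rw [hlen, hc]
      have : (0 : ℝ) ≤ (edges n).length := Nat.cast_nonneg _
      nlinarith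
    have e0 : 0 ≤ (a + 1) * (L.length : ℝ) := by positivity
    have e2 : ((m : ℝ) + 1) * (p * ((a + 1) * L.length)) ≤ β * c := by
      have b1 : ((m : ℝ) + 1) * p ≤ β := by
        have : (m : ℝ) ≤ N := by exact_mod_cast hm
        have b2 : (1 : ℝ) ≤ N := by exact_mod_cast hN1
        rw [hp, ← mul_div_assoc, div_le_iff₀ (by positivity)]
        nlinarith
      calc ((m : ℝ) + 1) * (p * ((a + 1) * L.length)) =
            (((m : ℝ) + 1) * p) * ((a + 1) * L.length) := by ring
        _ ≤ β * c := mul_le_mul b1 e1 e0 hβ.le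
    have e3 : 2 * (m : ℝ) * (p * ((a + 1) * L.length)) ^ 2 ≤ β ^ 2 * c ^ 2 / N := by
      have b1 : (m : ℝ) * p ≤ β / 2 := by rw [← hs]; exact hsβ
      have b2 : ((a + 1) * (L.length : ℝ)) ^ 2 ≤ c ^ 2 := pow_le_pow_left₀ e0 e1 2
      calc 2 * (m : ℝ) * (p * ((a + 1) * L.length)) ^ 2 =
            2 * ((m : ℝ) * p) * p * ((a + 1) * L.length) ^ 2 := by ring
        _ ≤ 2 * (β / 2) * p * c ^ 2 := by gcongr
        _ = β ^ 2 * c ^ 2 / N / 2 := by
          rw [hp]
          field_simp
        _ ≤ β ^ 2 * c ^ 2 / N := by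
          have : 0 ≤ β ^ 2 * c ^ 2 / N := by positivity
          linarith
    calc 2 * (m : ℝ) * (p * ((a + 1) * L.length)) ^ 2 *
          Real.exp (((m : ℝ) + 1) * (p * ((a + 1) * L.length))) ≤
          β ^ 2 * c ^ 2 / N * Real.exp (β * c) :=
          mul_le_mul e3 (Real.exp_le_exp.2 e2) (Real.exp_pos _).le (by positivity)
      _ = K / N := by rw [hK]; ring
      _ ≤ T0 / 8 := by
          rw [div_le_iff₀ hN0]
          rw [div_le_iff₀ hT0p] at hNK
          linarith
      _ ≤ T / 8 := by linarith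
  have h1 := abs_le.1 (herr 1 (by norm_num) (by norm_num))
  have h2 := abs_le.1 (herr 2 (by norm_num) le_rfl)
  rw [genL_perm hn 1 hL] at h1
  rw [genL_perm hn 2 hL] at h2
  have g1 : (1 : ℝ) • Lap n + (6 * (1 - 1) : ℝ) • (1 : Matrix (Tor n) (Tor n) ℝ) = Lap n := by
    simp
  have g2 : (2 : ℝ) • Lap n + (6 * (2 - 1) : ℝ) • (1 : Matrix (Tor n) (Tor n) ℝ) =
      (2 : ℝ) • Lap n + (6 : ℝ) • 1 := by
    norm_num
  rw [g1] at h1
  rw [g2] at h2
  have h3 := Lap_lower hA hs1 hz x
  have h4 := exp_two_le (n := n) hs0.le x y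
  have h5 := half_pow_le hs1 hJ
  have hInv := (Inv.start x).fold hp0 hp1 (List.replicate m L).flatten
  have h6 := hInv.2.2 y J
  rw [QG_single, QG_single] at h6
  refine le_trans ?_ h6
  have h7 : (1 / 2 : ℝ) ^ J * (Disc.layW 2 p L ^ m) x y ≤
      (1 / 2 : ℝ) ^ J * (Real.exp (6 * s) + T / 8) :=
    mul_le_mul_of_nonneg_left (by linarith [h2.2]) (by positivity)
  have h8 : (1 / 2 : ℝ) ^ J * (T / 8) ≤ T / 8 := by
    have a1 : (1 / 2 : ℝ) ^ J ≤ 1 := pow_le_one₀ (by norm_num) (by norm_num)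
    have a2 : 0 ≤ T / 8 := by linarith
    nlinarith
  have h9 : T ≤ exp (s • Lap n) x y := h3
  linarith [h1.1]

end

end Vale.Agent.P361.LRO.Bloch.Ker
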