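import Vale.Agent.P361.LRO.Bloch.Kernel4
import Vale.Agent.P361.LRO.Bloch.LongCC

/-!
# P361, stage R3: the kernel bound in the form of `LongCC`
-/

namespace Vale.Agent.P361.LRO.Bloch.Ker

open Finset NormedSpace

theorem glr_eq {V : Type} (L : List (V × V)) (p : ℝ) (m : ℕ) :
    glr L p m = (List.replicate (m + 1) L.reverse).flatten.map fun e => Lt.gate e.1 e.2 p := by
  induction m with
  | zero => simp [glr, gl]
  | succ m ih =>
    rw [List.replicate_succ, List.flatten_cons, List.map_append, ← ih]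
    rfl

/-- **Lower bound for the walk weights of `LongCC`.** -/
theorem glr_lower {A : ℝ} (hA : 0 ≤ A) {n : ℕ} [NeZero n] (hn : 2 ≤ n) {β : ℝ} (hβ : 0 < β) :
    ∃ N0 : ℕ, ∀ N : ℕ, N0 ≤ N → ∀ m : ℕ, m + 1 ≤ N →
      ∀ s : ℝ, s = ((m : ℝ) + 1) * (β / (2 * N)) → 1 ≤ s → ∀ J : ℕ, cJ A * s ≤ J →
      ∀ (x : Tor n) (z : Fin 3 → ℤ), (∀ i, |(z i : ℝ)| ≤ A * √s) →
      (cK A / √s) ^ 3 / 2 ≤ ∑ i ∈ range J,
        qq (glr (edges n) (β / (2 * N)) m) (q0 x) (x + fun i => (z i : ZMod n)) i := by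
  obtain ⟨N0, h⟩ := gates_lower hA hn hβ
  refine ⟨N0, fun N hN m hm s hs hs1 J hJ x z hz => ?_⟩
  rw [glr_eq]
  exact h N hN (edges n).reverse (List.reverse_perm _) (m + 1) hm s (by rw [hs]; push_cast; ring)
    hs1 J hJ x z hz

end Vale.Agent.P361.LRO.Bloch.Ker
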