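import Vale.Agent.P361.LRO.Bloch.Kernel2

/-!
# P361, stage R3, heat kernel: upper bound on the torus (any finite abelian group)

`HK s v x y ≤ 1 / addOrderOf v + 1 / √s`, row sums `1`, and products over independent directions.
-/

namespace Vale.Agent.P361.LRO.Bloch.Ker

open Finset NormedSpace

noncomputable section

/-! ### Poisson moments -/

theorem po_hasSum (s : ℝ) : HasSum (po s) 1 := by
  have h := (NormedSpace.expSeries_div_hasSum_exp (𝔸 := ℝ) s)
  rw [← Real.exp_eq_exp_ℝ] at h
  have h2 := h.mul_left (Real.exp (-s))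
  rw [← Real.exp_add, neg_add_cancel, Real.exp_zero] at h2
  exact h2

theorem po_succ (s : ℝ) (a : ℕ) : ((a : ℝ) + 1) * po s (a + 1) = s * po s a := by
  have h1 : (a.factorial : ℝ) ≠ 0 := by exact_mod_cast Nat.factorial_ne_zero a
  have h2 : (a : ℝ) + 1 ≠ 0 := by positivity
  unfold po
  rw [Nat.factorial_succ, pow_succ]
  push_cast
  field_simp

theorem po_hasSum_one (s : ℝ) : HasSum (fun a : ℕ => (a : ℝ) * po s a) s := by
  rw [← hasSum_nat_add_iff' 1]
  simp only [range_one, sum_singleton, Nat.cast_zero, zero_mul, sub_zero, Nat.cast_add,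
    Nat.cast_one, po_succ]
  simpa using (po_hasSum s).mul_left s

theorem po_hasSum_two (s : ℝ) : HasSum (fun a : ℕ => (a : ℝ) * ((a : ℝ) - 1) * po s a) (s ^ 2) := by
  rw [← hasSum_nat_add_iff' 1]
  have h : ∀ a : ℕ, (((a + 1 : ℕ) : ℝ)) * ((((a + 1 : ℕ) : ℝ)) - 1) * po s (a + 1) =
      s * ((a : ℝ) * po s a) := by
    intro a
    have := po_succ s a
    push_cast
    calc ((a : ℝ) + 1) * ((a : ℝ) + 1 - 1) * po s (a + 1)
        = (a : ℝ) * (((a : ℝ) + 1) * po s (a + 1)) := by ring
      _ = _ := by rw [this]; ring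
  simp only [h, range_one, sum_singleton, Nat.cast_zero, zero_mul, sub_zero]
  have := (po_hasSum_one s).mul_left s
  rwa [← sq] at this

theorem po_var (s : ℝ) : HasSum (fun a : ℕ => po s a * ((a : ℝ) - s) ^ 2) s := by
  have h := ((po_hasSum_two s).add ((po_hasSum_one s).mul_left (1 - 2 * s))).add
    ((po_hasSum s).mul_left (s ^ 2))
  have e1 : s ^ 2 + (1 - 2 * s) * s + s ^ 2 * 1 = s := by ring
  rw [e1] at h
  convert h using 1
  funext a
  ring

theorem po_absdev {s : ℝ} (hs : 0 < s) :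
    Summable (fun a : ℕ => po s a * |(a : ℝ) - s|) ∧
      ∑' a : ℕ, po s a * |(a : ℝ) - s| ≤ √s := by
  have hsq : (0 : ℝ) < √s := Real.sqrt_pos.2 hs
  have hss : √s * √s = s := Real.mul_self_sqrt hs.le
  have h := ((po_var s).mul_left (1 / (2 * √s))).add ((po_hasSum s).mul_left (√s / 2))
  have e1 : 1 / (2 * √s) * s + √s / 2 * 1 = √s := by
    field_simp
    nlinarith
  rw [e1] at h
  have hle : ∀ a : ℕ, po s a * |(a : ℝ) - s| ≤
      1 / (2 * √s) * (po s a * ((a : ℝ) - s) ^ 2) + √s / 2 * po s a := by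
    intro a
    have hp := po_nonneg hs.le a
    have h1 : |(a : ℝ) - s| ≤ 1 / (2 * √s) * ((a : ℝ) - s) ^ 2 + √s / 2 := by
      have h2 : 0 ≤ (|(a : ℝ) - s| - √s) ^ 2 := sq_nonneg _
      have h3 : |(a : ℝ) - s| ^ 2 = ((a : ℝ) - s) ^ 2 := sq_abs _
      have h4 : |(a : ℝ) - s| * (2 * √s) ≤ ((a : ℝ) - s) ^ 2 + s := by nlinarith
      have h5 : |(a : ℝ) - s| = |(a : ℝ) - s| * (2 * √s) / (2 * √s) := by field_simp
      rw [h5]
      have h6 : 1 / (2 * √s) * ((a : ℝ) - s) ^ 2 + √s / 2 = (((a : ℝ) - s) ^ 2 + s) / (2 * √s) := by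
        field_simp
        nlinarith
      rw [h6]
      exact div_le_div_of_nonneg_right h4 (by positivity)
    calc po s a * |(a : ℝ) - s| ≤ po s a * (1 / (2 * √s) * ((a : ℝ) - s) ^ 2 + √s / 2) :=
          mul_le_mul_of_nonneg_left h1 hp
      _ = _ := by ring
  have hsum : Summable (fun a : ℕ => po s a * |(a : ℝ) - s|) :=
    Summable.of_nonneg_of_le (fun a => mul_nonneg (po_nonneg hs.le a) (abs_nonneg _)) hle
      h.summable
  exact ⟨hsum, (hsum.tsum_le_tsum hle h.summable).trans h.tsum_eq.le⟩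

/-! ### The one-sided walk -/

section Shift

variable {G : Type*} [AddCommGroup G] [Fintype G] [DecidableEq G]

/-- Poisson walk in direction `v`. -/
def PW (s : ℝ) (v : G) : Matrix G G ℝ := Real.exp (-s) • exp (s • Sh v)

theorem PW_hasSum (s : ℝ) (v x y : G) :
    HasSum (fun a : ℕ => po s a * Sh (a • v) x y) (PW s v x y) := by
  have h : HasSum (fun b : ℕ => ((b.factorial : ℝ)⁻¹) • (s • Sh v) ^ b) (exp (s • Sh v)) := by
    open scoped Matrix.Norms.Operator in
    exact exp_series_hasSum_exp' (𝕂 := ℝ) (s • Sh v)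
  have h2 : HasSum (fun b : ℕ => (((b.factorial : ℝ)⁻¹) • (s • Sh v) ^ b) x y)
      (exp (s • Sh v) x y) := (Pi.hasSum.1 (Pi.hasSum.1 h x)) y
  have h3 : HasSum (fun b : ℕ => Real.exp (-s) *
      (((b.factorial : ℝ)⁻¹) • (s • Sh v) ^ b) x y) (Real.exp (-s) * exp (s • Sh v) x y) :=
    h2.mul_left (Real.exp (-s))
  have h4 : (fun b : ℕ => Real.exp (-s) * (((b.factorial : ℝ)⁻¹) • (s • Sh v) ^ b) x y) =
      fun a : ℕ => po s a * Sh (a • v) x y := by
    funext a
    rw [smul_pow, Sh_pow]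
    simp only [Matrix.smul_apply, smul_eq_mul, po]
    ring
  rw [h4] at h3
  exact h3

omit [Fintype G] in
theorem Sh_apply (v x y : G) : Sh v x y = if y = x + v then 1 else 0 := rfl

theorem PW_nonneg {s : ℝ} (hs : 0 ≤ s) (v x y : G) : 0 ≤ PW s v x y :=
  (PW_hasSum s v x y).nonneg fun a => mul_nonneg (po_nonneg hs a) (Sh_nonneg _ x y)

theorem Sh_row (v x : G) : ∑ y, Sh v x y = 1 := by
  simp [Sh_apply]

/-- Row sums of the Poisson walk. -/
theorem PW_row (s : ℝ) (v x : G) : ∑ y, PW s v x y = 1 := by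
  have h : HasSum (fun a : ℕ => ∑ y, po s a * Sh (a • v) x y) (∑ y, PW s v x y) :=
    hasSum_sum fun y _ => PW_hasSum s v x y
  have h2 : (fun a : ℕ => ∑ y, po s a * Sh (a • v) x y) = po s := by
    funext a
    rw [← mul_sum, Sh_row, mul_one]
  rw [h2] at h
  exact h.unique (po_hasSum s)

/-- `s (P (x, y - v) - P (x, y)) = ∑ po a (a - s) [y = x + a v]`. -/
theorem PW_diff (s : ℝ) (v x y : G) :
    HasSum (fun a : ℕ => po s a * ((a : ℝ) - s) * Sh (a • v) x y)
      (s * PW s v x (y - v) - s * PW s v x y) := by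
  have h1 := (PW_hasSum s v x (y - v)).mul_left s
  have h2 := (PW_hasSum s v x y).mul_left s
  have h3 : HasSum (fun a : ℕ => (a : ℝ) * po s a * Sh (a • v) x y)
      (s * PW s v x (y - v)) := by
    rw [← hasSum_nat_add_iff' 1]
    simp only [range_one, sum_singleton, Nat.cast_zero, zero_mul, sub_zero]
    have hf : (fun a : ℕ => ((a + 1 : ℕ) : ℝ) * po s (a + 1) * Sh ((a + 1) • v) x y) =
        fun a : ℕ => s * (po s a * Sh (a • v) x (y - v)) := by
      funext a
      have e := po_succ s a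
      have e2 : Sh ((a + 1) • v) x y = Sh (a • v) x (y - v) := by
        rw [Sh_apply, Sh_apply, succ_nsmul, ← add_assoc]
        simp only [sub_eq_iff_eq_add]
      rw [e2]
      push_cast
      rw [e]
      ring
    rw [hf]
    exact h1
  have h4 := h3.sub h2
  have hf : (fun a : ℕ => (a : ℝ) * po s a * Sh (a • v) x y - s * (po s a * Sh (a • v) x y)) =
      fun a : ℕ => po s a * ((a : ℝ) - s) * Sh (a • v) x y := by
    funext a
    ring
  rw [hf] at h4
  exact h4

/-- Total variation in the direction `v`. -/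
theorem PW_tv {s : ℝ} (hs : 0 < s) (v x : G) :
    ∑ y, |PW s v x (y - v) - PW s v x y| ≤ 1 / √s := by
  have hsq : (0 : ℝ) < √s := Real.sqrt_pos.2 hs
  obtain ⟨hsum, hle⟩ := po_absdev hs
  have hb : ∀ y : G, s * |PW s v x (y - v) - PW s v x y| ≤
      ∑' a : ℕ, po s a * |(a : ℝ) - s| * Sh (a • v) x y := by
    intro y
    have h1 := PW_diff s v x y
    have hs2 : Summable (fun a : ℕ => po s a * |(a : ℝ) - s| * Sh (a • v) x y) := by
      refine Summable.of_nonneg_of_le (fun a => mul_nonneg (mul_nonneg (po_nonneg hs.le a)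
        (abs_nonneg _)) (Sh_nonneg _ x y)) (fun a => ?_) hsum
      have : Sh (a • v) x y ≤ 1 := by
        rw [Sh_apply]
        split_ifs <;> norm_num
      calc po s a * |(a : ℝ) - s| * Sh (a • v) x y ≤ po s a * |(a : ℝ) - s| * 1 :=
            mul_le_mul_of_nonneg_left this (mul_nonneg (po_nonneg hs.le a) (abs_nonneg _))
        _ = _ := mul_one _
    have h2 : s * |PW s v x (y - v) - PW s v x y| =
        |s * PW s v x (y - v) - s * PW s v x y| := by
      rw [← mul_sub, abs_mul, abs_of_pos hs]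
    rw [h2, ← h1.tsum_eq]
    have habs : ∀ a : ℕ, ‖po s a * ((a : ℝ) - s) * Sh (a • v) x y‖ =
        po s a * |(a : ℝ) - s| * Sh (a • v) x y := by
      intro a
      rw [Real.norm_eq_abs, abs_mul, abs_mul, abs_of_nonneg (po_nonneg hs.le a),
        abs_of_nonneg (Sh_nonneg (a • v) x y)]
    have hn : Summable (fun a : ℕ => ‖po s a * ((a : ℝ) - s) * Sh (a • v) x y‖) := by
      simpa only [habs] using hs2
    have := norm_tsum_le_tsum_norm hn
    rw [Real.norm_eq_abs] at this
    simpa only [habs] using this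
  have hs2 : ∀ y : G, Summable (fun a : ℕ => po s a * |(a : ℝ) - s| * Sh (a • v) x y) := by
    intro y
    refine Summable.of_nonneg_of_le (fun a => mul_nonneg (mul_nonneg (po_nonneg hs.le a)
      (abs_nonneg _)) (Sh_nonneg _ x y)) (fun a => ?_) hsum
    have : Sh (a • v) x y ≤ 1 := by
      rw [Sh_apply]
      split_ifs <;> norm_num
    calc po s a * |(a : ℝ) - s| * Sh (a • v) x y ≤ po s a * |(a : ℝ) - s| * 1 :=
          mul_le_mul_of_nonneg_left this (mul_nonneg (po_nonneg hs.le a) (abs_nonneg _))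
      _ = _ := mul_one _
  have h3 : s * ∑ y, |PW s v x (y - v) - PW s v x y| ≤ √s := by
    rw [mul_sum]
    refine (sum_le_sum fun y _ => hb y).trans ?_
    rw [← Summable.tsum_finsetSum (fun y _ => hs2 y)]
    refine le_trans (le_of_eq ?_) hle
    refine tsum_congr fun a => ?_
    rw [← mul_sum, Sh_row, mul_one]
  rw [le_div_iff₀ hsq]
  have h4 : √s * √s = s := Real.mul_self_sqrt hs.le
  have h5 : √s * (√s * ∑ y, |PW s v x (y - v) - PW s v x y|) ≤ √s * 1 := by
    rw [← mul_assoc, h4, mul_one]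
    exact h3
  have h6 := le_of_mul_le_mul_left h5 hsq
  linarith

/-- Upper bound for the Poisson walk on a finite abelian group. -/
theorem PW_le {s : ℝ} (hs : 0 < s) (v x y : G) :
    PW s v x y ≤ 1 / (addOrderOf v : ℝ) + 1 / √s := by
  set n := addOrderOf v with hn
  have hn0 : 0 < n := addOrderOf_pos v
  have hinj : Set.InjOn (fun i : ℕ => y + i • v) (range n : Set ℕ) := by
    intro i hi j hj hij
    have h1 : i • v = j • v := add_left_cancel hij
    rw [coe_range, Set.mem_Iio] at hi hj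
    exact (nsmul_injOn_Iio_addOrderOf (x := v)) hi hj h1
  have htv := PW_tv hs v x
  -- the difference along the orbit
  have hstep : ∀ i ∈ range n, PW s v x y ≤ PW s v x (y + i • v) + 1 / √s := by
    intro i hi
    rw [mem_range] at hi
    have h1 : PW s v x y - PW s v x (y + i • v) =
        ∑ j ∈ range i, (PW s v x (y + (j + 1) • v - v) - PW s v x (y + (j + 1) • v)) := by
      clear hi
      induction i with
      | zero => simp
      | succ i ih =>
        rw [sum_range_succ, ← ih]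
        have e : y + (i + 1) • v - v = y + i • v := by
          rw [succ_nsmul]
          abel
        rw [e]
        ring
    have hinj2 : Set.InjOn (fun j : ℕ => y + (j + 1) • v) (range i : Set ℕ) := by
      intro j hj k hk hjk
      rw [coe_range, Set.mem_Iio] at hj hk
      have h2 : (j + 1) • v = (k + 1) • v := add_left_cancel hjk
      have := (nsmul_injOn_Iio_addOrderOf (x := v)) (Set.mem_Iio.2 (show j + 1 < n by omega))
        (Set.mem_Iio.2 (show k + 1 < n by omega)) h2
      omega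
    have h3 : ∑ j ∈ range i, |PW s v x (y + (j + 1) • v - v) - PW s v x (y + (j + 1) • v)| ≤
        ∑ z, |PW s v x (z - v) - PW s v x z| := by
      rw [← sum_image (f := fun z => |PW s v x (z - v) - PW s v x z|) hinj2]
      exact sum_le_univ_sum_of_nonneg fun z => abs_nonneg _
    have h4 : PW s v x y - PW s v x (y + i • v) ≤ 1 / √s := by
      rw [h1]
      exact ((le_abs_self _).trans (abs_sum_le_sum_abs _ _)).trans (h3.trans htv)
    linarith
  have h5 : (n : ℝ) * PW s v x y ≤ 1 + n * (1 / √s) := by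
    have h6 := sum_le_sum hstep
    rw [sum_const, card_range, nsmul_eq_mul, sum_add_distrib, sum_const, card_range,
      nsmul_eq_mul] at h6
    have h7 : ∑ i ∈ range n, PW s v x (y + i • v) ≤ 1 := by
      rw [← sum_image (f := fun z => PW s v x z) hinj, ← PW_row s v x]
      exact sum_le_univ_sum_of_nonneg fun z => PW_nonneg hs.le v x z
    linarith
  have hn' : (0 : ℝ) < n := by exact_mod_cast hn0
  have h8 : PW s v x y = (n * PW s v x y) / n := by field_simp
  rw [h8]
  refine (div_le_div_of_nonneg_right h5 hn'.le).trans (le_of_eq ?_)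
  field_simp

theorem HK_eq_PW (s : ℝ) (v : G) : HK s v = PW s v * PW s (-v) := by
  unfold HK PW
  rw [smul_mul_smul_comm, ← Real.exp_add]
  congr 2
  ring

/-- Row sums of the heat kernel. -/
theorem HK_row (s : ℝ) (v x : G) : ∑ y, HK s v x y = 1 := by
  rw [HK_eq_PW]
  simp only [Matrix.mul_apply]
  rw [sum_comm]
  simp only [← mul_sum, PW_row, mul_one]

/-- **Upper bound of the one-dimensional heat kernel.** -/
theorem HK_le {s : ℝ} (hs : 0 < s) (v x y : G) :
    HK s v x y ≤ 1 / (addOrderOf v : ℝ) + 1 / √s := by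
  rw [← HK_neg, HK_eq_PW, neg_neg, Matrix.mul_apply]
  calc ∑ z, PW s (-v) x z * PW s v z y
      ≤ ∑ z, PW s (-v) x z * (1 / (addOrderOf v : ℝ) + 1 / √s) :=
        sum_le_sum fun z _ => mul_le_mul_of_nonneg_left (PW_le hs v z y)
          (PW_nonneg hs.le _ x z)
    _ = _ := by rw [← sum_mul, PW_row, one_mul]

/-! ### Products over independent directions -/

/-- `A` only moves along the subgroup `H`. -/
def Supp (H : AddSubgroup G) (A : Matrix G G ℝ) : Prop := ∀ x y, A x y ≠ 0 → y - x ∈ H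

omit [DecidableEq G] in
theorem Supp.mul {H K : AddSubgroup G} {A B : Matrix G G ℝ} (hA : Supp H A) (hB : Supp K B) :
    Supp (H ⊔ K) (A * B) := by
  intro x y h
  rw [Matrix.mul_apply] at h
  obtain ⟨z, -, hz⟩ := exists_ne_zero_of_sum_ne_zero h
  have h1 := hA x z (left_ne_zero_of_mul hz)
  have h2 := hB z y (right_ne_zero_of_mul hz)
  have e : y - x = (z - x) + (y - z) := by abel
  rw [e]
  exact (H ⊔ K).add_mem ((le_sup_left : H ≤ H ⊔ K) h1) ((le_sup_right : K ≤ H ⊔ K) h2)

omit [DecidableEq G] in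
theorem Supp.mul_le {H K : AddSubgroup G} (hHK : Disjoint H K) {A B : Matrix G G ℝ}
    (hA : Supp H A) (hB : Supp K B) (_hA0 : Le 0 A) (hB0 : Le 0 B) {a b : ℝ}
    (ha : ∀ x y, A x y ≤ a) (hb : ∀ x y, B x y ≤ b) (ha0 : 0 ≤ a) (hb0 : 0 ≤ b) (x y : G) :
    (A * B) x y ≤ a * b := by
  rw [Matrix.mul_apply]
  by_cases h : ∃ z, A x z * B z y ≠ 0
  · obtain ⟨z, hz⟩ := h
    rw [sum_eq_single z]
    · exact mul_le_mul (ha x z) (hb z y) (hB0 z y) ha0
    · intro w _ hw
      by_contra hne
      apply hw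
      have h1 := hA x z (left_ne_zero_of_mul hz)
      have h2 := hB z y (right_ne_zero_of_mul hz)
      have h3 := hA x w (left_ne_zero_of_mul hne)
      have h4 := hB w y (right_ne_zero_of_mul hne)
      have h5 : w - z ∈ H := by
        have e : w - z = (w - x) - (z - x) := by abel
        rw [e]
        exact H.sub_mem h3 h1
      have h6 : w - z ∈ K := by
        have e : w - z = (y - z) - (y - w) := by abel
        rw [e]
        exact K.sub_mem h2 h4
      have h7 := (AddSubgroup.disjoint_def.1 hHK) h5 h6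
      exact sub_eq_zero.1 h7
    · intro hz2
      exact absurd (mem_univ z) hz2
  · push Not at h
    rw [sum_eq_zero fun z _ => h z]
    exact mul_nonneg ha0 hb0

theorem PW_supp (s : ℝ) (v : G) : Supp (AddSubgroup.zmultiples v) (PW s v) := by
  intro x y h
  by_contra hne
  apply h
  have h1 := PW_hasSum s v x y
  have h2 : (fun a : ℕ => po s a * Sh (a • v) x y) = fun _ => 0 := by
    funext a
    rw [Sh_apply, if_neg, mul_zero]
    intro e
    apply hne
    rw [e, add_sub_cancel_left]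
    exact AddSubgroup.nsmul_mem_zmultiples v a
  rw [h2] at h1
  exact h1.unique hasSum_zero

theorem HK_supp (s : ℝ) (v : G) : Supp (AddSubgroup.zmultiples v) (HK s v) := by
  rw [HK_eq_PW]
  have h := (PW_supp s v).mul (PW_supp s (-v))
  rw [AddSubgroup.zmultiples_neg, sup_idem] at h
  exact h

/-- **Three independent directions.** -/
theorem HK3_le {s : ℝ} (hs : 0 < s) (v : Fin 3 → G) {n : ℕ} (hn : 0 < n)
    (hord : ∀ i, n ≤ addOrderOf (v i))
    (h01 : Disjoint (AddSubgroup.zmultiples (v 0)) (AddSubgroup.zmultiples (v 1)))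
    (h012 : Disjoint (AddSubgroup.zmultiples (v 0) ⊔ AddSubgroup.zmultiples (v 1))
      (AddSubgroup.zmultiples (v 2))) (x y : G) :
    (HK s (v 0) * HK s (v 1) * HK s (v 2)) x y ≤ (1 / (n : ℝ) + 1 / √s) ^ 3 := by
  have hn' : (0 : ℝ) < n := by exact_mod_cast hn
  have hsq : (0 : ℝ) < √s := Real.sqrt_pos.2 hs
  set M : ℝ := 1 / (n : ℝ) + 1 / √s with hM
  have hM0 : 0 ≤ M := by positivity
  have hb : ∀ i x y, HK s (v i) x y ≤ M := by
    intro i x y
    refine (HK_le hs (v i) x y).trans ?_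
    have : (1 : ℝ) / (addOrderOf (v i) : ℝ) ≤ 1 / n :=
      one_div_le_one_div_of_le hn' (by exact_mod_cast hord i)
    linarith
  have h1 := Supp.mul_le h01 (HK_supp s (v 0)) (HK_supp s (v 1)) (HK_nonneg hs.le _)
    (HK_nonneg hs.le _) (hb 0) (hb 1) hM0 hM0
  have h2 := Supp.mul_le h012 ((HK_supp s (v 0)).mul (HK_supp s (v 1))) (HK_supp s (v 2))
    ((HK_nonneg hs.le _).mul_nonneg (HK_nonneg hs.le _)) (HK_nonneg hs.le _) h1 (hb 2)
    (mul_nonneg hM0 hM0) hM0 x y
  refine h2.trans (le_of_eq ?_)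
  ring

end Shift

end

end Vale.Agent.P361.LRO.Bloch.Ker
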