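import Vale.Agent.P361.LRO.Energy.PB
import Vale.Agent.P361.B.Sub

/-! # P361 LRO, stage 3: local comparison with the free region `Q` (helper348)

`⟨W⟩ ≤ log tr_Q e^{B + W} - log tr_Q e^{B} + G` for observables `W` of a region `Q`, `B` = exponent of
the free region `Q` (fields included, any fields), `G` = `β` times the number of boundary bonds. -/

namespace Vale.Agent.P361.LRO.Energy

open Matrix Finset
open scoped ComplexOrder Kronecker

set_option linter.unusedSectionVars false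

noncomputable section

variable {V : Type} [Fintype V] [DecidableEq V] {Q : Finset V}

/-- configurations inside `Q`, all up outside -/
def inQ (Q : Finset V) (q : ({x // ¬ x ∉ Q}) → Fin 2) : Cfg V := splitQ Q (0, q)

theorem inQ_in (q : ({x // ¬ x ∉ Q}) → Fin 2) {x : V} (hx : ¬ x ∉ Q) : inQ Q q x = q ⟨x, hx⟩ :=
  splitQ_in (0, q) hx

theorem inQ_injective : Function.Injective (inQ Q) := by
  intro s t h
  have := (splitQ Q).injective h
  exact (Prod.mk.inj this).2

/-- an operator which acts on `Q` only -/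
def OnQ (Q : Finset V) (A : Matrix (Cfg V) (Cfg V) ℂ) : Prop :=
  ∀ s t q q', A (splitQ Q (s, q)) (splitQ Q (t, q')) = if s = t then A (inQ Q q) (inQ Q q') else 0

theorem onQ_add {A B : Matrix (Cfg V) (Cfg V) ℂ} (hA : OnQ Q A) (hB : OnQ Q B) : OnQ Q (A + B) := by
  intro s t q q'
  simp only [Matrix.add_apply, hA s t q q', hB s t q q']
  split_ifs <;> simp

theorem onQ_smul (c : ℂ) {A : Matrix (Cfg V) (Cfg V) ℂ} (hA : OnQ Q A) : OnQ Q (c • A) := by
  intro s t q q'
  simp only [Matrix.smul_apply, hA s t q q']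
  split_ifs <;> simp

theorem onQ_sub {A B : Matrix (Cfg V) (Cfg V) ℂ} (hA : OnQ Q A) (hB : OnQ Q B) : OnQ Q (A - B) := by
  intro s t q q'
  simp only [Matrix.sub_apply, hA s t q q', hB s t q q']
  split_ifs <;> simp

theorem onQ_neg {A : Matrix (Cfg V) (Cfg V) ℂ} (hA : OnQ Q A) : OnQ Q (-A) := by
  intro s t q q'
  simp only [Matrix.neg_apply, hA s t q q']
  split_ifs <;> simp

theorem onQ_sum {κ : Type*} (s : Finset κ) {A : κ → Matrix (Cfg V) (Cfg V) ℂ} (hA : ∀ k ∈ s, OnQ Q (A k)) :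
    OnQ Q (∑ k ∈ s, A k) := by
  classical
  induction s using Finset.induction_on with
  | empty =>
    intro s t q q'
    simp
  | insert a s ha ih =>
    rw [Finset.sum_insert ha]
    exact onQ_add (hA a (Finset.mem_insert_self _ _)) (ih fun k hk => hA k (Finset.mem_insert_of_mem hk))

theorem splitQ_eq_iff' (s t : ({x // x ∉ Q}) → Fin 2) (q q' : ({x // ¬ x ∉ Q}) → Fin 2) :
    splitQ Q (s, q) = splitQ Q (t, q') ↔ s = t ∧ inQ Q q = inQ Q q' := by
  rw [(splitQ Q).injective.eq_iff, inQ_injective.eq_iff, Prod.mk.injEq]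

theorem onQ_one : OnQ Q (1 : Matrix (Cfg V) (Cfg V) ℂ) := by
  intro s t q q'
  simp only [Matrix.one_apply, splitQ_eq_iff']
  split_ifs <;> simp_all

theorem onQ_mul {A B : Matrix (Cfg V) (Cfg V) ℂ} (hA : OnQ Q A) (hB : OnQ Q B) : OnQ Q (A * B) := by
  intro s t q q'
  have key : ∀ s t q q', (A * B) (splitQ Q (s, q)) (splitQ Q (t, q')) =
      if s = t then ∑ r : ({x // ¬ x ∉ Q}) → Fin 2, A (inQ Q q) (inQ Q r) * B (inQ Q r) (inQ Q q') else 0 := by
    intro s t q q'
    rw [Matrix.mul_apply, ← (splitQ Q).sum_comp, Fintype.sum_prod_type]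
    simp only [hA s _ q _, hB _ t _ q']
    by_cases hst : s = t
    · subst hst
      rw [if_pos rfl, Finset.sum_eq_single s]
      · simp
      · intro r _ hr
        simp [Ne.symm hr]
      · intro h; exact absurd (Finset.mem_univ _) h
    · rw [if_neg hst]
      refine Finset.sum_eq_zero fun r _ => ?_
      by_cases h1 : s = r
      · subst h1; simp [hst]
      · simp [h1]
  have h0 : (A * B) (inQ Q q) (inQ Q q') =
      ∑ r : ({x // ¬ x ∉ Q}) → Fin 2, A (inQ Q q) (inQ Q r) * B (inQ Q r) (inQ Q q') := by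
    have := key 0 0 q q'
    rwa [if_pos rfl] at this
  rw [key, h0]

theorem onQ_szM {x : V} (hx : x ∈ Q) : OnQ Q (szM x) := by
  have hx' : ¬ x ∉ Q := not_not.2 hx
  intro s t q q'
  simp only [szM, Matrix.diagonal_apply, splitQ_eq_iff', inQ_in _ hx', splitQ_in _ hx']
  by_cases h1 : s = t
  · simp [h1]
  · simp [h1]

theorem swap_comp_split' {x y : V} (hx : ¬ x ∉ Q) (hy : ¬ y ∉ Q) (s : ({x // x ∉ Q}) → Fin 2)
    (q : ({x // ¬ x ∉ Q}) → Fin 2) : splitQ Q (s, q) ∘ Equiv.swap x y =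
      splitQ Q (s, q ∘ Equiv.swap ⟨x, hx⟩ ⟨y, hy⟩) := by
  funext z
  by_cases hz : z ∉ Q
  · have h1 : z ≠ x := by rintro rfl; exact hx hz
    have h2 : z ≠ y := by rintro rfl; exact hy hz
    rw [splitQ_out _ hz, Function.comp_apply, Equiv.swap_apply_of_ne_of_ne h1 h2, splitQ_out _ hz]
  · rw [splitQ_in _ hz, Function.comp_apply]
    have h1 : Equiv.swap x y z = ((Equiv.swap (⟨x, hx⟩ : {x // ¬ x ∉ Q}) ⟨y, hy⟩ ⟨z, hz⟩ : {x // ¬ x ∉ Q}) : V) := by
      rw [Equiv.swap_apply_def, Equiv.swap_apply_def]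
      simp only [Subtype.mk.injEq]
      split_ifs <;> rfl
    have h2 : ¬ Equiv.swap x y z ∉ Q := by
      rw [h1]
      exact (Equiv.swap (⟨x, hx⟩ : {x // ¬ x ∉ Q}) ⟨y, hy⟩ ⟨z, hz⟩).property
    rw [splitQ_in _ h2]
    simp only [Function.comp_apply]
    congr 1
    exact Subtype.ext h1

theorem onQ_swapM {x y : V} (hx : x ∈ Q) (hy : y ∈ Q) : OnQ Q (swapM x y) := by
  have hx' : ¬ x ∉ Q := not_not.2 hx
  have hy' : ¬ y ∉ Q := not_not.2 hy
  intro s t q q'
  have h0 : inQ Q q ∘ Equiv.swap x y = inQ Q (q ∘ Equiv.swap ⟨x, hx'⟩ ⟨y, hy'⟩) :=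
    swap_comp_split' hx' hy' 0 q
  simp only [swapM, Matrix.of_apply, h0, swap_comp_split' hx' hy', splitQ_eq_iff']
  by_cases h1 : s = t
  · simp [h1]
  · simp [h1]

theorem onQ_hM {x y : V} (hx : x ∈ Q) (hy : y ∈ Q) : OnQ Q (hM x y) :=
  onQ_smul _ (onQ_sub onQ_one (onQ_swapM hx hy))

/-- the operator of the region `Q` -/
def resQ (Q : Finset V) (B : Matrix (Cfg V) (Cfg V) ℂ) :
    Matrix (({x // ¬ x ∉ Q}) → Fin 2) (({x // ¬ x ∉ Q}) → Fin 2) ℂ := B.submatrix (inQ Q) (inQ Q)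

theorem resQ_add (A B : Matrix (Cfg V) (Cfg V) ℂ) : resQ Q (A + B) = resQ Q A + resQ Q B := rfl

theorem resQ_isHermitian {B : Matrix (Cfg V) (Cfg V) ℂ} (hB : B.IsHermitian) :
    (resQ Q B).IsHermitian := hB.submatrix _

/-- `tr exp (A + B)` factorises -/
theorem tr_exp_off_on {A B : Matrix (Cfg V) (Cfg V) ℂ} (hA : OffQ Q A) (hAh : A.IsHermitian)
    (hB : OnQ Q B) (hBh : B.IsHermitian) :
    (trace (NormedSpace.exp (A + B))).re =
      (trace (NormedSpace.exp (A.submatrix (extQ Q) (extQ Q)))).re *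
        (trace (NormedSpace.exp (resQ Q B))).re := by
  have h1 : (A + B).submatrix (splitQ Q) (splitQ Q) =
      (A.submatrix (extQ Q) (extQ Q)) ⊗ₖ (1 : Matrix (({x // ¬ x ∉ Q}) → Fin 2) (({x // ¬ x ∉ Q}) → Fin 2) ℂ) +
      (1 : Matrix (({x // x ∉ Q}) → Fin 2) (({x // x ∉ Q}) → Fin 2) ℂ) ⊗ₖ resQ Q B := by
    ext ⟨s, q⟩ ⟨t, q'⟩
    rw [Matrix.submatrix_apply, Matrix.add_apply, hA s t q q', hB s t q q', Matrix.add_apply,
      Matrix.kroneckerMap_apply, Matrix.kroneckerMap_apply, Matrix.one_apply, Matrix.one_apply,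
      Matrix.submatrix_apply, resQ, Matrix.submatrix_apply]
    split_ifs <;> simp
  rw [← trace_exp_submatrix (splitQ Q), h1,
    Vale.Agent.P361.B.trace_exp_kron (hAh.submatrix (extQ Q)) (resQ_isHermitian hBh)]
  rw [Complex.ofReal_re, trace_exp_re (hAh.submatrix (extQ Q)), trace_exp_re (resQ_isHermitian hBh),
    Fintype.sum_prod_type, Finset.sum_mul_sum]
  simp only [Real.exp_add]

/-- **Local comparison.** -/
theorem local_cmp {A B W Y : Matrix (Cfg V) (Cfg V) ℂ} (hA : OffQ Q A) (hAh : A.IsHermitian)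
    (hB : OnQ Q B) (hBh : B.IsHermitian) (hW : OnQ Q W) (hWh : W.IsHermitian)
    (hY : Y.PosSemidef) {G : ℝ} (hG : (((G : ℂ) • (1 : Matrix (Cfg V) (Cfg V) ℂ)) - Y).PosSemidef) :
    ex (A + B - Y) W ≤ Real.log (trace (NormedSpace.exp (resQ Q (B + W)))).re -
      Real.log (trace (NormedSpace.exp (resQ Q B))).re + G := by
  have hYh : Y.IsHermitian := hY.1
  have hXh : (A + B - Y).IsHermitian := (hAh.add hBh).sub hYh
  have hPB := peierls_bogoliubov hXh hWh
  have hup : (trace (NormedSpace.exp (A + B - Y + W))).re ≤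
      (trace (NormedSpace.exp (A.submatrix (extQ Q) (extQ Q)))).re *
        (trace (NormedSpace.exp (resQ Q (B + W)))).re := by
    rw [← tr_exp_off_on hA hAh (onQ_add hB hW) (hBh.add hWh)]
    refine trace_exp_mono (hXh.add hWh) (hAh.add (hBh.add hWh)) ?_
    have e : A + (B + W) - (A + B - Y + W) = Y := by abel
    rw [e]
    exact hY
  have hlow : Real.exp (-G) * ((trace (NormedSpace.exp (A.submatrix (extQ Q) (extQ Q)))).re *
        (trace (NormedSpace.exp (resQ Q B))).re) ≤ (trace (NormedSpace.exp (A + B - Y))).re := by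
    rw [← tr_exp_off_on hA hAh hB hBh, ← trace_exp_add_smul_one]
    refine trace_exp_mono ((hAh.add hBh).add (smul_real_isHermitian Matrix.isHermitian_one _)) hXh ?_
    have e : A + B - Y - (A + B + ((-G : ℝ) : ℂ) • (1 : Matrix (Cfg V) (Cfg V) ℂ)) =
        (G : ℂ) • (1 : Matrix (Cfg V) (Cfg V) ℂ) - Y := by
      push_cast
      module
    rw [e]
    exact hG
  have p1 := trace_exp_pos (hAh.submatrix (extQ Q))
  have p2 := trace_exp_pos (resQ_isHermitian (Q := Q) hBh)
  have p3 := trace_exp_pos (resQ_isHermitian (Q := Q) (hBh.add hWh))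
  have l1 := Real.log_le_log (trace_exp_pos (hXh.add hWh)) hup
  have l2 := Real.log_le_log (by positivity) hlow
  rw [Real.log_mul p1.ne' p3.ne'] at l1
  rw [Real.log_mul (Real.exp_pos _).ne' (by positivity), Real.log_exp,
    Real.log_mul p1.ne' p2.ne'] at l2
  unfold ex
  linarith

end

end Vale.Agent.P361.LRO.Energy
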