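import Vale.Agent.P361.LRO.Tw.Factor

/-!
P361, stage R1/R2, block (1'): moments of the block twist, scalar part.
-/

namespace Vale.Agent.P361.LRO.Bloch

open Finset MeasureTheory intervalIntegral

/-- One step: `κ ∫ (1-t)^(m+1) Z ≤ (m+1) ∫ (1-t)^m Z`. -/
theorem zint_step {ι : Type*} [Fintype ι] {c : ℝ} {p : ι → ℝ} (hc : 0 ≤ c)
    (hp0 : ∀ j, 0 ≤ p j) (hp1 : ∀ j, p j ≤ 1 / 2) (m : ℕ) :
    (∑ j, p j) * ∫ t in (-1 : ℝ)..1, (1 - t) ^ (m + 1) * zt c p t ≤
      (m + 1 : ℕ) * ∫ t in (-1 : ℝ)..1, (1 - t) ^ m * zt c p t := by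
  classical
  have hcz := continuous_zt c p
  set D : ℝ → ℝ := fun t => c * ∑ j, (∏ i ∈ univ.erase j, (1 - p i * (1 - t))) * p j with hD
  have hcD : Continuous D := by
    rw [hD]
    refine continuous_const.mul (continuous_finsetSum _ fun j _ => ?_)
    exact (continuous_finsetProd _ fun i _ => by fun_prop).mul continuous_const
  have hder : ∀ t, HasDerivAt (zt c p) (D t) t := fun t => hasDerivAt_zt c p t
  have hge : ∀ t ∈ Set.Icc (-1 : ℝ) 1, (∑ j, p j) * zt c p t ≤ D t := by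
    intro t ht
    rw [hD]
    simp only
    unfold zt
    rw [← mul_assoc, mul_comm (∑ j, p j) c, mul_assoc]
    refine mul_le_mul_of_nonneg_left ?_ hc
    rw [sum_mul]
    refine sum_le_sum fun j _ => ?_
    rw [← mul_prod_erase univ _ (mem_univ j)]
    have hf : ∀ i, 0 ≤ 1 - p i * (1 - t) := by
      intro i
      have := hp0 i
      have := hp1 i
      have := ht.1
      have := ht.2
      nlinarith
    have hprod : 0 ≤ ∏ i ∈ univ.erase j, (1 - p i * (1 - t)) := prod_nonneg fun i _ => hf i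
    have hle : 1 - p j * (1 - t) ≤ 1 := by
      have := hp0 j
      have := ht.2
      nlinarith
    have := mul_le_mul_of_nonneg_right hle hprod
    nlinarith [hp0 j]
  have hpow : ∀ t : ℝ, HasDerivAt (fun t : ℝ => (1 - t) ^ (m + 1))
      (-((m + 1 : ℕ) * (1 - t) ^ m)) t := by
    intro t
    have h1 : HasDerivAt (fun t : ℝ => 1 - t) (-1) t := by
      simpa using (hasDerivAt_id t).const_sub 1
    have h2 := h1.pow (m + 1)
    have h3 : -((m + 1 : ℕ) * (1 - t) ^ m) = ((m + 1 : ℕ) : ℝ) * (1 - t) ^ (m + 1 - 1) * -1 := by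
      rw [Nat.add_sub_cancel]; ring
    rw [h3]
    exact h2
  have hparts : ∫ t in (-1 : ℝ)..1, ((-((m + 1 : ℕ) * (1 - t) ^ m)) * zt c p t +
      (1 - t) ^ (m + 1) * D t) =
      (1 - 1) ^ (m + 1) * zt c p 1 - (1 - (-1)) ^ (m + 1) * zt c p (-1) := by
    have h : ∀ t ∈ Set.uIcc (-1 : ℝ) 1, HasDerivAt (fun t => (1 - t) ^ (m + 1) * zt c p t)
        ((-((m + 1 : ℕ) * (1 - t) ^ m)) * zt c p t + (1 - t) ^ (m + 1) * D t) t := by
      intro t _
      exact (hpow t).mul (hder t)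
    have hint : IntervalIntegrable (fun t => (-((m + 1 : ℕ) * (1 - t) ^ m)) * zt c p t +
        (1 - t) ^ (m + 1) * D t) volume (-1) 1 := by
      apply Continuous.intervalIntegrable
      fun_prop
    exact intervalIntegral.integral_eq_sub_of_hasDerivAt h hint
  have i1 : IntervalIntegrable (fun t => (-((m + 1 : ℕ) * (1 - t) ^ m)) * zt c p t)
      volume (-1) 1 := by
    apply Continuous.intervalIntegrable; fun_prop
  have i2 : IntervalIntegrable (fun t => (1 - t) ^ (m + 1) * D t) volume (-1) 1 := by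
    apply Continuous.intervalIntegrable; fun_prop
  rw [intervalIntegral.integral_add i1 i2] at hparts
  have e1 : ∫ t in (-1 : ℝ)..1, (-((m + 1 : ℕ) * (1 - t) ^ m)) * zt c p t =
      -((m + 1 : ℕ) * ∫ t in (-1 : ℝ)..1, (1 - t) ^ m * zt c p t) := by
    rw [← intervalIntegral.integral_const_mul, ← intervalIntegral.integral_neg]
    congr 1
    funext t
    ring
  rw [e1] at hparts
  have hmono : ∫ t in (-1 : ℝ)..1, (∑ j, p j) * ((1 - t) ^ (m + 1) * zt c p t) ≤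
      ∫ t in (-1 : ℝ)..1, (1 - t) ^ (m + 1) * D t := by
    refine intervalIntegral.integral_mono_on (by norm_num) ?_ i2 ?_
    · apply Continuous.intervalIntegrable; fun_prop
    · intro t ht
      have h1 := hge t ht
      have h2 : 0 ≤ (1 - t) ^ (m + 1) := pow_nonneg (by linarith [ht.2]) _
      nlinarith [mul_le_mul_of_nonneg_left h1 h2]
  rw [intervalIntegral.integral_const_mul] at hmono
  have hz : 0 ≤ zt c p (-1) := zt_nonneg hc hp0 hp1 le_rfl
  have hz2 : 0 ≤ (1 - (-1 : ℝ)) ^ (m + 1) * zt c p (-1) := mul_nonneg (by norm_num) hz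
  have hz3 : (1 - (1 : ℝ)) ^ (m + 1) * zt c p 1 = 0 := by simp
  linarith

/-- `κ^m ∫ (1-t)^m Z ≤ m! ∫ Z`. -/
theorem zint_pow {ι : Type*} [Fintype ι] {c : ℝ} {p : ι → ℝ} (hc : 0 ≤ c)
    (hp0 : ∀ j, 0 ≤ p j) (hp1 : ∀ j, p j ≤ 1 / 2) (m : ℕ) :
    (∑ j, p j) ^ m * ∫ t in (-1 : ℝ)..1, (1 - t) ^ m * zt c p t ≤
      (m.factorial : ℝ) * ∫ t in (-1 : ℝ)..1, zt c p t := by
  induction m with
  | zero => simp
  | succ m ih =>
    have hk : 0 ≤ ∑ j, p j := sum_nonneg fun j _ => hp0 j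
    have h1 := zint_step hc hp0 hp1 m
    have h2 := mul_le_mul_of_nonneg_left h1 (pow_nonneg hk m)
    have h3 := mul_le_mul_of_nonneg_left ih (Nat.cast_nonneg (α := ℝ) (m + 1))
    calc (∑ j, p j) ^ (m + 1) * ∫ t in (-1 : ℝ)..1, (1 - t) ^ (m + 1) * zt c p t
        = (∑ j, p j) ^ m * ((∑ j, p j) * ∫ t in (-1 : ℝ)..1, (1 - t) ^ (m + 1) * zt c p t) := by
          rw [pow_succ]; ring
      _ ≤ (∑ j, p j) ^ m * ((m + 1 : ℕ) * ∫ t in (-1 : ℝ)..1, (1 - t) ^ m * zt c p t) := h2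
      _ = ((m + 1 : ℕ) : ℝ) * ((∑ j, p j) ^ m * ∫ t in (-1 : ℝ)..1, (1 - t) ^ m * zt c p t) := by
          ring
      _ ≤ ((m + 1 : ℕ) : ℝ) * ((m.factorial : ℝ) * ∫ t in (-1 : ℝ)..1, zt c p t) := h3
      _ = ((m + 1).factorial : ℝ) * ∫ t in (-1 : ℝ)..1, zt c p t := by
          rw [Nat.factorial_succ]; push_cast; ring

variable {X : Type} [Fintype X] [DecidableEq X]

/-- **Moments of the block twist, `t`-form.** -/
theorem kap_int_t_pow {μ : Equiv.Perm X → ℝ} {θ : X → ℝ} (hμ : ∀ π, 0 ≤ μ π)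
    (hθ : ∀ x, 0 ≤ θ x) (hZ : 0 < ZZ μ θ) (hst : Stable μ θ) (b : Finset X) (m : ℕ) :
    KK μ θ (fun z => if z ∈ b then 1 else 0) ^ m *
        (∫ t in (-1 : ℝ)..1, (1 - t) ^ m * (FP μ θ b).eval t) ≤
      (m.factorial : ℝ) * ∫ t in (-1 : ℝ)..1, (FP μ θ b).eval t := by
  classical
  obtain ⟨ι, hι, p, hp0, hp1, hF⟩ := exists_factor (FP μ θ b) (by rw [FP_eval_one]; exact hZ)
    (FP_roots hμ hθ hZ hst b)
  rw [FP_eval_one] at hF
  have hd1 : HasDerivAt (fun t => (FP μ θ b).eval t) ((FP μ θ b).derivative.eval 1) 1 :=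
    (FP μ θ b).hasDerivAt 1
  have hd2 := hasDerivAt_zt (ZZ μ θ) p 1
  have hfun : (fun t => (FP μ θ b).eval t) = zt (ZZ μ θ) p := funext hF
  rw [hfun] at hd1
  have hd3 := hd1.unique hd2
  have hsum : ∑ j, p j = KK μ θ (fun z => if z ∈ b then 1 else 0) := by
    rw [KK_block, ← FP_deriv_one, hd3, eq_div_iff hZ.ne', mul_comm]
    congr 1
    refine sum_congr rfl fun j _ => ?_
    simp
  have h := zint_pow hZ.le hp0 hp1 m
  rw [hsum] at h
  simp only [← hF] at h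
  exact h

/-- **Moments of the block twist, angle form.** -/
theorem kap_int_pow {μ : Equiv.Perm X → ℝ} {θ : X → ℝ} (hμ : ∀ π, 0 ≤ μ π)
    (hθ : ∀ x, 0 ≤ θ x) (hZ : 0 < ZZ μ θ) (hst : Stable μ θ) (b : Finset X) (m : ℕ) :
    KK μ θ (fun z => if z ∈ b then 1 else 0) ^ m *
        (∫ φ in (0 : ℝ)..Real.pi, Real.sin φ * (1 - Real.cos φ) ^ m * Zf μ θ b φ) ≤
      (m.factorial : ℝ) * ∫ φ in (0 : ℝ)..Real.pi, Real.sin φ * Zf μ θ b φ := by
  have hsub : ∀ g : ℝ → ℝ, Continuous g →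
      (∫ φ in (0 : ℝ)..Real.pi, Real.sin φ * g (Real.cos φ)) = ∫ t in (-1 : ℝ)..1, g t := by
    intro g hg
    have h := integral_comp_mul_deriv (a := 0) (b := Real.pi) (f := Real.cos)
      (f' := fun φ => -Real.sin φ) (g := g) (fun x _ => Real.hasDerivAt_cos x)
      (by fun_prop) hg
    rw [Real.cos_zero, Real.cos_pi, integral_symm (-1 : ℝ) 1] at h
    have h2 : (∫ φ in (0 : ℝ)..Real.pi, (g ∘ Real.cos) φ * -Real.sin φ) =
        - ∫ φ in (0 : ℝ)..Real.pi, Real.sin φ * g (Real.cos φ) := by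
      rw [← intervalIntegral.integral_neg]
      refine integral_congr fun φ _ => ?_
      simp only [Function.comp]
      ring
    rw [h2] at h
    linarith
  have hc : Continuous fun t : ℝ => (FP μ θ b).eval t := (FP μ θ b).continuous
  have h1 := hsub (fun t => (FP μ θ b).eval t) hc
  have h2 := hsub (fun t => (1 - t) ^ m * (FP μ θ b).eval t) (by fun_prop)
  simp only [FP_eval_cos] at h1 h2
  have h3 := kap_int_t_pow hμ hθ hZ hst b m
  rw [← h1, ← h2] at h3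
  simpa only [mul_assoc] using h3

end Vale.Agent.P361.LRO.Bloch
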