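import Vale.Agent.P361.LRO.NetODE

/-!
Averages over sets of nodes and the energy of the pairs between them.
-/

namespace Vale.Agent.P361.LRO.Bloch

open Finset _root_.P361.LRO

noncomputable section

variable {X : Type*} [Fintype X]

/-- Mean of `a` over `A`. -/
def avg (A : Finset X) (a : X → ℝ) : ℝ := (∑ u ∈ A, a u) / A.card

/-- Energy of the pairs between `A` and `B`. -/
def prE (c : X → X → ℝ) (A B : Finset X) (a : X → ℝ) : ℝ :=
  ∑ u ∈ A, ∑ v ∈ B, c u v * (a u - a v) ^ 2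

omit [Fintype X] in
theorem prE_nonneg {c : X → X → ℝ} (hc : ∀ u v, 0 ≤ c u v) (A B : Finset X) (a : X → ℝ) :
    0 ≤ prE c A B a :=
  sum_nonneg fun _ _ => sum_nonneg fun _ _ => mul_nonneg (hc _ _) (sq_nonneg _)

omit [Fintype X] in
/-- The averages over two sets of nodes. -/
theorem pair_avg {c : X → X → ℝ} {m : ℝ} (hm0 : 0 ≤ m) (A B : Finset X)
    (hm : ∀ u ∈ A, ∀ v ∈ B, m ≤ c u v) (hA : A.Nonempty) (hB : B.Nonempty) (a : X → ℝ) :
    m * A.card * B.card * (avg A a - avg B a) ^ 2 ≤ prE c A B a := by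
  have hA' : (0 : ℝ) < A.card := by exact_mod_cast hA.card_pos
  have hB' : (0 : ℝ) < B.card := by exact_mod_cast hB.card_pos
  have h1 : m * ∑ u ∈ A, ∑ v ∈ B, (a u - a v) ^ 2 ≤ prE c A B a := by
    rw [prE, mul_sum]
    refine sum_le_sum fun u hu => ?_
    rw [mul_sum]
    exact sum_le_sum fun v hv => mul_le_mul_of_nonneg_right (hm u hu v hv) (sq_nonneg _)
  have h2 : (∑ q ∈ A ×ˢ B, (a q.1 - a q.2)) ^ 2 ≤
      (A ×ˢ B).card * ∑ q ∈ A ×ˢ B, (a q.1 - a q.2) ^ 2 := sq_sum_le_card_mul_sum_sq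
  have h3 : ∑ q ∈ A ×ˢ B, (a q.1 - a q.2) = A.card * B.card * (avg A a - avg B a) := by
    rw [sum_product]
    simp only [sum_sub_distrib, sum_const, nsmul_eq_mul, avg]
    rw [← mul_sum]
    field_simp
  have h4 : ∑ q ∈ A ×ˢ B, (a q.1 - a q.2) ^ 2 = ∑ u ∈ A, ∑ v ∈ B, (a u - a v) ^ 2 := by
    rw [sum_product]
  rw [h3, h4, card_product] at h2
  push_cast at h2
  have h5 : (A.card : ℝ) * B.card * (avg A a - avg B a) ^ 2 ≤
      ∑ u ∈ A, ∑ v ∈ B, (a u - a v) ^ 2 := by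
    have h6 : (0 : ℝ) < (A.card : ℝ) * B.card := by positivity
    have h7 : ((A.card : ℝ) * B.card) * ((A.card : ℝ) * B.card * (avg A a - avg B a) ^ 2) ≤
        ((A.card : ℝ) * B.card) * ∑ u ∈ A, ∑ v ∈ B, (a u - a v) ^ 2 := by
      calc _ = ((A.card : ℝ) * B.card * (avg A a - avg B a)) ^ 2 := by ring
        _ ≤ _ := h2
    exact le_of_mul_le_mul_left h7 h6
  calc _ = m * ((A.card : ℝ) * B.card * (avg A a - avg B a) ^ 2) := by ring
    _ ≤ m * ∑ u ∈ A, ∑ v ∈ B, (a u - a v) ^ 2 := mul_le_mul_of_nonneg_left h5 hm0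
    _ ≤ _ := h1

omit [Fintype X] in
/-- Deviation from the mean of `B`, seen from the nodes of `A`. -/
theorem pair_dev {c : X → X → ℝ} {m : ℝ} (hm0 : 0 ≤ m) (A B : Finset X)
    (hm : ∀ u ∈ A, ∀ v ∈ B, m ≤ c u v) (hB : B.Nonempty) (a : X → ℝ) :
    m * B.card * ∑ u ∈ A, (a u - avg B a) ^ 2 ≤ prE c A B a := by
  have hB' : (0 : ℝ) < B.card := by exact_mod_cast hB.card_pos
  rw [prE, mul_sum]
  refine sum_le_sum fun u hu => ?_
  have h1 : (∑ v ∈ B, (a u - a v)) ^ 2 ≤ B.card * ∑ v ∈ B, (a u - a v) ^ 2 :=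
    sq_sum_le_card_mul_sum_sq
  have h2 : ∑ v ∈ B, (a u - a v) = B.card * (a u - avg B a) := by
    rw [sum_sub_distrib, sum_const, nsmul_eq_mul, avg]
    field_simp
  rw [h2] at h1
  have h3 : (B.card : ℝ) * (a u - avg B a) ^ 2 ≤ ∑ v ∈ B, (a u - a v) ^ 2 := by
    have : (B.card : ℝ) * (B.card * (a u - avg B a) ^ 2) ≤
        B.card * ∑ v ∈ B, (a u - a v) ^ 2 := by
      calc _ = (B.card * (a u - avg B a)) ^ 2 := by ring
        _ ≤ _ := h1
    exact le_of_mul_le_mul_left this hB'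
  calc m * B.card * (a u - avg B a) ^ 2 = m * (B.card * (a u - avg B a) ^ 2) := by ring
    _ ≤ m * ∑ v ∈ B, (a u - a v) ^ 2 := mul_le_mul_of_nonneg_left h3 hm0
    _ = ∑ v ∈ B, m * (a u - a v) ^ 2 := by rw [mul_sum]
    _ ≤ _ := sum_le_sum fun v hv => mul_le_mul_of_nonneg_right (hm u hu v hv) (sq_nonneg _)

open Classical in
/-- Energies of a family of pairs of sets with bounded overlap. -/
theorem family_le {ι : Type*} {c : X → X → ℝ} (hc : ∀ u v, 0 ≤ c u v) (I : Finset ι)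
    (A B : ι → Finset X) (M : ℕ)
    (hM : ∀ u v, (I.filter fun i => u ∈ A i ∧ v ∈ B i).card ≤ M) (a : X → ℝ) :
    ∑ i ∈ I, prE c (A i) (B i) a ≤ 2 * M * netK c a := by
  have h1 : ∀ i ∈ I, prE c (A i) (B i) a =
      ∑ u, ∑ v, (if u ∈ A i ∧ v ∈ B i then c u v * (a u - a v) ^ 2 else 0) := by
    intro i _
    rw [prE]
    have : ∀ u, ∑ v, (if u ∈ A i ∧ v ∈ B i then c u v * (a u - a v) ^ 2 else 0) =
        if u ∈ A i then ∑ v ∈ B i, c u v * (a u - a v) ^ 2 else 0 := by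
      intro u
      by_cases hu : u ∈ A i
      · simp only [hu, true_and, if_true]
        rw [← sum_filter]
        congr 1
        ext v; simp
      · simp [hu]
    simp only [this]
    rw [← sum_filter]
    congr 1
    ext u; simp
  rw [sum_congr rfl h1, sum_comm]
  have h2 : 2 * (M : ℝ) * netK c a = ∑ u, ∑ v, M * (c u v * (a u - a v) ^ 2) := by
    rw [netK]
    simp only [mul_sum]
    refine sum_congr rfl fun u _ => sum_congr rfl fun v _ => ?_
    ring
  rw [h2]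
  refine sum_le_sum fun u _ => ?_
  rw [sum_comm]
  refine sum_le_sum fun v _ => ?_
  rw [← sum_filter, sum_const, nsmul_eq_mul]
  exact mul_le_mul_of_nonneg_right (by exact_mod_cast hM u v) (mul_nonneg (hc u v) (sq_nonneg _))

open Classical in
/-- Energies of a family of pairs `(A_i, B_i)` with disjoint `A_i`. -/
theorem family_disj {ι : Type*} {c : X → X → ℝ} (hc : ∀ u v, 0 ≤ c u v) (I : Finset ι)
    (A B : ι → Finset X)
    (hA : ∀ u, ∀ i ∈ I, ∀ j ∈ I, u ∈ A i → u ∈ A j → i = j) (a : X → ℝ) :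
    ∑ i ∈ I, prE c (A i) (B i) a ≤ 2 * netK c a := by
  have := family_le hc I A B 1 (by
    intro u v
    rw [card_le_one]
    intro i hi j hj
    rw [mem_filter] at hi hj
    exact hA u i hi.1 j hj.1 hi.2.1 hj.2.1) a
  simpa using this

end

end Vale.Agent.P361.LRO.Bloch
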