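import Vale.Agent.P361.LRO.Bloch.LongLoc

/-!
P361, long windows: the weights `qq` of the walk.  Monotone, linear; removal of the node letters.
-/

namespace Vale.Agent.P361.LRO.Bloch.QNode

open Finset Matrix

set_option linter.unusedSectionVars false

noncomputable section

variable {V : Type} [Fintype V] [DecidableEq V]

theorem qq_append (w w' : List (Lt V)) (q : V → ℕ → ℝ) : qq (w ++ w') q = qq w' (qq w q) := by
  induction w generalizing q with
  | nil => rfl
  | cons l w ih => simp only [List.cons_append, qq]; exact ih _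

theorem stq_mono {l : Lt V} (hl : Ok l) {q q' : V → ℕ → ℝ} (h : ∀ y j, q y j ≤ q' y j) (y : V)
    (j : ℕ) : stq l q y j ≤ stq l q' y j := by
  cases l with
  | gate a b p =>
    simp only [stq]
    split_ifs with h1 h2
    · have := mul_le_mul_of_nonneg_left (h y j) (by linarith [hl.2] : 0 ≤ 1 - p)
      linarith
    · exact add_le_add (mul_le_mul_of_nonneg_left (h y j) (by linarith [hl.2]))
        (mul_le_mul_of_nonneg_left (h _ _) hl.1)
    · exact h y j
  | node z t =>
    simp only [stq]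
    split_ifs with h1
    · exact mul_le_mul_of_nonneg_left (h y j)
        (div_nonneg (by linarith [hl.2]) (by linarith [hl.1]))
    · exact h y j

theorem stq_smul (l : Lt V) (c : ℝ) (q : V → ℕ → ℝ) :
    stq l (fun y j => c * q y j) = fun y j => c * stq l q y j := by
  funext y j
  cases l with
  | gate a b p =>
    simp only [stq]
    split_ifs <;> ring
  | node z t =>
    simp only [stq]
    split_ifs <;> ring

theorem qq_nonneg {w : List (Lt V)} (hw : ∀ l ∈ w, Ok l) {q : V → ℕ → ℝ}
    (hq : ∀ y j, 0 ≤ q y j) (y : V) (j : ℕ) : 0 ≤ qq w q y j := by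
  induction w generalizing q with
  | nil => exact hq y j
  | cons l w ih =>
    simp only [qq]
    exact ih (fun l' hl' => hw l' (by simp [hl'])) fun y j => stq_nonneg (hw l (by simp)) hq y j

theorem qq_mono {w : List (Lt V)} (hw : ∀ l ∈ w, Ok l) {q q' : V → ℕ → ℝ}
    (h : ∀ y j, q y j ≤ q' y j) (y : V) (j : ℕ) : qq w q y j ≤ qq w q' y j := by
  induction w generalizing q q' with
  | nil => exact h y j
  | cons l w ih =>
    simp only [qq]
    exact ih (fun l' hl' => hw l' (by simp [hl'])) fun y j => stq_mono (hw l (by simp)) h y j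

theorem qq_smul (w : List (Lt V)) (c : ℝ) (q : V → ℕ → ℝ) :
    qq w (fun y j => c * q y j) = fun y j => c * qq w q y j := by
  induction w generalizing q with
  | nil => rfl
  | cons l w ih =>
    simp only [qq]
    rw [stq_smul, ih]

/-- `qq w ≥ r • qq w'` on nonnegative weights. -/
def Dom (r : ℝ) (w w' : List (Lt V)) : Prop :=
  ∀ q : V → ℕ → ℝ, (∀ y j, 0 ≤ q y j) → ∀ y j, r * qq w' q y j ≤ qq w q y j

theorem Dom.refl (w : List (Lt V)) : Dom 1 w w := fun _ _ y j => by rw [one_mul]

theorem Dom.append {r1 r2 : ℝ} (hr2 : 0 ≤ r1) {w1 w1' w2 w2' : List (Lt V)}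
    (hw1' : ∀ l ∈ w1', Ok l) (hw2 : ∀ l ∈ w2, Ok l)
    (h1 : Dom r1 w1 w1') (h2 : Dom r2 w2 w2') : Dom (r1 * r2) (w1 ++ w2) (w1' ++ w2') := by
  intro q hq y j
  rw [qq_append, qq_append]
  have h3 : ∀ y j, r1 * qq w1' q y j ≤ qq w1 q y j := h1 q hq
  have h4 := qq_mono hw2 h3 y j
  rw [qq_smul] at h4
  refine le_trans ?_ h4
  have h5 := h2 (qq w1' q) (fun y j => qq_nonneg hw1' hq y j) y j
  have h6 := mul_le_mul_of_nonneg_left h5 hr2
  linarith

/-- a list of node letters at distinct sites -/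
theorem qq_nodes {zs : List V} (hz : zs.Nodup) (t : V → ℝ) (q : V → ℕ → ℝ) (y : V) (j : ℕ) :
    qq (zs.map fun z => Lt.node z (t z)) q y j =
      (if y ∈ zs then (1 - t y) / (1 + t y) else 1) * q y j := by
  induction zs generalizing q with
  | nil => simp [qq]
  | cons z zs ih =>
    simp only [List.map_cons, qq]
    rw [ih (List.nodup_cons.1 hz).2]
    simp only [stq, List.mem_cons]
    have hzn := (List.nodup_cons.1 hz).1
    by_cases hy : y = z
    · subst hy
      rw [if_neg hzn]
      simp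
    · by_cases hy2 : y ∈ zs
      · simp [hy2, hy]
      · simp [hy2, hy]

theorem Dom.nodes {zs : List V} (hz : zs.Nodup) {t : V → ℝ} {t0 : ℝ}
    (ht : ∀ z, 0 ≤ t z ∧ t z ≤ t0) :
    Dom ((1 - t0) / (1 + t0)) (zs.map fun z => Lt.node z (t z)) [] := by
  intro q hq y j
  rw [qq_nodes hz]
  simp only [qq]
  refine mul_le_mul_of_nonneg_right ?_ (hq y j)
  have h0 : 0 ≤ t0 := (ht y).1.trans (ht y).2
  split_ifs
  · rw [div_le_div_iff₀ (by linarith) (by linarith [(ht y).1])]
    nlinarith [(ht y).1, (ht y).2]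
  · rw [div_le_one (by linarith)]
    linarith

/-- Layers: gates followed by nodes. -/
theorem Dom.layers {r : ℝ} (hr : 0 ≤ r) (ls : List (List (Lt V) × List (Lt V)))
    (h1 : ∀ l ∈ ls, ∀ a ∈ l.1, Ok a) (h2 : ∀ l ∈ ls, ∀ a ∈ l.2, Ok a)
    (h3 : ∀ l ∈ ls, Dom r l.2 []) :
    Dom (r ^ ls.length) (ls.flatMap fun l => l.1 ++ l.2) (ls.flatMap fun l => l.1) := by
  induction ls with
  | nil => simp only [List.length_nil, pow_zero, List.flatMap_nil]; exact Dom.refl []
  | cons l ls ih =>
    simp only [List.length_cons, List.flatMap_cons]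
    have h4 : Dom (1 * r) (l.1 ++ l.2) (l.1 ++ []) :=
      Dom.append zero_le_one (h1 l (by simp)) (h2 l (by simp)) (Dom.refl _) (h3 l (by simp))
    rw [List.append_nil, one_mul] at h4
    have h5 := ih (fun a ha => h1 a (by simp [ha])) (fun a ha => h2 a (by simp [ha]))
      fun a ha => h3 a (by simp [ha])
    rw [pow_succ, mul_comm]
    refine Dom.append hr (h1 l (by simp)) ?_ h4 h5
    intro a ha
    rw [List.mem_flatMap] at ha
    obtain ⟨l', hl', ha⟩ := ha
    rcases List.mem_append.1 ha with ha | ha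
    · exact h1 l' (by simp [hl']) a ha
    · exact h2 l' (by simp [hl']) a ha

/-- The loss factor of `m ≤ N` layers with slice parameters `≤ 1 / (2N)`. -/
theorem loss_ge {N m : ℕ} (hN : 1 ≤ N) (hm : m ≤ N) :
    Real.exp (-2) ≤ ((1 - 1 / (2 * (N : ℝ))) / (1 + 1 / (2 * (N : ℝ)))) ^ m := by
  have hNr : (1:ℝ) ≤ N := by exact_mod_cast hN
  have hNp : (0:ℝ) < N := by linarith
  set u : ℝ := 1 / (2 * (N : ℝ)) with hu
  have hu0 : 0 < u := by positivity
  have hu1 : u ≤ 1 / 2 := by
    rw [hu, div_le_div_iff₀ (by positivity) (by norm_num)]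
    linarith
  have h1 : 0 < (1 - u) / (1 + u) := div_pos (by linarith) (by linarith)
  have h2 : (1 - u) / (1 + u) ≤ 1 := by
    rw [div_le_one (by linarith)]; linarith
  have h3 : ((1 - u) / (1 + u)) ^ N ≤ ((1 - u) / (1 + u)) ^ m :=
    pow_le_pow_of_le_one h1.le h2 hm
  refine le_trans ?_ h3
  have h4 : Real.exp (-(4 * u)) ≤ (1 - u) / (1 + u) := by
    rw [Real.exp_neg, ← one_div, div_le_div_iff₀ (Real.exp_pos _) (by linarith), one_mul]
    have h5 : 1 + 4 * u + (4 * u) ^ 2 / 2 ≤ Real.exp (4 * u) :=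
      Real.quadratic_le_exp_of_nonneg (by positivity)
    have h6 : (1 - u) * (1 + 4 * u + (4 * u) ^ 2 / 2) ≤ (1 - u) * Real.exp (4 * u) :=
      mul_le_mul_of_nonneg_left h5 (by linarith)
    refine le_trans ?_ h6
    nlinarith [mul_nonneg hu0.le hu0.le, mul_nonneg (mul_nonneg hu0.le hu0.le) hu0.le]
  calc Real.exp (-2) = (Real.exp (-(4 * u))) ^ N := by
        rw [← Real.exp_nat_mul]
        congr 1
        rw [hu]
        field_simp
        norm_num
    _ ≤ _ := pow_le_pow_left₀ (Real.exp_pos _).le h4 N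

end

end Vale.Agent.P361.LRO.Bloch.QNode
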