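import Vale.Agent.P361.B.Crude

/-! # P361, stage 3: zero field from a small positive field (helper348)

`Tr e^{-β H} ≤ 2 (n |Λ| + 1) Tr e^{-β' H - t N}`, `t = (β - β') n / (6 L²)`, on the cube of side `L`. -/

namespace Vale.Agent.P361.B

open Matrix Finset Filter Topology
open scoped ComplexOrder Kronecker

set_option linter.unusedSectionVars false

noncomputable section

namespace Su2

variable {n : ℕ} {Λ : Finset Site}

theorem dot_jM {x y : Λ} (hxy : x ≠ y) : Commute (H.dotOp n x y) (jM n Λ) := by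
  have h := H.comm_dot_mode (n := n) hxy (fun _ => (1 : ℂ))
  rw [← jM_eq_mode, sub_self, zero_smul] at h
  exact sub_eq_zero.1 h

theorem hT_jM : Commute (hT n Λ) (jM n Λ) := by
  unfold hT
  refine Commute.smul_left ?_ _
  refine Commute.sum_left _ _ _ fun x _ => Commute.sum_left _ _ _ fun y _ => ?_
  split_ifs with h
  · have hxy : x ≠ y := by
      rintro rfl
      exact isNN_irrefl _ h
    exact ((Commute.one_left _).smul_left _).sub_left (dot_jM hxy)
  · exact Commute.zero_left _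

theorem hT_jP : Commute (hT n Λ) (jP n Λ) := by
  have h := congrArg Matrix.conjTranspose (hT_jM (n := n) (Λ := Λ)).eq
  rw [Matrix.conjTranspose_mul, Matrix.conjTranspose_mul, jM_conj, hT_isHermitian.eq] at h
  exact h.symm

theorem hT_num : Commute (hT n Λ) (numOp n Λ) := by
  have h := jP_jM (n := n) (Λ := Λ)
  have e : numOp n Λ = (1 / 2 : ℂ) • (jM n Λ * jP n Λ + (((n * Λ.card : ℕ) : ℂ) •
      (1 : Matrix (Λ → Fin (n + 1)) (Λ → Fin (n + 1)) ℂ)) - jP n Λ * jM n Λ) := by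
    rw [h]
    module
  rw [e]
  exact (((hT_jM.mul_right hT_jP).add_right ((Commute.one_right _).smul_right _)).sub_right
    (hT_jP.mul_right hT_jM)).smul_right _

theorem hT_casX : Commute (hT n Λ) (casX n Λ) := by
  rw [casX_eq]
  exact (hT_num.mul_right (((Commute.one_right _).smul_right _).sub_right hT_num)).sub_right
    (hT_jM.mul_right hT_jP)

section Rec

variable {A : Matrix (Λ → Fin (n + 1)) (Λ → Fin (n + 1)) ℂ}

theorem rec_pow_succ (hA : A * jM n Λ = jM n Λ * A) (j k : ℕ) :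
    trace (A * pj n Λ (j + 1) * casX n Λ ^ (k + 1)) - trace (A * pj n Λ j * casX n Λ ^ (k + 1)) =
      (((j : ℂ) + 1) * ((n * Λ.card : ℕ) - (j : ℂ))) *
      (trace (A * pj n Λ (j + 1) * casX n Λ ^ k) - trace (A * pj n Λ j * casX n Λ ^ k)) := by
  have g1 : A * pj n Λ (j + 1) * casX n Λ =
      (((j : ℂ) + 1) * ((n * Λ.card : ℕ) - (j : ℂ))) • (A * pj n Λ (j + 1)) -
        jM n Λ * (A * pj n Λ j) * jP n Λ := by
    rw [Matrix.mul_assoc, pj_casX_succ, Matrix.mul_sub, Matrix.mul_smul]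
    congr 1
    rw [← Matrix.mul_assoc, ← Matrix.mul_assoc, hA, Matrix.mul_assoc (jM n Λ) A]
  have g2 : A * pj n Λ j * casX n Λ =
      (((j : ℂ) + 1) * ((n * Λ.card : ℕ) - (j : ℂ))) • (A * pj n Λ j) -
        A * pj n Λ j * (jP n Λ * jM n Λ) := by
    rw [Matrix.mul_assoc, pj_casX, Matrix.mul_sub, Matrix.mul_smul, ← Matrix.mul_assoc A]
  have h1 := trace_step _ _ _ _ g1 k
  have h2 := trace_step _ _ _ _ g2 k
  rw [trace_move _ _ _ _ (casX_pow_comm k)] at h1
  rw [h1, h2]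
  ring

theorem rec_pow (hA : A * jM n Λ = jM n Λ * A) (j k : ℕ) :
    trace (A * pj n Λ (j + 1) * casX n Λ ^ k) - trace (A * pj n Λ j * casX n Λ ^ k) =
      (((j : ℂ) + 1) * ((n * Λ.card : ℕ) - (j : ℂ))) ^ k *
      (trace (A * pj n Λ (j + 1)) - trace (A * pj n Λ j)) := by
  induction k with
  | zero => simp
  | succ k ih => rw [rec_pow_succ hA, ih, pow_succ]; ring

theorem rec_exp (hA : A * jM n Λ = jM n Λ * A) (j : ℕ) (a : ℂ) :
    trace (A * pj n Λ (j + 1) * NormedSpace.exp (a • casX n Λ)) -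
      trace (A * pj n Λ j * NormedSpace.exp (a • casX n Λ)) =
      Complex.exp (a * (((j : ℂ) + 1) * ((n * Λ.card : ℕ) - (j : ℂ)))) *
      (trace (A * pj n Λ (j + 1)) - trace (A * pj n Λ j)) := by
  have h1 := (hasSum_trace_exp (A * pj n Λ (j + 1)) (casX n Λ) a).sub
    (hasSum_trace_exp (A * pj n Λ j) (casX n Λ) a)
  have h2 : HasSum (fun k : ℕ => ((k.factorial : ℂ)⁻¹) *
      ((a * (((j : ℂ) + 1) * ((n * Λ.card : ℕ) - (j : ℂ)))) ^ k))
      (Complex.exp (a * (((j : ℂ) + 1) * ((n * Λ.card : ℕ) - (j : ℂ))))) := by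
    rw [Complex.exp_eq_exp_ℂ]
    have := NormedSpace.exp_series_hasSum_exp' (𝕂 := ℂ)
      (a * (((j : ℂ) + 1) * ((n * Λ.card : ℕ) - (j : ℂ))))
    simpa only [smul_eq_mul] using this
  have h3 := h2.mul_right (trace (A * pj n Λ (j + 1)) - trace (A * pj n Λ j))
  refine h1.unique ?_
  refine hasSum_congr_fun h3 ?_
  intro k
  have h4 := rec_pow hA j k
  rw [mul_pow]
  linear_combination (-((k.factorial : ℂ)⁻¹ * a ^ k)) * h4

theorem rec_zero (a : ℂ) :
    trace (A * pj n Λ 0 * NormedSpace.exp (a • casX n Λ)) = trace (A * pj n Λ 0) := by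
  have h1 := hasSum_trace_exp (A * pj n Λ 0) (casX n Λ) a
  have h2 : HasSum (fun k : ℕ => ((k.factorial : ℂ)⁻¹) * (a ^ k *
      trace (A * pj n Λ 0 * casX n Λ ^ k))) (trace (A * pj n Λ 0)) := by
    have h3 := hasSum_single (f := fun k : ℕ => ((k.factorial : ℂ)⁻¹) * (a ^ k *
      trace (A * pj n Λ 0 * casX n Λ ^ k))) 0 (fun k hk => by
        obtain ⟨k', rfl⟩ := Nat.exists_eq_succ_of_ne_zero hk
        simp only [Nat.succ_eq_add_one]
        rw [pow_succ' (casX n Λ), ← Matrix.mul_assoc, Matrix.mul_assoc A, p0_casX]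
        simp)
    simpa using h3
  exact h1.unique h2

theorem rec_le (hA : A * jM n Λ = jM n Λ * A) (hpos : ∀ i, 0 ≤ (trace (A * pj n Λ i)).re) (j : ℕ)
    (s : ℝ) : (trace (A * pj n Λ j * NormedSpace.exp (((-s : ℝ) : ℂ) • casX n Λ))).re ≤
      ∑ i ∈ Finset.range (j + 1), Real.exp (-s * cj n Λ i) * (trace (A * pj n Λ i)).re := by
  induction j with
  | zero =>
    rw [rec_zero]
    simp [cj]
  | succ j ih =>
    rw [Finset.sum_range_succ]
    have h := congrArg Complex.re (rec_exp hA j ((-s : ℝ) : ℂ))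
    rw [Complex.sub_re] at h
    have e1 : Complex.exp (((-s : ℝ) : ℂ) * (((j : ℂ) + 1) * ((n * Λ.card : ℕ) - (j : ℂ)))) =
        ((Real.exp (-s * cj n Λ (j + 1)) : ℝ) : ℂ) := by
      rw [Complex.ofReal_exp]
      congr 1
      unfold cj
      push_cast
      ring
    rw [e1, Complex.re_ofReal_mul, Complex.sub_re] at h
    have h3 : 0 ≤ Real.exp (-s * cj n Λ (j + 1)) * (trace (A * pj n Λ j)).re :=
      mul_nonneg (Real.exp_pos _).le (hpos j)
    linarith

end Rec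

/-! ### Spin flip -/

/-- the spin flip on configurations -/
def rv (n : ℕ) (Λ : Finset Site) : (Λ → Fin (n + 1)) ≃ (Λ → Fin (n + 1)) :=
  Equiv.piCongrRight fun _ => Fin.revPerm

theorem rv_apply (σ : Λ → Fin (n + 1)) (x : Λ) : rv n Λ σ x = Fin.rev (σ x) := rfl

theorem siteOp_rv (x : Λ) (M : Matrix (Fin (n + 1)) (Fin (n + 1)) ℂ) :
    (siteOp x M).submatrix (rv n Λ) (rv n Λ) = siteOp x (M.submatrix Fin.rev Fin.rev) := by
  ext σ τ
  rw [Matrix.submatrix_apply]
  refine (H.siteOp_apply x M _ _).trans ((H.siteOp_apply x (M.submatrix Fin.rev Fin.rev) σ τ).symm ▸ ?_)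
  simp only [rv_apply, Matrix.submatrix_apply]
  congr 1
  refine Finset.prod_congr rfl fun y _ => ?_
  rw [Matrix.one_apply, Matrix.one_apply, rv_apply, rv_apply]
  exact if_congr Fin.rev_inj rfl rfl

theorem spinZ_rev : (spinZ n).submatrix Fin.rev Fin.rev = -spinZ n := by
  ext i j
  rw [Matrix.submatrix_apply, Matrix.neg_apply, spinZ, Matrix.diagonal_apply, Matrix.diagonal_apply]
  by_cases h : i = j
  · subst h
    rw [if_pos rfl, if_pos rfl, Fin.val_rev]
    have : (i : ℕ) ≤ n := Nat.lt_succ_iff.1 i.2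
    have e : ((n + 1 - ((i : ℕ) + 1) : ℕ) : ℂ) = (n : ℂ) - (i : ℕ) := by
      rw [Nat.add_sub_add_right, Nat.cast_sub this]
    rw [e]
    ring
  · rw [if_neg (fun h' => h (Fin.rev_inj.1 h')), if_neg h, neg_zero]

theorem spinLower_rev : (spinLower n).submatrix Fin.rev Fin.rev = (spinLower n)ᴴ := by
  ext i j
  rw [Matrix.submatrix_apply, Matrix.conjTranspose_apply, spinLower, Matrix.of_apply, Matrix.of_apply,
    Fin.val_rev, Fin.val_rev]
  have hi : (i : ℕ) ≤ n := Nat.lt_succ_iff.1 i.2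
  have hj : (j : ℕ) ≤ n := Nat.lt_succ_iff.1 j.2
  by_cases h : (j : ℕ) = (i : ℕ) + 1
  · rw [if_pos (by omega), if_pos h]
    simp only [RCLike.star_def, Complex.conj_ofReal]
    congr 2
    have e : ((n + 1 - ((i : ℕ) + 1) : ℕ) : ℝ) = (n : ℝ) - (i : ℕ) := by
      rw [Nat.add_sub_add_right, Nat.cast_sub hi]
    rw [e, h]
    push_cast
    ring
  · rw [if_neg (by omega), if_neg h]
    simp

theorem spinLower_rev' : ((spinLower n)ᴴ).submatrix Fin.rev Fin.rev = spinLower n := by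
  rw [← spinLower_rev, Matrix.submatrix_submatrix]
  ext i j
  simp

theorem dot_rv (x y : Λ) : (H.dotOp n x y).submatrix (rv n Λ) (rv n Λ) = H.dotOp n x y := by
  rw [H.dotOp_eq]
  simp only [Matrix.submatrix_add, Matrix.submatrix_smul, Pi.add_apply, Pi.smul_apply,
    ← Matrix.submatrix_mul_equiv _ _ (rv n Λ) (rv n Λ) (rv n Λ), siteOp_rv, spinZ_rev, spinLower_rev,
    spinLower_rev']
  have e : ∀ z : Λ, siteOp z (-spinZ n) = -H.oZ n z := by
    intro z
    have := H.siteOp_smul z (-1 : ℂ) (spinZ n)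
    rw [neg_one_smul, neg_one_smul] at this
    exact this
  rw [e, e, neg_mul_neg, add_comm (H.oM n x * H.oP n y)]

theorem hT_rv : (hT n Λ).submatrix (rv n Λ) (rv n Λ) = hT n Λ := by
  ext σ τ
  have hd : ∀ x y : Λ, H.dotOp n x y (rv n Λ σ) (rv n Λ τ) = H.dotOp n x y σ τ := by
    intro x y
    exact congrFun (congrFun (dot_rv x y) σ) τ
  have h1 : (1 : Matrix (Λ → Fin (n + 1)) (Λ → Fin (n + 1)) ℂ) (rv n Λ σ) (rv n Λ τ) =
      (1 : Matrix (Λ → Fin (n + 1)) (Λ → Fin (n + 1)) ℂ) σ τ := by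
    simp only [Matrix.one_apply, (rv n Λ).injective.eq_iff]
  rw [Matrix.submatrix_apply]
  unfold hT
  simp only [Matrix.smul_apply, Matrix.sum_apply]
  congr 1
  refine Finset.sum_congr rfl fun x _ => Finset.sum_congr rfl fun y _ => ?_
  split_ifs
  · simp only [Matrix.sub_apply, Matrix.smul_apply, hd, h1]
  · rfl

theorem cntS_rv (σ : Λ → Fin (n + 1)) : cntS (rv n Λ σ) + cntS σ = n * Λ.card := by
  unfold cntS
  rw [← Finset.sum_add_distrib]
  have : ∀ x : Λ, ((rv n Λ σ x : Fin (n + 1)) : ℕ) + (σ x : ℕ) = n := by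
    intro x
    rw [rv_apply, Fin.val_rev]
    have := Nat.lt_succ_iff.1 (σ x).2
    omega
  simp only [this, Finset.sum_const, Finset.card_univ, Fintype.card_coe, smul_eq_mul]
  ring

theorem tr_flip (b : ℂ) {i : ℕ} (hi : i ≤ n * Λ.card) :
    trace (NormedSpace.exp (b • hT n Λ) * pj n Λ i) =
      trace (NormedSpace.exp (b • hT n Λ) * pj n Λ (n * Λ.card - i)) := by
  have hexp : (NormedSpace.exp (b • hT n Λ)).submatrix (rv n Λ) (rv n Λ) =
      NormedSpace.exp (b • hT n Λ) := by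
    rw [← exp_submatrix_equiv]
    congr 1
    rw [Matrix.submatrix_smul, Pi.smul_apply, Pi.smul_apply, hT_rv]
  have key : ∀ j, trace (NormedSpace.exp (b • hT n Λ) * pj n Λ j) =
      ∑ σ, if cntS σ = j then NormedSpace.exp (b • hT n Λ) σ σ else 0 := by
    intro j
    rw [pj, Matrix.trace]
    refine Finset.sum_congr rfl fun σ _ => ?_
    rw [Matrix.diag_apply, Matrix.mul_diagonal]
    split_ifs <;> simp
  rw [key, key, ← (rv n Λ).sum_comp]
  refine Finset.sum_congr rfl fun σ _ => ?_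
  have h1 := congrFun (congrFun hexp σ) σ
  rw [Matrix.submatrix_apply] at h1
  rw [h1]
  have h2 := cntS_rv σ
  have h3 : (cntS (rv n Λ σ) = i) ↔ (cntS σ = n * Λ.card - i) := by omega
  simp only [h3]

theorem exp_num (t : ℝ) : NormedSpace.exp (((-t : ℝ) : ℂ) • numOp n Λ) =
    ∑ i ∈ Finset.range (n * Λ.card + 1), ((Real.exp (-t * i) : ℝ) : ℂ) • pj n Λ i := by
  have e1 : ((-t : ℝ) : ℂ) • numOp n Λ =
      diagonal fun σ : Λ → Fin (n + 1) => ((-t : ℝ) : ℂ) * ((cntS σ : ℕ) : ℂ) := by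
    rw [numOp_eq_diagonal, ← Matrix.diagonal_smul]
    rfl
  rw [e1, Matrix.exp_diagonal]
  ext σ τ
  rw [Matrix.sum_apply]
  by_cases h : σ = τ
  · subst h
    rw [Matrix.diagonal_apply_eq]
    simp only [Matrix.smul_apply, pj, Matrix.diagonal_apply_eq, smul_eq_mul, mul_ite, mul_one, mul_zero]
    rw [Finset.sum_ite_eq, if_pos (by
      rw [Finset.mem_range]
      have := cntS_le σ
      omega)]
    rw [Pi.exp_def]
    simp only
    rw [← Complex.exp_eq_exp_ℂ, Complex.ofReal_exp]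
    push_cast
    rfl
  · rw [Matrix.diagonal_apply_ne _ h]
    symm
    refine Finset.sum_eq_zero fun i _ => ?_
    rw [Matrix.smul_apply, pj, Matrix.diagonal_apply_ne _ h, smul_zero]

theorem Zt_eq_sum (b t : ℝ) : Zt n Λ b t = ∑ i ∈ Finset.range (n * Λ.card + 1),
    Real.exp (-t * i) * (trace (NormedSpace.exp (((-b : ℝ) : ℂ) • hT n Λ) * pj n Λ i)).re := by
  have hc : Commute (((-b : ℝ) : ℂ) • hT n Λ) (((-t : ℝ) : ℂ) • numOp n Λ) :=
    (hT_num.smul_left _).smul_right _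
  have e1 : -((b : ℂ) • hT n Λ + (t : ℂ) • numOp n Λ) =
      ((-b : ℝ) : ℂ) • hT n Λ + ((-t : ℝ) : ℂ) • numOp n Λ := by
    push_cast
    module
  unfold Zt
  rw [e1, Matrix.exp_add_of_commute _ _ hc, exp_num, Matrix.mul_sum, Matrix.trace_sum, Complex.re_sum]
  refine Finset.sum_congr rfl fun i _ => ?_
  rw [Matrix.mul_smul, Matrix.trace_smul, smul_eq_mul, Complex.re_ofReal_mul]

theorem exp_cj_le {s : ℝ} (hs : 0 ≤ s) {i : ℕ} (hi : i ≤ n * Λ.card) :
    Real.exp (-s * cj n Λ i) ≤ Real.exp (-(s * (n * Λ.card / 2)) * i) +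
      Real.exp (-(s * (n * Λ.card / 2)) * ((n * Λ.card - i : ℕ) : ℝ)) := by
  have hi' : (i : ℝ) ≤ (n : ℝ) * Λ.card := by exact_mod_cast hi
  have hi0 : (0 : ℝ) ≤ i := Nat.cast_nonneg i
  rw [Nat.cast_sub hi]
  push_cast
  unfold cj
  rcases le_total (i : ℝ) ((n : ℝ) * Λ.card / 2) with h | h
  · refine le_trans (Real.exp_le_exp.2 ?_) (le_add_of_nonneg_right (Real.exp_pos _).le)
    have : (n : ℝ) * Λ.card / 2 * i ≤ i * ((n : ℝ) * Λ.card + 1 - i) := by nlinarith
    have := mul_le_mul_of_nonneg_left this hs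
    linarith
  · refine le_trans (Real.exp_le_exp.2 ?_) (le_add_of_nonneg_left (Real.exp_pos _).le)
    have h2 : (n : ℝ) * Λ.card / 2 * ((n : ℝ) * Λ.card - i) ≤ i * ((n : ℝ) * Λ.card + 1 - i) := by
      nlinarith
    have := mul_le_mul_of_nonneg_left h2 hs
    linarith

end Su2

open Su2 in
theorem su2_sum {n : ℕ} {Λ : Finset Site} {A : Matrix (Λ → Fin (n + 1)) (Λ → Fin (n + 1)) ℂ}
    (hAj : A * jM n Λ = jM n Λ * A) (hpos : ∀ i, 0 ≤ (trace (A * pj n Λ i)).re) (s : ℝ) :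
    (trace (A * NormedSpace.exp (((-s : ℝ) : ℂ) • casX n Λ))).re ≤
      ((n : ℝ) * Λ.card + 1) * ∑ i ∈ Finset.range (n * Λ.card + 1),
        Real.exp (-s * cj n Λ i) * (trace (A * pj n Λ i)).re := by
  have h2 : (trace (A * NormedSpace.exp (((-s : ℝ) : ℂ) • casX n Λ))).re =
      ∑ j ∈ Finset.range (n * Λ.card + 1),
        (trace (A * pj n Λ j * NormedSpace.exp (((-s : ℝ) : ℂ) • casX n Λ))).re := by
    rw [← Complex.re_sum, ← Matrix.trace_sum, ← Finset.sum_mul, ← Finset.mul_sum, sum_pj,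
      Matrix.mul_one]
  rw [h2]
  calc _ ≤ ∑ _j ∈ Finset.range (n * Λ.card + 1), ∑ i ∈ Finset.range (n * Λ.card + 1),
        Real.exp (-s * cj n Λ i) * (trace (A * pj n Λ i)).re := by
        refine Finset.sum_le_sum fun j hj => (rec_le hAj hpos j s).trans ?_
        refine Finset.sum_le_sum_of_subset_of_nonneg ?_ fun i _ _ =>
          mul_nonneg (Real.exp_pos _).le (hpos i)
        intro i hi
        rw [Finset.mem_range] at hi hj ⊢
        omega
    _ = _ := by
        rw [Finset.sum_const, Finset.card_range, nsmul_eq_mul]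
        push_cast
        rfl

open Su2 in
theorem su2_flip {n : ℕ} {Λ : Finset Site} (b' t : ℝ) : ∑ i ∈ Finset.range (n * Λ.card + 1),
      Real.exp (-t * ((n * Λ.card - i : ℕ) : ℝ)) *
        (trace (NormedSpace.exp (((-b' : ℝ) : ℂ) • hT n Λ) * pj n Λ i)).re = Zt n Λ b' t := by
  rw [Zt_eq_sum, ← Finset.sum_range_reflect]
  refine Finset.sum_congr rfl fun i hi => ?_
  rw [Finset.mem_range] at hi
  have hi2 : i ≤ n * Λ.card := by omega
  have e1 : n * Λ.card + 1 - 1 - i = n * Λ.card - i := by omega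
  rw [e1]
  have e2 : n * Λ.card - (n * Λ.card - i) = i := by omega
  rw [e2, tr_flip (((-b' : ℝ) : ℂ)) (i := i) hi2]

open Su2 in
theorem su2_T {n : ℕ} {Λ : Finset Site} {s : ℝ} (hs0 : 0 ≤ s) (b' : ℝ)
    (hpos : ∀ i, 0 ≤ (trace (NormedSpace.exp (((-b' : ℝ) : ℂ) • hT n Λ) * pj n Λ i)).re) :
    ∑ i ∈ Finset.range (n * Λ.card + 1), Real.exp (-s * cj n Λ i) *
      (trace (NormedSpace.exp (((-b' : ℝ) : ℂ) • hT n Λ) * pj n Λ i)).re ≤
      2 * Zt n Λ b' (s * (n * Λ.card / 2)) := by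
  have hflip := su2_flip (n := n) (Λ := Λ) b' (s * (n * Λ.card / 2))
  have hZ := Zt_eq_sum (n := n) (Λ := Λ) b' (s * (n * Λ.card / 2))
  calc _ ≤ ∑ i ∈ Finset.range (n * Λ.card + 1),
      (Real.exp (-(s * (n * Λ.card / 2)) * i) *
        (trace (NormedSpace.exp (((-b' : ℝ) : ℂ) • hT n Λ) * pj n Λ i)).re +
        Real.exp (-(s * (n * Λ.card / 2)) * ((n * Λ.card - i : ℕ) : ℝ)) *
        (trace (NormedSpace.exp (((-b' : ℝ) : ℂ) • hT n Λ) * pj n Λ i)).re) := by
        refine Finset.sum_le_sum fun i hi => ?_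
        rw [Finset.mem_range] at hi
        rw [← add_mul]
        exact mul_le_mul_of_nonneg_right (exp_cj_le hs0 (by omega)) (hpos i)
    _ = _ := by
        rw [Finset.sum_add_distrib, hflip, ← hZ]
        ring

open Su2 in
theorem su2_mono {n : ℕ} (hn : 0 < n) {L : ℕ} (hL : 0 < L) {b b' : ℝ} (hbb : b' ≤ b) {s : ℝ}
    (hs : s = (b - b') / (3 * (L : ℝ) ^ 5)) :
    Zt n (cube L) b 0 ≤ (trace (NormedSpace.exp (((-b' : ℝ) : ℂ) • hT n (cube L)) *
      NormedSpace.exp (((-s : ℝ) : ℂ) • casX n (cube L)))).re := by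
  have hLR : (0 : ℝ) < L := by exact_mod_cast hL
  have hs0 : 0 ≤ s := by rw [hs]; exact div_nonneg (by linarith) (by positivity)
  have hXh : (((-b' : ℝ) : ℂ) • hT n (cube L)).IsHermitian := by
    rw [Matrix.IsHermitian, Matrix.conjTranspose_smul, hT_isHermitian]
    simp
  have hch : (((-s : ℝ) : ℂ) • casX n (cube L)).IsHermitian := by
    rw [Matrix.IsHermitian, Matrix.conjTranspose_smul, casX_isHermitian]
    simp
  have hc : Commute (((-b' : ℝ) : ℂ) • hT n (cube L)) (((-s : ℝ) : ℂ) • casX n (cube L)) :=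
    (hT_casX.smul_left _).smul_right _
  rw [← Matrix.exp_add_of_commute _ _ hc]
  refine trace_exp_mono (expo_isHermitian' (n := n) (Λ := cube L) b 0) (hXh.add hch) ?_
  have e : ((-b' : ℝ) : ℂ) • hT n (cube L) + ((-s : ℝ) : ℂ) • casX n (cube L) -
      -((b : ℂ) • hT n (cube L) + ((0 : ℝ) : ℂ) • numOp n (cube L)) =
      (s : ℂ) • (((3 * (L : ℝ) ^ 5 : ℝ) : ℂ) • hT n (cube L) - casX n (cube L)) := by
    have e2 : ((b - b' : ℝ) : ℂ) = (s : ℂ) * ((3 * (L : ℝ) ^ 5 : ℝ) : ℂ) := by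
      rw [← Complex.ofReal_mul]
      congr 1
      rw [hs]
      field_simp
    rw [smul_sub, smul_smul, ← e2]
    push_cast
    module
  rw [e]
  exact (casX_le_hT hn L).smul (by simpa using hs0)

open Su2 in
/-- **Zero field from a small positive field.** -/
theorem Zt_su2 {n : ℕ} (hn : 0 < n) {L : ℕ} (hL : 0 < L) {b b' : ℝ} (hbb : b' ≤ b) :
    Zt n (cube L) b 0 ≤ 2 * ((n : ℝ) * (L : ℝ) ^ 3 + 1) *
      Zt n (cube L) b' ((b - b') * n / (6 * (L : ℝ) ^ 2)) := by
  have hLR : (0 : ℝ) < L := by exact_mod_cast hL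
  obtain ⟨s, hs⟩ : ∃ s : ℝ, s = (b - b') / (3 * (L : ℝ) ^ 5) := ⟨_, rfl⟩
  have hs0 : 0 ≤ s := by rw [hs]; exact div_nonneg (by linarith) (by positivity)
  have hcard : ((cube L).card : ℝ) = (L : ℝ) ^ 3 := by
    rw [cube_eq, card_cube]; push_cast; rfl
  have hXh : (((-b' : ℝ) : ℂ) • hT n (cube L)).IsHermitian := by
    rw [Matrix.IsHermitian, Matrix.conjTranspose_smul, hT_isHermitian]
    simp
  have hAj : NormedSpace.exp (((-b' : ℝ) : ℂ) • hT n (cube L)) * jM n (cube L) =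
      jM n (cube L) * NormedSpace.exp (((-b' : ℝ) : ℂ) • hT n (cube L)) := by
    open scoped Matrix.Norms.Operator in
    exact ((hT_jM.smul_left _).exp_left).eq
  have hpj : ∀ i, (pj n (cube L) i).PosSemidef := fun i => by
    unfold pj
    refine Matrix.PosSemidef.diagonal fun σ => ?_
    simp only [Pi.zero_apply]
    split_ifs <;> simp
  have hpos : ∀ i, 0 ≤ (trace (NormedSpace.exp (((-b' : ℝ) : ℂ) • hT n (cube L)) *
      pj n (cube L) i)).re := fun i => trace_exp_mul_nonneg hXh (hpj i)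
  have h1 := su2_mono hn hL hbb hs
  have h2 := su2_sum hAj hpos s
  have h3 := su2_T hs0 b' hpos
  have ht2 : s * (n * (cube L).card / 2) = (b - b') * n / (6 * (L : ℝ) ^ 2) := by
    rw [hcard, hs]
    field_simp
    ring
  rw [ht2] at h3
  rw [hcard] at h2
  have h4 := mul_le_mul_of_nonneg_left h3 (by positivity : 0 ≤ (n : ℝ) * (L : ℝ) ^ 3 + 1)
  linarith

end

end Vale.Agent.P361.B
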