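import Vale.Agent.P361.LRO.Bloch.TiltY

/-!
P361, stage 3, all spins (K2, `N = ∞`): the bounds of `TiltX`, `TiltY` for the state
`Tr (P e^{-β H} ·)`, `P` an entrywise nonnegative idempotent commuting with `H` (the symmetriser).
-/

namespace Vale.Agent.P361.LRO.Bloch.TX

open Finset Matrix

noncomputable section

variable {V : Type} [Fintype V] [DecidableEq V]

/-- Gibbs expectation with the projector `P`. -/
def gibP (P : MM V) (L : List (V × V)) (β : ℝ) (h : V → ℝ) (A : MM V) : ℝ :=
  trace (P * NormedSpace.exp (-β • ham L h) * A) / trace (P * NormedSpace.exp (-β • ham L h))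

/-- `ρ_x` in the state with the projector. -/
def rhoP (P : MM V) (L : List (V × V)) (β : ℝ) (h : V → ℝ) (x : V) : ℝ :=
  gibP P L β h ((1 / 2 : ℝ) • (1 - szM x))

theorem gibP_one_eq (L : List (V × V)) (β : ℝ) (h : V → ℝ) (A : MM V) :
    gibP 1 L β h A = gib L β h A := by
  unfold gibP gib
  rw [Matrix.one_mul]

theorem commute_exp {P : MM V} {L : List (V × V)} {h : V → ℝ} (hP : Commute P (ham L h)) (s : ℝ) :
    Commute P (NormedSpace.exp (-s • ham L h)) := by
  have h1 : Commute P (-s • ham L h) := hP.smul_right _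
  exact h1.exp_right

theorem expP_mul {P : MM V} {L : List (V × V)} {h : V → ℝ} (hPP : P * P = P)
    (hP : Commute P (ham L h)) {s t β : ℝ} (e : s + t = β) :
    (P * NormedSpace.exp (-s • ham L h)) * (P * NormedSpace.exp (-t • ham L h)) =
      P * NormedSpace.exp (-β • ham L h) := by
  have h1 := commute_exp hP s
  calc (P * NormedSpace.exp (-s • ham L h)) * (P * NormedSpace.exp (-t • ham L h)) =
      P * (NormedSpace.exp (-s • ham L h) * P) * NormedSpace.exp (-t • ham L h) := by
        simp only [Matrix.mul_assoc]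
    _ = P * (P * NormedSpace.exp (-s • ham L h)) * NormedSpace.exp (-t • ham L h) := by
        rw [h1.eq]
    _ = (P * P) * (NormedSpace.exp (-s • ham L h) * NormedSpace.exp (-t • ham L h)) := by
        simp only [Matrix.mul_assoc]
    _ = P * NormedSpace.exp (-β • ham L h) := by rw [hPP, exp_split L h e]

theorem expP_nonneg {P : MM V} (hP0 : Le 0 P) (L : List (V × V)) (h : V → ℝ) {s : ℝ}
    (hs : 0 ≤ s) : Le 0 (P * NormedSpace.exp (-s • ham L h)) :=
  hP0.zero_mul fun i j => (exp_ham L h hs).1 i j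

/-- The trace is positive if some diagonal entry of `P` is positive. -/
theorem traceP_pos {P : MM V} (hP0 : Le 0 P) (L : List (V × V)) (h : V → ℝ) {s : ℝ}
    (hs : 0 ≤ s) (σ : V → Fin 2) (hσ : 0 < P σ σ) :
    0 < trace (P * NormedSpace.exp (-s • ham L h)) := by
  have hE := exp_ham L h hs
  refine Finset.sum_pos' (fun i _ => expP_nonneg hP0 L h hs i i) ⟨σ, Finset.mem_univ _, ?_⟩
  rw [Matrix.diag_apply, Matrix.mul_apply]
  refine Finset.sum_pos' (fun j _ => mul_nonneg (hP0 σ j) (hE.1 j σ)) ⟨σ, Finset.mem_univ _, ?_⟩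
  exact mul_pos hσ (hE.2 σ)

/-- **The bound with the slice `cst κ b`**, `κ |b| ≤ K`, abstract: `A`, `B` entrywise nonnegative,
`A B = B A = W`. -/
theorem cstW_le {A B W : MM V} (hA0 : Le 0 A) (hB0 : Le 0 B) (hAB : A * B = W) (hBA : B * A = W)
    (hZ : 0 < trace W) {K η κ : ℝ} (b : Finset V) (hκ : 0 ≤ κ) (hK : κ * b.card ≤ K)
    (hη : 0 ≤ η) (hr : ∀ x, trace (W * diagonal (dn x)) ≤ η * trace W) {X : MM V} (hX : Le 0 X)
    {c : ℝ} (hc0 : 0 ≤ c) (hc : trace (W * X) ≤ c * trace W) :
    trace (layT (cst κ b) * A * X * B) ≤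
      Real.exp (K * η) * c * trace (layT (cst κ b) * A * B) := by
  set q := (1 + Real.tanh (κ / 2)) ^ b.card with hq
  have hq0 : 0 < q := pow_pos (by have := Real.neg_one_lt_tanh (κ / 2); linarith) _
  have hm : κ * trace (diagonal (nb b) * A * B) ≤ K * η * trace (A * B) := by
    have e1 : diagonal (nb b) = ∑ y ∈ b, diagonal (dn y) := by
      ext σ τ
      rw [Matrix.sum_apply]
      by_cases hst : σ = τ
      · subst hst
        simp only [Matrix.diagonal_apply_eq]
        rfl
      · simp only [Matrix.diagonal_apply_ne _ hst, Finset.sum_const_zero]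
    have e2 : trace (diagonal (nb b) * A * B) = ∑ y ∈ b, trace (A * B * diagonal (dn y)) := by
      rw [Matrix.mul_assoc, e1, Finset.sum_mul, Matrix.trace_sum]
      exact Finset.sum_congr rfl fun y _ => Matrix.trace_mul_comm _ _
    have e3 : ∀ y, trace (A * B * diagonal (dn y)) ≤ η * trace (A * B) := by
      intro y
      rw [hAB]
      exact hr y
    rw [e2]
    calc κ * ∑ y ∈ b, trace (A * B * diagonal (dn y)) ≤ κ * ∑ _y ∈ b, η * trace (A * B) :=
          mul_le_mul_of_nonneg_left (Finset.sum_le_sum fun y _ => e3 y) hκ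
      _ = κ * b.card * (η * trace (A * B)) := by
          rw [Finset.sum_const, nsmul_eq_mul]; ring
      _ ≤ K * (η * trace (A * B)) := by
          refine mul_le_mul_of_nonneg_right hK (mul_nonneg hη ?_)
          rw [hAB]; exact hZ.le
      _ = K * η * trace (A * B) := by ring
  have hcX : trace (A * X * B) ≤ c * trace (A * B) := by
    have h1 : trace (A * X * B) = trace (W * X) := by
      rw [Matrix.trace_mul_comm (A * X) B, ← Matrix.mul_assoc, hBA]
    rw [h1, hAB]
    exact hc
  have h2 := tiltX A B X (fun i j => hA0 i j) (fun i j => hB0 i j) (fun i j => hX i j) (nb b)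
    (nb_nonneg b) hκ hm hcX hc0
  rw [layT_cst]
  simp only [Matrix.smul_mul, Matrix.trace_smul, smul_eq_mul]
  calc q * _ ≤ q * _ := mul_le_mul_of_nonneg_left h2 hq0.le
    _ = _ := by ring

/-- Unequal spins: `≤ n_a + n_c`. -/
theorem gibP_neM {P : MM V} (hP0 : Le 0 P) (L : List (V × V)) (β : ℝ) (h : V → ℝ) (hβ : 0 ≤ β)
    (hZ : 0 < trace (P * NormedSpace.exp (-β • ham L h))) (a c : V) :
    gibP P L β h (neM a c) ≤ rhoP P L β h a + rhoP P L β h c := by
  unfold rhoP gibP
  rw [half_eq, half_eq, ← add_div, ← Matrix.trace_add, ← Matrix.mul_add, Matrix.diagonal_add]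
  refine div_le_div_of_nonneg_right ?_ hZ.le
  refine Le.trace ?_
  refine Le.mul_left ?_ (expP_nonneg hP0 L h hβ)
  intro i j
  unfold neM eqM
  by_cases hij : i = j
  · subst hij
    rw [Matrix.sub_apply, Matrix.one_apply_eq, Matrix.diagonal_apply_eq, Matrix.diagonal_apply_eq]
    unfold dn
    by_cases h1 : i a = i c
    · rw [if_pos h1, sub_self]
      split_ifs <;> norm_num
    · rw [if_neg h1, sub_zero]
      by_cases h2 : i a = 0
      · rw [if_pos h2, if_neg fun h3 => h1 (h2.trans h3.symm), zero_add]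
      · rw [if_neg h2]
        split_ifs <;> norm_num
  · rw [Matrix.sub_apply, Matrix.one_apply_ne hij, Matrix.diagonal_apply_ne _ hij,
      Matrix.diagonal_apply_ne _ hij]
    norm_num

/-- Positivity on positive semidefinite observables. -/
theorem traceP_psd {P : MM V} (hPs : Pᵀ = P) (hPP : P * P = P) (L : List (V × V)) (β : ℝ)
    (h : V → ℝ) (hP : Commute P (ham L h)) {X : MM V} (hX : X.PosSemidef) :
    0 ≤ trace (P * NormedSpace.exp (-β • ham L h) * X) := by
  set M := NormedSpace.exp (-(β / 2) • ham L h) * P with hM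
  have hs : (NormedSpace.exp (-(β / 2) • ham L h))ᵀ = NormedSpace.exp (-(β / 2) • ham L h) := by
    rw [← Matrix.exp_transpose, Bs.smul_ham_isSymm L (β / 2) h]
  have hMt : Mᴴ = P * NormedSpace.exp (-(β / 2) • ham L h) := by
    rw [Matrix.conjTranspose_eq_transpose_of_trivial, hM, Matrix.transpose_mul, hPs, hs]
  have h1 : Mᴴ * M = P * NormedSpace.exp (-β • ham L h) := by
    rw [hMt, hM]
    calc P * NormedSpace.exp (-(β / 2) • ham L h) * (NormedSpace.exp (-(β / 2) • ham L h) * P) =
        P * (NormedSpace.exp (-(β / 2) • ham L h) * NormedSpace.exp (-(β / 2) • ham L h)) * P := by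
          simp only [Matrix.mul_assoc]
      _ = P * NormedSpace.exp (-β • ham L h) * P := by
          rw [exp_split L h (β := β) (by ring)]
      _ = P * P * NormedSpace.exp (-β • ham L h) := by
          rw [Matrix.mul_assoc, (commute_exp hP β).symm.eq, ← Matrix.mul_assoc]
      _ = P * NormedSpace.exp (-β • ham L h) := by rw [hPP]
  rw [← h1, Matrix.mul_assoc, Matrix.trace_mul_comm]
  exact (hX.mul_mul_conjTranspose_same M).trace_nonneg

/-- Exchanges: `exM ≤ neM` as forms. -/
theorem gibP_exM {P : MM V} (hP0 : Le 0 P) (hPs : Pᵀ = P) (hPP : P * P = P) (L : List (V × V))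
    (β : ℝ) (h : V → ℝ) (hβ : 0 ≤ β) (hP : Commute P (ham L h))
    (hZ : 0 < trace (P * NormedSpace.exp (-β • ham L h))) (a c : V) :
    gibP P L β h (exM a c) ≤ rhoP P L β h a + rhoP P L β h c := by
  refine le_trans ?_ (gibP_neM hP0 L β h hβ hZ a c)
  have h1 := traceP_psd hPs hPP L β h hP (Bs.hM_posSemidef a c)
  have h2 : hM a c = (1 / 2 : ℝ) • (neM a c - exM a c) := by
    unfold hM neM exM
    congr 1
    abel
  rw [h2, Matrix.mul_smul, Matrix.trace_smul, smul_eq_mul, Matrix.mul_sub, Matrix.trace_sub] at h1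
  unfold gibP
  exact div_le_div_of_nonneg_right (by linarith) hZ.le

theorem rhoP_nonneg {P : MM V} (hPs : Pᵀ = P) (hPP : P * P = P) (L : List (V × V)) (β : ℝ)
    (h : V → ℝ) (hP : Commute P (ham L h))
    (hZ : 0 < trace (P * NormedSpace.exp (-β • ham L h))) (x : V) : 0 ≤ rhoP P L β h x :=
  div_nonneg (traceP_psd hPs hPP L β h hP (Bs.down_posSemidef x)) hZ.le

/-- The two bounds for a general slice `cst κ b` and a factorisation `A B = B A = P e^{-βH}`. -/
theorem facP_le {P : MM V} (hP0 : Le 0 P) (hPs : Pᵀ = P) (hPP : P * P = P) (L : List (V × V))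
    {β K η κ : ℝ} (hβ : 0 ≤ β) (h : V → ℝ) (hP : Commute P (ham L h))
    (hZ : 0 < trace (P * NormedSpace.exp (-β • ham L h))) {A B : MM V} (hA0 : Le 0 A)
    (hB0 : Le 0 B) (hAB : A * B = P * NormedSpace.exp (-β • ham L h))
    (hBA : B * A = P * NormedSpace.exp (-β • ham L h)) (b : Finset V)
    (hκ : 0 ≤ κ) (hK : κ * b.card ≤ K) (hr : ∀ x, rhoP P L β h x ≤ η) (a c : V) :
    trace (layT (cst κ b) * A * neM a c * B) ≤ Real.exp (K * η) * (2 * η) *
      trace (layT (cst κ b) * A * B) ∧
    trace (layT (cst κ b) * A * exM a c * B) ≤ Real.exp (K * η) * (2 * η) *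
      trace (layT (cst κ b) * A * B) := by
  have hη : 0 ≤ η := (rhoP_nonneg hPs hPP L β h hP hZ a).trans (hr a)
  have h2 := hr a
  have h3 := hr c
  have hr' : ∀ x, trace (P * NormedSpace.exp (-β • ham L h) * diagonal (dn x)) ≤
      η * trace (P * NormedSpace.exp (-β • ham L h)) := by
    intro x
    have h1 := hr x
    unfold rhoP gibP at h1
    rwa [half_eq, div_le_iff₀ hZ] at h1
  refine ⟨cstW_le hA0 hB0 hAB hBA hZ b hκ hK hη hr' (neM_nonneg a c) (by linarith) ?_,
    cstW_le hA0 hB0 hAB hBA hZ b hκ hK hη hr' (exM_nonneg a c) (by linarith) ?_⟩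
  · have h1 := gibP_neM hP0 L β h hβ hZ a c
    unfold gibP at h1
    rw [div_le_iff₀ hZ] at h1
    exact h1.trans (mul_le_mul_of_nonneg_right (by linarith) hZ.le)
  · have h1 := gibP_exM hP0 hPs hPP L β h hβ hP hZ a c
    unfold gibP at h1
    rw [div_le_iff₀ hZ] at h1
    exact h1.trans (mul_le_mul_of_nonneg_right (by linarith) hZ.le)

omit [Fintype V] [DecidableEq V] in
theorem blk_card_le (K : ℝ) (hK : 0 ≤ K) (b : Finset V) : K / b.card * (b.card : ℝ) ≤ K := by
  rcases b.eq_empty_or_nonempty with hb | hb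
  · subst hb; simpa using hK
  · have hb0 : (b.card : ℝ) ≠ 0 := by exact_mod_cast hb.card_pos.ne'
    rw [div_mul_cancel₀ _ hb0]

/-- `P` to the left of `e^{-sH}` only (one symmetriser, next to the extra slice). -/
theorem left_mul {P : MM V} {L : List (V × V)} {h : V → ℝ} (hP : Commute P (ham L h))
    {s t β : ℝ} (e : s + t = β) :
    (P * NormedSpace.exp (-s • ham L h)) * NormedSpace.exp (-t • ham L h) =
        P * NormedSpace.exp (-β • ham L h) ∧
      NormedSpace.exp (-t • ham L h) * (P * NormedSpace.exp (-s • ham L h)) =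
        P * NormedSpace.exp (-β • ham L h) := by
  have h1 := commute_exp hP t
  refine ⟨?_, ?_⟩
  · rw [Matrix.mul_assoc, exp_split L h e]
  · rw [← Matrix.mul_assoc, h1.symm.eq, Matrix.mul_assoc, exp_split L h (by linarith)]

/-- The two bounds, slice `blk K b`, `P` on the left only. -/
theorem blkP_le {P : MM V} (hP0 : Le 0 P) (hPs : Pᵀ = P) (hPP : P * P = P) (L : List (V × V))
    {β K η : ℝ} (h : V → ℝ) (hP : Commute P (ham L h))
    (hZ : 0 < trace (P * NormedSpace.exp (-β • ham L h))) (b : Finset V)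
    (hK : 0 ≤ K) {s t : ℝ} (hs : 0 ≤ s) (ht : 0 ≤ t) (e : s + t = β)
    (hr : ∀ x, rhoP P L β h x ≤ η) (a c : V) :
    trace (layT (blk K b) * (P * NormedSpace.exp (-s • ham L h)) * neM a c *
        NormedSpace.exp (-t • ham L h)) ≤ Real.exp (K * η) * (2 * η) *
      trace (layT (blk K b) * (P * NormedSpace.exp (-s • ham L h)) *
        NormedSpace.exp (-t • ham L h)) ∧
    trace (layT (blk K b) * (P * NormedSpace.exp (-s • ham L h)) * exM a c *
        NormedSpace.exp (-t • ham L h)) ≤ Real.exp (K * η) * (2 * η) *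
      trace (layT (blk K b) * (P * NormedSpace.exp (-s • ham L h)) *
        NormedSpace.exp (-t • ham L h)) := by
  rw [blk_eq_cst]
  exact facP_le hP0 hPs hPP L (by linarith) h hP hZ (expP_nonneg hP0 L h hs)
    (fun i j => (exp_ham L h ht).1 i j) (left_mul hP e).1 (left_mul hP e).2 b (by positivity)
    (blk_card_le K hK b) hr a c

/-- The two bounds, slice `Function.update (blk K b) y 0`, `P` on the left only. -/
theorem updP_le {P : MM V} (hP0 : Le 0 P) (hPs : Pᵀ = P) (hPP : P * P = P) (L : List (V × V))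
    {β K η : ℝ} (h : V → ℝ) (hP : Commute P (ham L h))
    (hZ : 0 < trace (P * NormedSpace.exp (-β • ham L h))) (b : Finset V) (y : V)
    (hK : 0 ≤ K) {s t : ℝ} (hs : 0 ≤ s) (ht : 0 ≤ t) (e : s + t = β)
    (hr : ∀ x, rhoP P L β h x ≤ η) (a c : V) :
    trace (layT (Function.update (blk K b) y 0) * (P * NormedSpace.exp (-s • ham L h)) * neM a c *
        NormedSpace.exp (-t • ham L h)) ≤ Real.exp (K * η) * (2 * η) *
      trace (layT (Function.update (blk K b) y 0) * (P * NormedSpace.exp (-s • ham L h)) *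
        NormedSpace.exp (-t • ham L h)) ∧
    trace (layT (Function.update (blk K b) y 0) * (P * NormedSpace.exp (-s • ham L h)) * exM a c *
        NormedSpace.exp (-t • ham L h)) ≤ Real.exp (K * η) * (2 * η) *
      trace (layT (Function.update (blk K b) y 0) * (P * NormedSpace.exp (-s • ham L h)) *
        NormedSpace.exp (-t • ham L h)) := by
  rw [update_blk]
  exact facP_le hP0 hPs hPP L (by linarith) h hP hZ (expP_nonneg hP0 L h hs)
    (fun i j => (exp_ham L h ht).1 i j) (left_mul hP e).1 (left_mul hP e).2 _ (by positivity)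
    (erase_card_le K hK b y) hr a c

/-- Magnetization at time `s` from the extra slice, state with the projector. -/
def mTP (P : MM V) (L : List (V × V)) (h T : V → ℝ) (s t : ℝ) (x : V) : ℝ :=
  trace (layT T * (P * NormedSpace.exp (-s • ham L h)) * szM x * NormedSpace.exp (-t • ham L h)) /
    trace (layT T * (P * NormedSpace.exp (-s • ham L h)) * NormedSpace.exp (-t • ham L h))

theorem cstP_trace_pos {P : MM V} (hP0 : Le 0 P) (L : List (V × V)) (κ : ℝ) (h : V → ℝ)
    (b : Finset V) {s t : ℝ} (hs : 0 ≤ s) (ht : 0 ≤ t) (σ : V → Fin 2) (hσ : 0 < P σ σ) :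
    0 < trace (layT (cst κ b) * (P * NormedSpace.exp (-s • ham L h)) *
      NormedSpace.exp (-t • ham L h)) := by
  have hA0 : Le 0 (P * NormedSpace.exp (-s • ham L h)) := expP_nonneg hP0 L h hs
  have hB0 := exp_ham L h ht
  have hA1 : 0 < (P * NormedSpace.exp (-s • ham L h)) σ σ := by
    rw [Matrix.mul_apply]
    refine Finset.sum_pos' (fun j _ => mul_nonneg (hP0 σ j) ((exp_ham L h hs).1 j σ))
      ⟨σ, Finset.mem_univ _, ?_⟩
    exact mul_pos hσ ((exp_ham L h hs).2 σ)
  have hq0 : 0 < (1 + Real.tanh (κ / 2)) ^ b.card :=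
    pow_pos (by have := Real.neg_one_lt_tanh (κ / 2); linarith) _
  rw [layT_cst]
  simp only [Matrix.smul_mul, Matrix.trace_smul, smul_eq_mul]
  refine mul_pos hq0 ?_
  rw [trace_diag3]
  refine Finset.sum_pos' (fun p _ => ?_) ⟨(σ, σ), Finset.mem_univ _, ?_⟩
  · exact mul_nonneg (mul_nonneg (hA0 _ _) (hB0.1 _ _)) (Real.exp_pos _).le
  · exact mul_pos (mul_pos hA1 (hB0.2 _)) (Real.exp_pos _)

/-- Main bound in the limit `N = ∞`. -/
theorem mTP_ge {P : MM V} (hP0 : Le 0 P) (hPs : Pᵀ = P) (hPP : P * P = P) (L : List (V × V))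
    {β K η : ℝ} (h : V → ℝ) (hP : Commute P (ham L h)) (σ : V → Fin 2) (hσ : 0 < P σ σ)
    (b : Finset V) (hK : 0 ≤ K) {s t : ℝ} (hs : 0 ≤ s) (ht : 0 ≤ t) (e : s + t = β)
    (hr : ∀ x, rhoP P L β h x ≤ η) (x : V) :
    1 - 2 * (Real.exp (K * η) * η) ≤ mTP P L h (blk K b) s t x := by
  have hβ : 0 ≤ β := by linarith
  have hZ := traceP_pos hP0 L h hβ σ hσ
  have hη : 0 ≤ η := (rhoP_nonneg hPs hPP L β h hP hZ x).trans (hr x)
  have hpos := cstP_trace_pos hP0 L (K / b.card) h b hs ht σ hσ
  rw [← blk_eq_cst] at hpos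
  have hr' : ∀ x, trace (P * NormedSpace.exp (-β • ham L h) * diagonal (dn x)) ≤
      η * trace (P * NormedSpace.exp (-β • ham L h)) := by
    intro x
    have h1 := hr x
    unfold rhoP gibP at h1
    rwa [half_eq, div_le_iff₀ hZ] at h1
  have hd0 : Le (0 : MM V) (diagonal (dn x)) := by
    intro i j
    by_cases hij : i = j
    · subst hij
      rw [Matrix.zero_apply, Matrix.diagonal_apply_eq]
      unfold dn
      split_ifs <;> norm_num
    · rw [Matrix.zero_apply, Matrix.diagonal_apply_ne _ hij]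
  have h1 := cstW_le (expP_nonneg hP0 L h hs) (fun i j => (exp_ham L h ht).1 i j)
    (left_mul hP e).1 (left_mul hP e).2 hZ b (K := K) (η := η) (κ := K / b.card) (by positivity)
    (blk_card_le K hK b) hη hr' hd0 hη (hr' x)
  rw [← blk_eq_cst] at h1
  unfold mTP
  rw [le_div_iff₀ hpos, szM_eq]
  have e1 : layT (blk K b) * (P * NormedSpace.exp (-s • ham L h)) *
      (1 - (2 : ℝ) • diagonal (dn x)) * NormedSpace.exp (-t • ham L h) =
      layT (blk K b) * (P * NormedSpace.exp (-s • ham L h)) * NormedSpace.exp (-t • ham L h) -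
      (2 : ℝ) • (layT (blk K b) * (P * NormedSpace.exp (-s • ham L h)) * diagonal (dn x) *
        NormedSpace.exp (-t • ham L h)) := by
    rw [Matrix.mul_sub, Matrix.sub_mul, Matrix.mul_one]
    simp only [Matrix.smul_mul, Matrix.mul_smul]
  rw [e1, Matrix.trace_sub, Matrix.trace_smul, smul_eq_mul]
  nlinarith

end

end Vale.Agent.P361.LRO.Bloch.TX
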