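import Vale.Agent.P361.LRO.Fin.Base
import Vale.Agent.P361.LRO.Mag.TrMag
import Vale.Agent.P361.LRO.Bloch.LongLoc

/-!
P361, stage 3 (K2), the half `N = ∞`: probability of unequal spins / of an exchange at a bond, in
the presence of the extra slice `e^{K n_b}`.
-/

namespace Vale.Agent.P361.LRO.Bloch.TX

open Finset Matrix

noncomputable section

theorem trace_diag3 {ι : Type*} [Fintype ι] [DecidableEq ι] (e : ι → ℝ) (A B : Matrix ι ι ℝ) :
    trace (diagonal e * A * B) = ∑ p : ι × ι, (A p.1 p.2 * B p.2 p.1) * e p.1 := by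
  have := trace_diag4 e (fun _ => 1) A B
  rw [Matrix.diagonal_one, Matrix.mul_one] at this
  rw [this]
  exact Finset.sum_congr rfl fun p _ => by ring

/-- Jensen. -/
theorem jensen_gen {Ω : Type*} [Fintype Ω] (w N : Ω → ℝ) (hw : ∀ ω, 0 ≤ w ω) {k m : ℝ}
    (hm : k * (∑ ω, w ω * N ω) ≤ m * ∑ ω, w ω) :
    Real.exp (-m) * (∑ ω, w ω) ≤ ∑ ω, w ω * Real.exp (-(k * N ω)) := by
  have h1 : ∀ ω, w ω * (Real.exp (-m) * (1 + (m - k * N ω))) ≤
      w ω * Real.exp (-(k * N ω)) := by
    intro ω
    refine mul_le_mul_of_nonneg_left ?_ (hw ω)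
    have h2 := Real.add_one_le_exp (m - k * N ω)
    have h3 : Real.exp (-(k * N ω)) = Real.exp (-m) * Real.exp (m - k * N ω) := by
      rw [← Real.exp_add]; congr 1; ring
    rw [h3]
    exact mul_le_mul_of_nonneg_left (by linarith) (Real.exp_pos _).le
  have h4 := Finset.sum_le_sum fun ω (_ : ω ∈ (univ : Finset Ω)) => h1 ω
  have h6 : ∀ ω, w ω * (Real.exp (-m) * (1 + (m - k * N ω))) =
      Real.exp (-m) * (w ω + (m * w ω - k * (w ω * N ω))) := fun ω => by ring
  have h5 : ∑ ω, w ω * (Real.exp (-m) * (1 + (m - k * N ω))) =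
      Real.exp (-m) * (∑ ω, w ω + (m * ∑ ω, w ω - k * ∑ ω, w ω * N ω)) := by
    rw [Finset.sum_congr rfl fun ω _ => h6 ω, ← Finset.mul_sum, Finset.sum_add_distrib,
      Finset.sum_sub_distrib, ← Finset.mul_sum, ← Finset.mul_sum]
  rw [h5] at h4
  refine le_trans ?_ h4
  exact mul_le_mul_of_nonneg_left (by linarith) (Real.exp_pos _).le

/-- Tilt by a diagonal weight `e^{-k N}`, observable `X` entrywise nonnegative. -/
theorem tiltX {ι : Type*} [Fintype ι] [DecidableEq ι] (A B X : Matrix ι ι ℝ)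
    (hA : ∀ i j, 0 ≤ A i j) (hB : ∀ i j, 0 ≤ B i j) (hX : ∀ i j, 0 ≤ X i j)
    (N : ι → ℝ) (hN : ∀ i, 0 ≤ N i) {k m c : ℝ} (hk : 0 ≤ k)
    (hm : k * trace (diagonal N * A * B) ≤ m * trace (A * B))
    (hc : trace (A * X * B) ≤ c * trace (A * B)) (hc0 : 0 ≤ c) :
    trace (diagonal (fun i => Real.exp (-(k * N i))) * A * X * B) ≤
      Real.exp m * c * trace (diagonal (fun i => Real.exp (-(k * N i))) * A * B) := by
  have h2 : trace (A * B) = ∑ p : ι × ι, (A p.1 p.2 * B p.2 p.1) := by
    have := trace_diag3 (fun _ => 1) A B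
    rw [Matrix.diagonal_one, Matrix.one_mul] at this
    rw [this]
    exact Finset.sum_congr rfl fun p _ => by ring
  have h3 : trace (A * X * B) = ∑ p : ι × ι, ((A * X) p.1 p.2 * B p.2 p.1) := by
    have := trace_diag3 (fun _ => 1) (A * X) B
    rw [Matrix.diagonal_one, Matrix.one_mul] at this
    rw [this]
    exact Finset.sum_congr rfl fun p _ => by ring
  have hAX : ∀ i j, 0 ≤ (A * X) i j := by
    intro i j
    rw [Matrix.mul_apply]
    exact Finset.sum_nonneg fun l _ => mul_nonneg (hA _ _) (hX _ _)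
  have hJ : Real.exp (-m) * trace (A * B) ≤
      trace (diagonal (fun i => Real.exp (-(k * N i))) * A * B) := by
    rw [trace_diag3, h2]
    refine jensen_gen (fun p : ι × ι => A p.1 p.2 * B p.2 p.1) (fun p => N p.1)
      (fun p => mul_nonneg (hA _ _) (hB _ _)) ?_
    rw [trace_diag3, h2] at hm
    exact hm
  have hU : trace (diagonal (fun i => Real.exp (-(k * N i))) * A * X * B) ≤
      trace (A * X * B) := by
    rw [Matrix.mul_assoc (diagonal _) A X, trace_diag3, h3]
    refine Finset.sum_le_sum fun p _ => ?_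
    have h1 : Real.exp (-(k * N p.1)) ≤ 1 := Real.exp_le_one_iff.2 (by
      have := mul_nonneg hk (hN p.1); linarith)
    have h0 := mul_nonneg (hAX p.1 p.2) (hB p.2 p.1)
    nlinarith
  calc trace (diagonal (fun i => Real.exp (-(k * N i))) * A * X * B) ≤ c * trace (A * B) :=
        hU.trans hc
    _ = Real.exp m * c * (Real.exp (-m) * trace (A * B)) := by
        rw [Real.exp_neg]; field_simp
    _ ≤ _ := mul_le_mul_of_nonneg_left hJ (mul_nonneg (Real.exp_pos _).le hc0)

variable {V : Type} [Fintype V] [DecidableEq V]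

omit [DecidableEq V] in
theorem diag_dn (x : V) : (1 / 2 : ℝ) • (1 - szM x) = diagonal (dn x) := half_eq x

/-- Unequal spins: `≤ n_a + n_c`. -/
theorem gib_neM (L : List (V × V)) (β : ℝ) (h : V → ℝ) (hβ : 0 ≤ β) (a c : V) :
    gib L β h (neM a c) ≤ rho L β h a + rho L β h c := by
  unfold rho
  rw [← Bs.gib_add, diag_dn, diag_dn, Matrix.diagonal_add]
  unfold gib
  refine div_le_div_of_nonneg_right ?_ (Bs.trace_ham_pos L β h).le
  refine Le.trace ?_
  refine Le.mul_left ?_ fun i j => (exp_ham L h hβ).1 i j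
  intro i j
  unfold neM eqM
  by_cases hij : i = j
  · subst hij
    rw [Matrix.sub_apply, Matrix.one_apply_eq, Matrix.diagonal_apply_eq, Matrix.diagonal_apply_eq]
    unfold dn
    by_cases h1 : i a = i c
    · rw [if_pos h1, sub_self]
      split_ifs <;> norm_num
    · rw [if_neg h1, sub_zero]
      by_cases h2 : i a = 0
      · rw [if_pos h2, if_neg fun h3 => h1 (h2.trans h3.symm), zero_add]
      · rw [if_neg h2]
        split_ifs <;> norm_num
  · rw [Matrix.sub_apply, Matrix.one_apply_ne hij, Matrix.diagonal_apply_ne _ hij,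
      Matrix.diagonal_apply_ne _ hij]
    norm_num

/-- Exchanges: `exM ≤ neM` as forms. -/
theorem gib_exM (L : List (V × V)) (β : ℝ) (h : V → ℝ) (hβ : 0 ≤ β) (a c : V) :
    gib L β h (exM a c) ≤ rho L β h a + rho L β h c := by
  refine le_trans ?_ (gib_neM L β h hβ a c)
  have h1 := Bs.gib_nonneg L β h (Bs.hM_posSemidef a c)
  have h2 : hM a c = (1 / 2 : ℝ) • (neM a c - exM a c) := by
    unfold hM neM exM
    congr 1
    abel
  rw [h2, Bs.gib_smul, Bs.gib_sub] at h1
  linarith

/-- **The bound with the extra slice.** `X = neM a c` or `exM a c`. -/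
theorem layT_le (L : List (V × V)) {β K η : ℝ} (h : V → ℝ) (b : Finset V) (hb : b.Nonempty)
    (hK : 0 ≤ K) {s t : ℝ} (hs : 0 ≤ s) (ht : 0 ≤ t) (e : s + t = β)
    (hr : ∀ x, rho L β h x ≤ η) {X : MM V} (hX : Le 0 X) {c : ℝ} (hc0 : 0 ≤ c)
    (hc : gib L β h X ≤ c) :
    trace (layT (blk K b) * NormedSpace.exp (-s • ham L h) * X * NormedSpace.exp (-t • ham L h)) ≤
      Real.exp (K * η) * c *
        trace (layT (blk K b) * NormedSpace.exp (-s • ham L h) * NormedSpace.exp (-t • ham L h)) := by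
  have hb0 : (0 : ℝ) < b.card := by exact_mod_cast hb.card_pos
  set A := NormedSpace.exp (-s • ham L h) with hA
  set B := NormedSpace.exp (-t • ham L h) with hB
  have hA0 := exp_ham L h hs
  have hB0 := exp_ham L h ht
  rw [← hA] at hA0
  rw [← hB] at hB0
  have hβ : 0 ≤ β := by linarith
  have hAB : A * B = NormedSpace.exp (-β • ham L h) := exp_split L h e
  have hBA : B * A = NormedSpace.exp (-β • ham L h) := exp_split L h (by linarith)
  have hZ := Bs.trace_ham_pos L β h
  set q := (1 + Real.tanh (K / (2 * b.card))) ^ b.card with hq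
  have hq0 : 0 < q := pow_pos (by have := Real.neg_one_lt_tanh (K / (2 * b.card)); linarith) _
  set k := K / (b.card : ℝ) with hk
  have hk0 : 0 ≤ k := div_nonneg hK hb0.le
  have hlay : layT (blk K b) = q • diagonal fun σ : V → Fin 2 => Real.exp (-(k * nb b σ)) :=
    layT_blk K b hb
  have hm : k * trace (diagonal (nb b) * A * B) ≤ K * η * trace (A * B) := by
    have e1 : diagonal (nb b) = ∑ y ∈ b, diagonal (dn y) := by
      ext σ τ
      rw [Matrix.sum_apply]
      by_cases hst : σ = τ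
      · subst hst
        simp only [Matrix.diagonal_apply_eq]
        rfl
      · simp only [Matrix.diagonal_apply_ne _ hst, Finset.sum_const_zero]
    have e2 : trace (diagonal (nb b) * A * B) = ∑ y ∈ b, trace (A * B * diagonal (dn y)) := by
      rw [Matrix.mul_assoc, e1, Finset.sum_mul, Matrix.trace_sum]
      exact Finset.sum_congr rfl fun y _ => Matrix.trace_mul_comm _ _
    have e3 : ∀ y, trace (A * B * diagonal (dn y)) ≤ η * trace (A * B) := by
      intro y
      have := hr y
      rw [LRO.rho_eq, ← hAB, div_le_iff₀ (by rw [hAB]; exact hZ)] at this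
      exact this
    rw [e2]
    calc k * ∑ y ∈ b, trace (A * B * diagonal (dn y)) ≤ k * ∑ _y ∈ b, η * trace (A * B) :=
          mul_le_mul_of_nonneg_left (Finset.sum_le_sum fun y _ => e3 y) hk0
      _ = K * η * trace (A * B) := by
          rw [Finset.sum_const, nsmul_eq_mul, hk]; field_simp
  have hcX : trace (A * X * B) ≤ c * trace (A * B) := by
    have h1 : trace (A * X * B) = trace (NormedSpace.exp (-β • ham L h) * X) := by
      rw [Matrix.trace_mul_comm (A * X) B, ← Matrix.mul_assoc, hBA]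
    rw [h1, hAB]
    unfold gib at hc
    rwa [div_le_iff₀ hZ] at hc
  have h2 := tiltX A B X hA0.1 hB0.1 (fun i j => hX i j) (nb b) (nb_nonneg b) hk0 hm hcX hc0
  rw [hlay]
  simp only [Matrix.smul_mul, Matrix.trace_smul, smul_eq_mul]
  calc q * _ ≤ q * _ := mul_le_mul_of_nonneg_left h2 hq0.le
    _ = _ := by ring

theorem layT_neM (L : List (V × V)) {β K η : ℝ} (h : V → ℝ) (b : Finset V) (hb : b.Nonempty)
    (hK : 0 ≤ K) {s t : ℝ} (hs : 0 ≤ s) (ht : 0 ≤ t) (e : s + t = β)
    (hr : ∀ x, rho L β h x ≤ η) (a c : V) :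
    trace (layT (blk K b) * NormedSpace.exp (-s • ham L h) * neM a c *
        NormedSpace.exp (-t • ham L h)) ≤ Real.exp (K * η) * (2 * η) *
      trace (layT (blk K b) * NormedSpace.exp (-s • ham L h) * NormedSpace.exp (-t • ham L h)) := by
  have hη : 0 ≤ η := (Bs.rho_nonneg L β h a).trans (hr a)
  refine layT_le L h b hb hK hs ht e hr (neM_nonneg a c) (by linarith) ?_
  have h1 := gib_neM L β h (by linarith) a c
  have h2 := hr a
  have h3 := hr c
  linarith

theorem layT_exM (L : List (V × V)) {β K η : ℝ} (h : V → ℝ) (b : Finset V) (hb : b.Nonempty)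
    (hK : 0 ≤ K) {s t : ℝ} (hs : 0 ≤ s) (ht : 0 ≤ t) (e : s + t = β)
    (hr : ∀ x, rho L β h x ≤ η) (a c : V) :
    trace (layT (blk K b) * NormedSpace.exp (-s • ham L h) * exM a c *
        NormedSpace.exp (-t • ham L h)) ≤ Real.exp (K * η) * (2 * η) *
      trace (layT (blk K b) * NormedSpace.exp (-s • ham L h) * NormedSpace.exp (-t • ham L h)) := by
  have hη : 0 ≤ η := (Bs.rho_nonneg L β h a).trans (hr a)
  refine layT_le L h b hb hK hs ht e hr (exM_nonneg a c) (by linarith) ?_
  have h1 := gib_exM L β h (by linarith) a c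
  have h2 := hr a
  have h3 := hr c
  linarith

/-- Positivity, and `≥ 1` for the all-up entry. -/
theorem layT_trace_pos (L : List (V × V)) (K : ℝ) (h : V → ℝ) (b : Finset V) (hb : b.Nonempty)
    {s t : ℝ} (hs : 0 ≤ s) (ht : 0 ≤ t) :
    0 < trace (layT (blk K b) * NormedSpace.exp (-s • ham L h) *
      NormedSpace.exp (-t • ham L h)) := by
  have hA0 := exp_ham L h hs
  have hB0 := exp_ham L h ht
  have hq0 : 0 < (1 + Real.tanh (K / (2 * b.card))) ^ b.card :=
    pow_pos (by have := Real.neg_one_lt_tanh (K / (2 * b.card)); linarith) _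
  rw [layT_blk K b hb]
  simp only [Matrix.smul_mul, Matrix.trace_smul, smul_eq_mul]
  refine mul_pos hq0 ?_
  rw [trace_diag3]
  refine Finset.sum_pos' (fun p _ => ?_) ⟨(fun _ => 0, fun _ => 0), Finset.mem_univ _, ?_⟩
  · exact mul_nonneg (mul_nonneg (hA0.1 _ _) (hB0.1 _ _)) (Real.exp_pos _).le
  · exact mul_pos (mul_pos (hA0.2 _) (hB0.2 _)) (Real.exp_pos _)

end

end Vale.Agent.P361.LRO.Bloch.TX
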