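import Vale.Agent.P361.LRO.Tw.Scalar

/-!
# P361, stage 3, (1'): power and exponential moments of the twist integral

`Z(t) = zt c p t = c ∏ (1 - p_j (1 - t))`, `κ = ∑ p_j`, `0 ≤ p_j ≤ 1/2`.
-/

namespace Vale.Agent.P361.LRO.TwistMom

open Finset MeasureTheory intervalIntegral

/-- `Z' ≥ κ Z` on `[-1, 1]`. -/
theorem deriv_ge {ι : Type*} [Fintype ι] [DecidableEq ι] {c : ℝ} {p : ι → ℝ} (hc : 0 ≤ c)
    (hp0 : ∀ j, 0 ≤ p j) (hp1 : ∀ j, p j ≤ 1 / 2) {t : ℝ} (ht : t ∈ Set.Icc (-1 : ℝ) 1) :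
    (∑ j, p j) * zt c p t ≤ c * ∑ j, (∏ i ∈ univ.erase j, (1 - p i * (1 - t))) * p j := by
  unfold zt
  rw [← mul_assoc, mul_comm (∑ j, p j) c, mul_assoc]
  refine mul_le_mul_of_nonneg_left ?_ hc
  rw [sum_mul]
  refine sum_le_sum fun j _ => ?_
  rw [← mul_prod_erase univ _ (mem_univ j)]
  have hf : ∀ i, 0 ≤ 1 - p i * (1 - t) := by
    intro i
    have := hp0 i
    have := hp1 i
    have := ht.1
    have := ht.2
    nlinarith
  have hprod : 0 ≤ ∏ i ∈ univ.erase j, (1 - p i * (1 - t)) := prod_nonneg fun i _ => hf i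
  have hle : 1 - p j * (1 - t) ≤ 1 := by
    have := hp0 j
    have := ht.2
    nlinarith
  have := mul_le_mul_of_nonneg_right hle hprod
  nlinarith [hp0 j]

/-- General weight: `κ ∫ φ Z ≤ ∫ (-φ') Z` if `φ ≥ 0` on `[-1,1]` and `φ 1 = 0`. -/
theorem zint_weight {ι : Type*} [Fintype ι] {c : ℝ} {p : ι → ℝ} (hc : 0 ≤ c)
    (hp0 : ∀ j, 0 ≤ p j) (hp1 : ∀ j, p j ≤ 1 / 2) {φ φ' : ℝ → ℝ} (hφ : Continuous φ)
    (hφ' : Continuous φ') (hd : ∀ t, HasDerivAt φ (-φ' t) t)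
    (h0 : ∀ t ∈ Set.Icc (-1 : ℝ) 1, 0 ≤ φ t) (h1 : φ 1 = 0) :
    (∑ j, p j) * ∫ t in (-1 : ℝ)..1, φ t * zt c p t ≤ ∫ t in (-1 : ℝ)..1, φ' t * zt c p t := by
  classical
  have hcz := continuous_zt c p
  obtain ⟨D, hD⟩ : ∃ D : ℝ → ℝ, D =
    fun t => c * ∑ j, (∏ i ∈ univ.erase j, (1 - p i * (1 - t))) * p j := ⟨_, rfl⟩
  have hcD : Continuous D := by
    rw [hD]
    refine continuous_const.mul (continuous_finsetSum _ fun j _ => ?_)
    exact (continuous_finsetProd _ fun i _ => by fun_prop).mul continuous_const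
  have hder : ∀ t, HasDerivAt (zt c p) (D t) t := fun t => by rw [hD]; exact hasDerivAt_zt c p t
  have hge : ∀ t ∈ Set.Icc (-1 : ℝ) 1, (∑ j, p j) * zt c p t ≤ D t := by
    intro t ht
    rw [hD]
    exact deriv_ge hc hp0 hp1 ht
  have hparts : ∫ t in (-1 : ℝ)..1, ((-φ' t) * zt c p t + φ t * D t) =
      φ 1 * zt c p 1 - φ (-1) * zt c p (-1) := by
    have hint : IntervalIntegrable (fun t => (-φ' t) * zt c p t + φ t * D t) volume (-1) 1 := by
      apply Continuous.intervalIntegrable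
      fun_prop
    exact intervalIntegral.integral_eq_sub_of_hasDerivAt (fun t _ => (hd t).mul (hder t)) hint
  have i1 : IntervalIntegrable (fun t => (-φ' t) * zt c p t) volume (-1) 1 := by
    apply Continuous.intervalIntegrable; fun_prop
  have i2 : IntervalIntegrable (fun t => φ t * D t) volume (-1) 1 := by
    apply Continuous.intervalIntegrable; fun_prop
  rw [intervalIntegral.integral_add i1 i2] at hparts
  have hneg : ∫ t in (-1 : ℝ)..1, (-φ' t) * zt c p t = - ∫ t in (-1 : ℝ)..1, φ' t * zt c p t := by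
    rw [← intervalIntegral.integral_neg]
    congr 1
    funext t
    ring
  rw [hneg] at hparts
  have hmono : ∫ t in (-1 : ℝ)..1, (∑ j, p j) * (φ t * zt c p t) ≤
      ∫ t in (-1 : ℝ)..1, φ t * D t := by
    refine intervalIntegral.integral_mono_on (by norm_num) ?_ i2 ?_
    · apply Continuous.intervalIntegrable; fun_prop
    · intro t ht
      have h3 := mul_le_mul_of_nonneg_left (hge t ht) (h0 t ht)
      linarith
  rw [intervalIntegral.integral_const_mul] at hmono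
  have hz : 0 ≤ zt c p (-1) := zt_nonneg hc hp0 hp1 le_rfl
  have hz2 : 0 ≤ φ (-1) * zt c p (-1) := mul_nonneg (h0 (-1) (by norm_num)) hz
  rw [h1, zero_mul] at hparts
  linarith

/-- `κ ∫ (1-t)^(q+1) Z ≤ (q+1) ∫ (1-t)^q Z`. -/
theorem zint_succ {ι : Type*} [Fintype ι] {c : ℝ} {p : ι → ℝ} (hc : 0 ≤ c)
    (hp0 : ∀ j, 0 ≤ p j) (hp1 : ∀ j, p j ≤ 1 / 2) (q : ℕ) :
    (∑ j, p j) * ∫ t in (-1 : ℝ)..1, (1 - t) ^ (q + 1) * zt c p t ≤
      (q + 1) * ∫ t in (-1 : ℝ)..1, (1 - t) ^ q * zt c p t := by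
  have h := zint_weight hc hp0 hp1 (φ := fun t => (1 - t) ^ (q + 1))
    (φ' := fun t => (q + 1 : ℝ) * (1 - t) ^ q) (by fun_prop) (by fun_prop)
    (fun t => by
      have h1 : HasDerivAt (fun t : ℝ => 1 - t) (-1) t := by
        simpa using (hasDerivAt_id t).const_sub 1
      have h2 := h1.fun_pow (q + 1)
      refine h2.congr_deriv ?_
      push_cast
      simp)
    (fun t ht => pow_nonneg (by linarith [ht.2]) _) (by simp)
  refine h.trans (le_of_eq ?_)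
  rw [← intervalIntegral.integral_const_mul]
  congr 1
  funext t
  ring

/-- `κ^q ∫ (1-t)^q Z ≤ q! ∫ Z`. -/
theorem zint_pow {ι : Type*} [Fintype ι] {c : ℝ} {p : ι → ℝ} (hc : 0 ≤ c)
    (hp0 : ∀ j, 0 ≤ p j) (hp1 : ∀ j, p j ≤ 1 / 2) (q : ℕ) :
    (∑ j, p j) ^ q * ∫ t in (-1 : ℝ)..1, (1 - t) ^ q * zt c p t ≤
      q.factorial * ∫ t in (-1 : ℝ)..1, zt c p t := by
  have hκ : 0 ≤ ∑ j, p j := sum_nonneg fun j _ => hp0 j
  induction q with
  | zero => simp
  | succ q ih =>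
    have h1 := zint_succ hc hp0 hp1 q
    have h2 := mul_le_mul_of_nonneg_left h1 (pow_nonneg hκ q)
    have h3 := mul_le_mul_of_nonneg_left ih (show (0 : ℝ) ≤ (q : ℝ) + 1 by positivity)
    rw [Nat.factorial_succ]
    push_cast
    calc (∑ j, p j) ^ (q + 1) * ∫ t in (-1 : ℝ)..1, (1 - t) ^ (q + 1) * zt c p t
        = (∑ j, p j) ^ q * ((∑ j, p j) * ∫ t in (-1 : ℝ)..1, (1 - t) ^ (q + 1) * zt c p t) := by
          ring
      _ ≤ (∑ j, p j) ^ q * ((q + 1) * ∫ t in (-1 : ℝ)..1, (1 - t) ^ q * zt c p t) := h2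
      _ = (q + 1) * ((∑ j, p j) ^ q * ∫ t in (-1 : ℝ)..1, (1 - t) ^ q * zt c p t) := by ring
      _ ≤ (q + 1) * (q.factorial * ∫ t in (-1 : ℝ)..1, zt c p t) := h3
      _ = _ := by ring

/-- Exponential moment: `(κ - s) ∫ e^{s(1-t)} Z ≤ κ ∫ Z`, `s ≥ 0`. -/
theorem zexp {ι : Type*} [Fintype ι] {c : ℝ} {p : ι → ℝ} (hc : 0 ≤ c)
    (hp0 : ∀ j, 0 ≤ p j) (hp1 : ∀ j, p j ≤ 1 / 2) {s : ℝ} (hs : 0 ≤ s) :
    ((∑ j, p j) - s) * ∫ t in (-1 : ℝ)..1, Real.exp (s * (1 - t)) * zt c p t ≤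
      (∑ j, p j) * ∫ t in (-1 : ℝ)..1, zt c p t := by
  have hcz := continuous_zt c p
  have h := zint_weight hc hp0 hp1 (φ := fun t => Real.exp (s * (1 - t)) - 1)
    (φ' := fun t => s * Real.exp (s * (1 - t))) (by fun_prop) (by fun_prop)
    (fun t => by
      have h1 : HasDerivAt (fun t : ℝ => s * (1 - t)) (-s) t := by
        have := ((hasDerivAt_id t).const_sub 1).const_mul s
        simpa using this
      have h2 := (h1.exp).sub_const 1
      refine h2.congr_deriv ?_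
      ring)
    (fun t ht => by
      have : 0 ≤ s * (1 - t) := mul_nonneg hs (by linarith [ht.2])
      have := Real.one_le_exp this
      linarith) (by simp)
  have i1 : IntervalIntegrable (fun t => Real.exp (s * (1 - t)) * zt c p t) volume (-1) 1 := by
    apply Continuous.intervalIntegrable; fun_prop
  have i2 : IntervalIntegrable (zt c p) volume (-1) 1 := hcz.intervalIntegrable _ _
  have e1 : ∫ t in (-1 : ℝ)..1, (Real.exp (s * (1 - t)) - 1) * zt c p t =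
      (∫ t in (-1 : ℝ)..1, Real.exp (s * (1 - t)) * zt c p t) -
        ∫ t in (-1 : ℝ)..1, zt c p t := by
    rw [← intervalIntegral.integral_sub i1 i2]
    congr 1
    funext t
    ring
  have e2 : ∫ t in (-1 : ℝ)..1, s * Real.exp (s * (1 - t)) * zt c p t =
      s * ∫ t in (-1 : ℝ)..1, Real.exp (s * (1 - t)) * zt c p t := by
    rw [← intervalIntegral.integral_const_mul]
    congr 1
    funext t
    ring
  rw [e1, e2] at h
  linarith

/-- The half exponential moment: `∫ e^{κ(1-t)/2} Z ≤ 2 ∫ Z`. -/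
theorem zexp_half {ι : Type*} [Fintype ι] {c : ℝ} {p : ι → ℝ} (hc : 0 ≤ c)
    (hp0 : ∀ j, 0 ≤ p j) (hp1 : ∀ j, p j ≤ 1 / 2) :
    ∫ t in (-1 : ℝ)..1, Real.exp ((∑ j, p j) / 2 * (1 - t)) * zt c p t ≤
      2 * ∫ t in (-1 : ℝ)..1, zt c p t := by
  have hκ : 0 ≤ ∑ j, p j := sum_nonneg fun j _ => hp0 j
  rcases eq_or_lt_of_le hκ with h0 | hpos
  · rw [← h0]
    have hcz := continuous_zt c p
    have hnn : 0 ≤ ∫ t in (-1 : ℝ)..1, zt c p t :=
      intervalIntegral.integral_nonneg (by norm_num) fun t ht => zt_nonneg hc hp0 hp1 ht.1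
    simp only [zero_div, zero_mul, Real.exp_zero, one_mul]
    linarith
  · have h := zexp hc hp0 hp1 (s := (∑ j, p j) / 2) (by linarith)
    have h2 : (∑ j, p j) / 2 * (∫ t in (-1 : ℝ)..1,
        Real.exp ((∑ j, p j) / 2 * (1 - t)) * zt c p t) ≤
        (∑ j, p j) / 2 * (2 * ∫ t in (-1 : ℝ)..1, zt c p t) := by
      calc _ = ((∑ j, p j) - (∑ j, p j) / 2) * (∫ t in (-1 : ℝ)..1,
            Real.exp ((∑ j, p j) / 2 * (1 - t)) * zt c p t) := by ring
        _ ≤ _ := h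
        _ = _ := by ring
    exact le_of_mul_le_mul_left h2 (by linarith)

/-- The same for any `0 ≤ s ≤ κ / 2`. -/
theorem zexp_le {ι : Type*} [Fintype ι] {c : ℝ} {p : ι → ℝ} (hc : 0 ≤ c)
    (hp0 : ∀ j, 0 ≤ p j) (hp1 : ∀ j, p j ≤ 1 / 2) {s : ℝ} (hs : s ≤ (∑ j, p j) / 2) :
    ∫ t in (-1 : ℝ)..1, Real.exp (s * (1 - t)) * zt c p t ≤
      2 * ∫ t in (-1 : ℝ)..1, zt c p t := by
  have hcz := continuous_zt c p
  refine le_trans ?_ (zexp_half hc hp0 hp1)
  refine intervalIntegral.integral_mono_on (by norm_num) ?_ ?_ ?_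
  · apply Continuous.intervalIntegrable; fun_prop
  · apply Continuous.intervalIntegrable; fun_prop
  · intro t ht
    refine mul_le_mul_of_nonneg_right ?_ (zt_nonneg hc hp0 hp1 ht.1)
    exact Real.exp_le_exp.2 (mul_le_mul_of_nonneg_right hs (by linarith [ht.2]))

end Vale.Agent.P361.LRO.TwistMom
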