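import Vale.Agent.P361.LRO.Tw.Main
import Vale.Agent.P361.LRO.Bloch.Mom
import Vale.Agent.P361.LRO.SR.Stable

/-!
P361, stage 3, block (1'): all moments of the block twist for the Gibbs state.
-/

namespace Vale.Agent.P361.LRO.Bloch

open Finset Matrix Filter Topology

noncomputable section

variable {V : Type} [Fintype V] [DecidableEq V]

/-- Limit of the moment inequality. -/
theorem twist_limit_pow {W : ℕ → Matrix (V → Fin 2) (V → Fin 2) ℝ}
    {W0 : Matrix (V → Fin 2) (V → Fin 2) ℝ} (hW : Tendsto W atTop (𝓝 W0)) (b : Finset V) (θ : ℝ)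
    {k : ℕ → ℝ} {κ : ℝ} (hκ : 0 ≤ κ) (m : ℕ) (hk : ∃ᶠ N in atTop, κ ≤ k N)
    (hpos : ∀ᶠ N in atTop, ∀ φ, 0 ≤ ZTw (W N) b θ φ)
    (hin : ∀ᶠ N in atTop, k N ^ m * (∫ φ in (0 : ℝ)..Real.pi,
        Real.sin φ * (1 - Real.cos φ) ^ m * ZTw (W N) b θ φ) ≤
      (m.factorial : ℝ) * ∫ φ in (0 : ℝ)..Real.pi, Real.sin φ * ZTw (W N) b θ φ) :
    κ ^ m * (∫ φ in (0 : ℝ)..Real.pi, Real.sin φ * (1 - Real.cos φ) ^ m * ZTw W0 b θ φ) ≤
      (m.factorial : ℝ) * ∫ φ in (0 : ℝ)..Real.pi, Real.sin φ * ZTw W0 b θ φ := by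
  have h1 := (tendsto_int_ZTw hW b θ (g := fun φ => Real.sin φ * (1 - Real.cos φ) ^ m)
    (by fun_prop)).const_mul (κ ^ m)
  have h2 := (tendsto_int_ZTw hW b θ (g := Real.sin) (by fun_prop)).const_mul (m.factorial : ℝ)
  refine le_of_tendsto_of_tendsto_of_frequently h1 h2 ?_
  refine (hk.and_eventually (hpos.and hin)).mono fun N hN => ?_
  obtain ⟨h3, h4, h5⟩ := hN
  refine le_trans (mul_le_mul_of_nonneg_right (pow_le_pow_left₀ hκ h3 m) ?_) h5
  refine intervalIntegral.integral_nonneg Real.pi_pos.le fun φ hφ => ?_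
  have h6 := Real.sin_nonneg_of_nonneg_of_le_pi hφ.1 hφ.2
  have h7 : 0 ≤ 1 - Real.cos φ := by linarith [Real.cos_le_one φ]
  exact mul_nonneg (mul_nonneg h6 (pow_nonneg h7 m)) (h4 φ)

theorem tanh_nonneg' {x : ℝ} (hx : 0 ≤ x) : 0 ≤ Real.tanh x := by
  rw [Real.tanh_eq_sinh_div_cosh]
  exact div_nonneg (Real.sinh_nonneg_iff.2 hx) (Real.cosh_pos _).le

/-- For large `N` the physical circuit is a law and all parameters are in `[0, 1]`. -/
theorem phys_good (L : List (V × V)) {β : ℝ} (hβ : 0 < β) {h : V → ℝ} (hh : ∀ x, 0 ≤ h x) {K : ℝ}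
    (hK : 0 ≤ K) (b : Finset V) : ∀ᶠ N : ℕ in atTop, IsLaw (phys L β N) ∧
      ∀ z, 0 ≤ th β N h (blk K b) z ∧ th β N h (blk K b) z ≤ 1 := by
  have hT : 0 ≤ Real.tanh (K / (2 * b.card)) := tanh_nonneg' (by positivity)
  have hT1 : Real.tanh (K / (2 * b.card)) ≤ 1 := (Real.tanh_lt_one _).le
  have h1 : ∀ᶠ N : ℕ in atTop, β ≤ N := eventually_atTop.2 (by
    obtain ⟨n, hn⟩ := exists_nat_ge β
    exact ⟨n, fun m hm => hn.trans (by exact_mod_cast hm)⟩)
  have h2 : ∀ᶠ N : ℕ in atTop, β * (∑ x, h x) / 2 ≤ N := eventually_atTop.2 (by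
    obtain ⟨n, hn⟩ := exists_nat_ge (β * (∑ x, h x) / 2)
    exact ⟨n, fun m hm => hn.trans (by exact_mod_cast hm)⟩)
  filter_upwards [h1, h2, eventually_gt_atTop 0] with N hN1 hN2 hN0
  have hN' : (0 : ℝ) < N := by exact_mod_cast hN0
  refine ⟨isLaw_phys' L hβ.le hN1, fun z => ?_⟩
  unfold th
  split_ifs with hz
  · unfold blk
    split_ifs
    · exact ⟨hT, hT1⟩
    · exact ⟨le_rfl, zero_le_one⟩
  · constructor
    · exact div_nonneg (mul_nonneg hβ.le (hh _)) (by positivity)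
    · rw [div_le_one (by positivity)]
      have h3 : h z.2 ≤ ∑ x, h x := Finset.single_le_sum (fun x _ => hh x) (Finset.mem_univ _)
      have h4 : β * h z.2 ≤ β * ∑ x, h x := mul_le_mul_of_nonneg_left h3 hβ.le
      linarith

/-- **All moments of the block twist, Gibbs state.** -/
theorem twist_gibbs_pow (L : List (V × V)) {β : ℝ} (hβ : 0 < β) {h : V → ℝ} (hh : ∀ x, 0 ≤ h x)
    {K κ : ℝ} (hK : 0 ≤ K) (hκ0 : 0 ≤ κ) (b : Finset V)
    (hκ : ∃ᶠ N : ℕ in atTop, κ ≤ kap L β N h K b) (m : ℕ) :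
    κ ^ m * (∫ φ in (0 : ℝ)..Real.pi, Real.sin φ * (1 - Real.cos φ) ^ m *
        Matrix.trace (NormedSpace.exp (-β • ham L h) *
          rotT b (Real.tanh (K / (2 * b.card))) φ)) ≤
      (m.factorial : ℝ) * ∫ φ in (0 : ℝ)..Real.pi, Real.sin φ *
        Matrix.trace (NormedSpace.exp (-β • ham L h) *
          rotT b (Real.tanh (K / (2 * b.card))) φ) := by
  have hgood := phys_good L hβ hh hK b
  refine twist_limit_pow (stepM_tendsto L β h) b _ hκ0 m hκ ?_ ?_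
  · filter_upwards [hgood] with N hN φ
    obtain ⟨hl, ht⟩ := hN
    unfold ZTw
    rw [← Zf_phys]
    exact Zf_nonneg hl.nonneg (fun z => (ht z).1) (ZZ_pos hl fun z => (ht z).1)
      (SR.stable_of_isLaw hl ht) _ φ
  · filter_upwards [hgood] with N hN
    obtain ⟨hl, ht⟩ := hN
    unfold ZTw
    simp only [← Zf_phys]
    exact kap_int_pow hl.nonneg (fun z => (ht z).1) (ZZ_pos hl fun z => (ht z).1)
      (SR.stable_of_isLaw hl ht) _ m

end

end Vale.Agent.P361.LRO.Bloch
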