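import Vale.Agent.P361.B.Asym
import Vale.Agent.P361.B.FinUpper

/-!
# P361 stage 3, U3: momentum sums without the zero mode, with a positive reward
(helper683)
-/

namespace Vale.Agent.P361.LRO.Bloch.U3

open Finset Vale.Agent.P361.B
open Vale.Agent.P361.H (bJ)

set_option linter.unusedSectionVars false

/-- reduced one-magnon energy `β ε_k` of the Neumann box of side `L`. -/
noncomputable def xk (n L : ℕ) (β : ℝ) (k : cube L) : ℝ := β * ((n : ℝ) / 2 * lam3 L k)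

/-- `A = (4 π S)^{1/2}`. -/
noncomputable def AA (n : ℕ) : ℝ := Real.sqrt (4 * Real.pi * ((n : ℝ) / 2))

lemma AA_pos {n : ℕ} (hn : 1 ≤ n) : 0 < AA n := by
  have hnR : (1 : ℝ) ≤ n := by exact_mod_cast hn
  have := Real.pi_pos
  exact Real.sqrt_pos.2 (by positivity)

lemma xk_nonneg (n L : ℕ) {β : ℝ} (hβ : 0 ≤ β) (k : cube L) : 0 ≤ xk n L β k :=
  mul_nonneg hβ (mul_nonneg (by positivity) (lam3_nonneg k))

lemma lam1_ge {L : ℕ} {p : ℤ} (hp : p ≠ 0) (hp2 : p ∈ Finset.Ico (0 : ℤ) L) :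
    4 / (L : ℝ) ^ 2 ≤ lam1 L p := by
  rw [Finset.mem_Ico] at hp2
  have hL : (0 : ℝ) < L := by
    have : 0 < L := by omega
    exact_mod_cast this
  have h1 : (1 : ℝ) ≤ p := by exact_mod_cast (show (1 : ℤ) ≤ p by omega)
  have h2 : (p : ℝ) ≤ L := by exact_mod_cast hp2.2.le
  have hpi := Real.pi_pos
  have h3 : |Real.pi * p / L| ≤ Real.pi := by
    rw [abs_of_nonneg (by positivity), div_le_iff₀ hL]
    exact mul_le_mul_of_nonneg_left h2 hpi.le
  have h5 := Real.cos_le_one_sub_mul_cos_sq h3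
  unfold lam1
  have h6 : 2 / Real.pi ^ 2 * (Real.pi * p / L) ^ 2 = 2 * (p : ℝ) ^ 2 / (L : ℝ) ^ 2 := by
    field_simp
  rw [h6] at h5
  have h7 : 2 / (L : ℝ) ^ 2 ≤ 2 * (p : ℝ) ^ 2 / (L : ℝ) ^ 2 := by
    gcongr
    nlinarith
  have h8 : 4 / (L : ℝ) ^ 2 = 2 * (2 / (L : ℝ) ^ 2) := by ring
  rw [h8]
  linarith

lemma lam3_ge {L : ℕ} {k : cube L} (hk : k.1 ≠ 0) : 4 / (L : ℝ) ^ 2 ≤ lam3 L k := by
  obtain ⟨j, hj⟩ := Function.ne_iff.1 hk
  have h1 := lam1_ge (L := L) (p := k.1 j) hj (mem_cubeD.1 k.2 j)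
  refine h1.trans ?_
  unfold lam3
  exact Finset.single_le_sum (f := fun j => lam1 L (k.1 j)) (fun _ _ => lam1_nonneg _)
    (Finset.mem_univ j)

/-- the spectral gap. -/
lemma xk_ge {n L : ℕ} {β : ℝ} (hβ : 0 ≤ β) {k : cube L} (hk : k.1 ≠ 0) :
    2 * n * β / (L : ℝ) ^ 2 ≤ xk n L β k := by
  unfold xk
  have h := mul_le_mul_of_nonneg_left (lam3_ge hk) (a := β * ((n : ℝ) / 2)) (by positivity)
  calc 2 * n * β / (L : ℝ) ^ 2 = β * ((n : ℝ) / 2) * (4 / (L : ℝ) ^ 2) := by ring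
    _ ≤ _ := h
    _ = _ := by ring

/-- the sum over the non-zero modes. -/
noncomputable def nz {L : ℕ} (f : cube L → ℝ) : ℝ := ∑ k ∈ univ.filter (fun k : cube L => k.1 ≠ 0), f k

lemma nz_mono {L : ℕ} {f g : cube L → ℝ} (h : ∀ k : cube L, k.1 ≠ 0 → f k ≤ g k) : nz f ≤ nz g :=
  Finset.sum_le_sum fun k hk => h k (Finset.mem_filter.1 hk).2

lemma nz_le {L : ℕ} (hL : 0 < L) {f : cube L → ℝ} (h : ∀ k : cube L, k.1 = 0 → f k = 1) :
    nz f = ∑ k, f k - 1 := by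
  have h0 : (0 : Site) ∈ cube L := by
    refine mem_cubeD.2 fun j => ?_
    rw [Finset.mem_Ico]
    exact ⟨le_rfl, show (0 : ℤ) < (L : ℤ) by exact_mod_cast hL⟩
  have h1 : ∑ k ∈ univ.filter (fun k : cube L => ¬ k.1 ≠ 0), f k = 1 := by
    have : univ.filter (fun k : cube L => ¬ k.1 ≠ 0) = {⟨0, h0⟩} := by
      ext k
      simp [Subtype.ext_iff]
    rw [this, Finset.sum_singleton]
    exact h _ rfl
  have h2 := Finset.sum_filter_add_sum_filter_not univ (fun k : cube L => k.1 ≠ 0) f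
  unfold nz
  linarith

lemma exp_pow_xk {n L : ℕ} {β : ℝ} (r : ℕ) (k : cube L) :
    Real.exp (-xk n L β k) ^ (r + 1) =
      Real.exp (-((((r : ℝ) + 1) * (n * β)) / 2 * lam3 L k)) := by
  unfold xk
  rw [← Real.exp_nat_mul]
  congr 1
  push_cast
  ring

lemma xk_zero {n L : ℕ} {β : ℝ} {k : cube L} (hk : k.1 = 0) : xk n L β k = 0 := by
  unfold xk lam3 lam1
  rw [hk]
  simp

/-- majorant of one order. -/
noncomputable def TT (n L : ℕ) (β : ℝ) (r : ℕ) : ℝ :=
  (AA n ^ 3)⁻¹ * (1 / Real.sqrt ((r : ℝ) + 1) ^ 3) * (1 + 7 * (448 / β)) +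
    12 * (AA n ^ 2)⁻¹ * (Real.sqrt β / L) * (1 / Real.sqrt ((r : ℝ) + 1) ^ 2) +
    6 * (AA n)⁻¹ * (β / (L : ℝ) ^ 2) * (1 / Real.sqrt ((r : ℝ) + 1))

lemma TT_nonneg {n L : ℕ} {β : ℝ} (hβ : 0 ≤ β) (r : ℕ) : 0 ≤ TT n L β r := by
  unfold TT AA
  positivity

/-- one order, zero mode removed. -/
lemma order_nz {n : ℕ} (hn : 1 ≤ n) {β : ℝ} (hβ : 448 ≤ β) {L : ℕ} (hL : 0 < L) (r : ℕ) :
    Real.sqrt β ^ 3 / (L : ℝ) ^ 3 * nz (fun k : cube L => Real.exp (-xk n L β k) ^ (r + 1)) ≤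
      TT n L β r := by
  have hβ0 : 0 < β := by linarith
  have h1 := order_bound hn hβ hL r
  have h2 : nz (fun k : cube L => Real.exp (-xk n L β k) ^ (r + 1)) ≤
      (1 + L * bJ (((r : ℝ) + 1) * (n * β))) ^ 3 - 1 := by
    rw [nz_le hL (fun k hk => by rw [xk_zero hk]; simp)]
    have h3 := three_dim_sum (L := L) hL (t := ((r : ℝ) + 1) * (n * β)) (by positivity)
    have h4 : ∑ k : cube L, Real.exp (-xk n L β k) ^ (r + 1) =
        ∑ k : cube L, Real.exp (-((((r : ℝ) + 1) * (n * β)) / 2 * lam3 L k)) :=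
      Finset.sum_congr rfl fun k _ => exp_pow_xk r k
    exact sub_le_sub_right (h4.le.trans h3) 1
  have h5 := mul_le_mul_of_nonneg_left h2 (a := Real.sqrt β ^ 3 / (L : ℝ) ^ 3) (by positivity)
  unfold TT AA
  rw [mul_sub, mul_one] at h5
  linarith

/-- convexity: the effect of a reward. -/
lemma neg_log_le {x y τ ε : ℝ} (hx : 0 < x) (hε : ε < 1) (hτ : 0 ≤ τ)
    (h1 : (1 - ε) * x ≤ y) (h2 : x - τ ≤ y) :
    -Real.log (1 - Real.exp (-y)) ≤ -Real.log (1 - Real.exp (-x)) +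
      τ / (Real.exp ((1 - ε) * x) - 1) := by
  have hex : 0 < (1 - ε) * x := mul_pos (by linarith) hx
  have hy : 0 < y := lt_of_lt_of_le hex h1
  have h3 : 0 < Real.exp ((1 - ε) * x) - 1 := by
    have := Real.add_one_lt_exp hex.ne'
    linarith
  have hq : ∀ {z : ℝ}, 0 < z → 0 < 1 - Real.exp (-z) := by
    intro z hz
    have : Real.exp (-z) < 1 := by rw [Real.exp_lt_one_iff]; linarith
    linarith
  rcases le_total x y with hxy | hxy
  · have h4 : Real.log (1 - Real.exp (-x)) ≤ Real.log (1 - Real.exp (-y)) := by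
      apply Real.log_le_log (hq hx)
      have : Real.exp (-y) ≤ Real.exp (-x) := Real.exp_le_exp.2 (by linarith)
      linarith
    have h5 : 0 ≤ τ / (Real.exp ((1 - ε) * x) - 1) := by positivity
    linarith
  · -- log ((1 - e^{-x}) / (1 - e^{-y})) ≤ (e^{-y} - e^{-x}) / (1 - e^{-y})
    have h4 : Real.log (1 - Real.exp (-x)) - Real.log (1 - Real.exp (-y)) ≤
        (1 - Real.exp (-x)) / (1 - Real.exp (-y)) - 1 := by
      rw [← Real.log_div (hq hx).ne' (hq hy).ne']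
      exact Real.log_le_sub_one_of_pos (div_pos (hq hx) (hq hy))
    have h5 : (1 - Real.exp (-x)) / (1 - Real.exp (-y)) - 1 =
        (1 - Real.exp (y - x)) / (Real.exp y - 1) := by
      have h6 : Real.exp (-y) * Real.exp y = 1 := by rw [← Real.exp_add]; simp
      have h7 : Real.exp (-x) = Real.exp (y - x) * Real.exp (-y) := by
        rw [← Real.exp_add]; congr 1; ring
      have h8 : 0 < Real.exp y - 1 := by
        have := Real.add_one_lt_exp hy.ne'
        linarith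
      have h9 : 1 - Real.exp (-y) ≠ 0 := (hq hy).ne'
      rw [h7, div_sub_one h9, div_eq_div_iff h9 h8.ne']
      have h10 : Real.exp y * Real.exp (-y) = 1 := by rw [mul_comm]; exact h6
      linear_combination (1 - Real.exp (y - x)) * h6 
    have h6 : (1 - Real.exp (y - x)) / (Real.exp y - 1) ≤ τ / (Real.exp ((1 - ε) * x) - 1) := by
      have h7 : 1 - Real.exp (y - x) ≤ τ := by
        have := Real.add_one_le_exp (y - x)
        linarith
      have h8 : Real.exp ((1 - ε) * x) ≤ Real.exp y := Real.exp_le_exp.2 h1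
      apply div_le_div₀ hτ h7 h3
      linarith
    linarith

lemma geo_rem {x : ℝ} (hx : 0 < x) (J : ℕ) :
    1 / (Real.exp x - 1) = ∑ r ∈ range J, Real.exp (-x) ^ (r + 1) +
      Real.exp (-x) ^ J / (Real.exp x - 1) := by
  have h1 : 0 < Real.exp x - 1 := by
    have := Real.add_one_lt_exp hx.ne'
    linarith
  have h2 : Real.exp (-x) * Real.exp x = 1 := by rw [← Real.exp_add]; simp
  induction J with
  | zero => simp
  | succ J ih =>
    rw [Finset.sum_range_succ, ih]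
    have h3 : Real.exp (-x) ^ J / (Real.exp x - 1) = Real.exp (-x) ^ (J + 1) +
        Real.exp (-x) ^ (J + 1) / (Real.exp x - 1) := by
      rw [div_eq_iff h1.ne', add_mul, div_mul_cancel₀ _ h1.ne', pow_succ]
      linear_combination -(Real.exp (-x) ^ J) * h2
    linarith

lemma card_nz (L : ℕ) : ((univ.filter (fun k : cube L => k.1 ≠ 0)).card : ℝ) ≤ (L : ℝ) ^ 3 := by
  have h1 : (univ.filter (fun k : cube L => k.1 ≠ 0)).card ≤ (univ : Finset (cube L)).card :=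
    Finset.card_le_card (Finset.filter_subset _ _)
  have h2 : (univ : Finset (cube L)).card = L ^ 3 := by
    rw [Finset.card_univ, Fintype.card_coe, cube, Fintype.card_piFinset]
    simp
  rw [h2] at h1
  exact_mod_cast h1

lemma nz_sum {L : ℕ} {J : ℕ} (f : ℕ → cube L → ℝ) :
    nz (fun k => ∑ r ∈ range J, f r k) = ∑ r ∈ range J, nz (f r) := by
  unfold nz
  exact Finset.sum_comm

lemma sum_inv_le (J : ℕ) : ∑ r ∈ range J, 1 / Real.sqrt ((r : ℝ) + 1) ^ 2 ≤ 1 + Real.log J := by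
  have h := harmonic_le_one_add_log J
  have h2 : (harmonic J : ℝ) = ∑ r ∈ range J, 1 / Real.sqrt ((r : ℝ) + 1) ^ 2 := by
    unfold harmonic
    push_cast
    refine Finset.sum_congr rfl fun r _ => ?_
    rw [Real.sq_sqrt (by positivity), one_div]
  rw [← h2]
  exact h

lemma sum_inv_sqrt_le (J : ℕ) : ∑ r ∈ range J, 1 / Real.sqrt ((r : ℝ) + 1) ≤ 2 * Real.sqrt J := by
  induction J with
  | zero => simp
  | succ J ih =>
    rw [Finset.sum_range_succ]
    push_cast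
    set a := Real.sqrt J with ha
    set b := Real.sqrt ((J : ℝ) + 1) with hb
    have ha0 : 0 ≤ a := Real.sqrt_nonneg _
    have hb0 : 0 < b := Real.sqrt_pos.2 (by positivity)
    have h1 : a ^ 2 = J := Real.sq_sqrt (by positivity)
    have h2 : b ^ 2 = (J : ℝ) + 1 := Real.sq_sqrt (by positivity)
    have h3 : a ≤ b := Real.sqrt_le_sqrt (by linarith)
    have h4 : 1 / b ≤ 2 * b - 2 * a := by
      rw [div_le_iff₀ hb0]
      nlinarith [sq_nonneg (b - a)]
    linarith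

lemma sum_TT {n : ℕ} (hn : 1 ≤ n) {β : ℝ} (hβ : 448 ≤ β) {L : ℕ} (hL : 0 < L) (J : ℕ) :
    ∑ r ∈ range J, TT n L β r ≤ aS ((n : ℝ) / 2) * (1 + 3136 / β) +
      12 * (AA n ^ 2)⁻¹ * (Real.sqrt β / L) * (1 + Real.log J) +
      12 * (AA n)⁻¹ * (β / (L : ℝ) ^ 2) * Real.sqrt J := by
  have hβ0 : 0 < β := by linarith
  have hA := AA_pos hn
  have hLR : (0 : ℝ) < L := by exact_mod_cast hL
  have haS : aS ((n : ℝ) / 2) = (AA n ^ 3)⁻¹ * ∑' r : ℕ, 1 / Real.sqrt ((r : ℝ) + 1) ^ 3 := by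
    rw [aS, ← H.zeta_hasSum.tsum_eq, AA]
  have h1 : ∑ r ∈ range J, 1 / Real.sqrt ((r : ℝ) + 1) ^ 3 ≤
      ∑' r : ℕ, 1 / Real.sqrt ((r : ℝ) + 1) ^ 3 :=
    zsum.sum_le_tsum _ fun r _ => by positivity
  have h2 := sum_inv_le J
  have h3 := sum_inv_sqrt_le J
  unfold TT
  rw [Finset.sum_add_distrib, Finset.sum_add_distrib, ← Finset.mul_sum, ← Finset.mul_sum]
  refine add_le_add (add_le_add ?_ ?_) ?_
  · have e1 : ∀ r : ℕ, (AA n ^ 3)⁻¹ * (1 / Real.sqrt ((r : ℝ) + 1) ^ 3) * (1 + 7 * (448 / β)) =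
        (AA n ^ 3)⁻¹ * (1 + 3136 / β) * (1 / Real.sqrt ((r : ℝ) + 1) ^ 3) := by
      intro r; ring
    simp only [e1]
    rw [← Finset.mul_sum, haS]
    calc _ ≤ (AA n ^ 3)⁻¹ * (1 + 3136 / β) * ∑' r : ℕ, 1 / Real.sqrt ((r : ℝ) + 1) ^ 3 :=
          mul_le_mul_of_nonneg_left h1 (by positivity)
      _ = _ := by ring
  · exact mul_le_mul_of_nonneg_left h2 (by positivity)
  · calc _ ≤ 6 * (AA n)⁻¹ * (β / (L : ℝ) ^ 2) * (2 * Real.sqrt J) :=
          mul_le_mul_of_nonneg_left h3 (by positivity)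
      _ = _ := by ring

/-- U3b: the number of magnons of the ideal gas in a Neumann box, zero mode removed. -/
theorem occ_le {n : ℕ} (hn : 1 ≤ n) {β : ℝ} (hβ : 448 ≤ β) {L : ℕ} (hL : 0 < L) (J : ℕ) :
    Real.sqrt β ^ 3 / (L : ℝ) ^ 3 * nz (fun k : cube L => 1 / (Real.exp (xk n L β k) - 1)) ≤
      aS ((n : ℝ) / 2) * (1 + 3136 / β) +
      12 * (AA n ^ 2)⁻¹ * (Real.sqrt β / L) * (1 + Real.log J) +
      12 * (AA n)⁻¹ * (β / (L : ℝ) ^ 2) * Real.sqrt J +
      Real.sqrt β ^ 3 * (Real.exp (-(J * (2 * n * β / (L : ℝ) ^ 2))) /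
        (2 * n * β / (L : ℝ) ^ 2)) := by
  have hβ0 : 0 < β := by linarith
  have hnR : (1 : ℝ) ≤ n := by exact_mod_cast hn
  have hLR : (0 : ℝ) < L := by exact_mod_cast hL
  set g : ℝ := 2 * n * β / (L : ℝ) ^ 2 with hg
  have hg0 : 0 < g := by positivity
  have h1 : nz (fun k : cube L => 1 / (Real.exp (xk n L β k) - 1)) ≤
      ∑ r ∈ range J, nz (fun k : cube L => Real.exp (-xk n L β k) ^ (r + 1)) +
      (L : ℝ) ^ 3 * (Real.exp (-(J * g)) / g) := by
    have h2 : nz (fun k : cube L => 1 / (Real.exp (xk n L β k) - 1)) ≤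
        nz (fun k : cube L => ∑ r ∈ range J, Real.exp (-xk n L β k) ^ (r + 1) +
          Real.exp (-(J * g)) / g) := by
      refine nz_mono fun k hk => ?_
      have hx : g ≤ xk n L β k := xk_ge hβ0.le hk
      have hx0 : 0 < xk n L β k := hg0.trans_le hx
      rw [geo_rem hx0 J]
      refine add_le_add le_rfl ?_
      have h3 : Real.exp (-xk n L β k) ^ J ≤ Real.exp (-(J * g)) := by
        rw [← Real.exp_nat_mul, Real.exp_le_exp]
        have : (J : ℝ) * g ≤ J * xk n L β k := mul_le_mul_of_nonneg_left hx (by positivity)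
        linarith
      have h4 : g ≤ Real.exp (xk n L β k) - 1 := by
        have := Real.add_one_le_exp (xk n L β k)
        linarith
      exact div_le_div₀ (Real.exp_pos _).le h3 hg0 h4
    refine h2.trans ?_
    unfold nz
    rw [Finset.sum_add_distrib, Finset.sum_const, nsmul_eq_mul, Finset.sum_comm]
    exact add_le_add le_rfl (mul_le_mul_of_nonneg_right (card_nz L) (by positivity))
  have h5 := mul_le_mul_of_nonneg_left h1 (a := Real.sqrt β ^ 3 / (L : ℝ) ^ 3) (by positivity)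
  refine h5.trans ?_
  rw [mul_add, Finset.mul_sum]
  refine add_le_add ?_ ?_
  · refine (Finset.sum_le_sum fun r _ => order_nz hn hβ hL r).trans ?_
    exact sum_TT hn hβ hL J
  · refine le_of_eq ?_
    field_simp

end Vale.Agent.P361.LRO.Bloch.U3
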