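import Vale.Agent.P361.B.Params
import Vale.Agent.P361.LRO.Bloch.Su2

/-!
P361 stage 3, block (E): log-free upper bound for the free energy of cubes in zero field
(helper213). (Z2): `log Zt` on a cube of side `β^{51/100}` in the field of (Z1); (Z3): all cubes.
-/

namespace Vale.Agent.P361.B

open Filter Topology

namespace ZF

/-- Choice of the cube, with an upper bound of the side. -/
theorem exists_cube_ub {n : ℕ} (hn : 1 ≤ n) {κ η : ℝ} (hκ : 0 < κ) (hη : 0 < η)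
    (hη2 : η < 1 / 2) :
    ∀ᶠ β : ℝ in atTop, ∃ L : ℕ, 0 < L ∧ β ^ (1 / 2 + κ + η) / 2 ≤ L ∧
      (L : ℝ) ≤ 2 * β ^ (1 / 2 + κ + η) ∧
      Real.log (Zt n (cube L) (β / 2) 0) ≤ 8 * β ^ (3 * κ + 7 * η) := by
  have hcr := crude_log hn hη (by linarith)
  have l1 : ∀ᶠ β : ℝ in atTop, 2 ≤ β ^ (1 / 2 - η) :=
    (tendsto_rpow_atTop (by linarith)).eventually_ge_atTop 2
  filter_upwards [hcr, l1, eventually_ge_atTop 1] with β hcr h2X hβ1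
  have hβ0 : 0 < β := by linarith
  have pp : ∀ a : ℝ, 0 < β ^ a := fun a => Real.rpow_pos_of_pos hβ0 a
  set X : ℝ := β ^ (1 / 2 - η) with hX
  set Y : ℝ := β ^ (κ + 2 * η) with hY
  have hX0 : 0 < X := pp _
  have hY1 : 1 ≤ Y := Real.one_le_rpow hβ1 (by linarith)
  obtain ⟨L0, hL0a, hL0b⟩ : ∃ L0 : ℕ, (L0 : ℝ) ≤ X ∧ X / 2 ≤ L0 := by
    refine ⟨⌊X⌋₊, Nat.floor_le hX0.le, ?_⟩
    have := Nat.lt_floor_add_one X
    linarith
  have hL0pos : 0 < L0 := by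
    have : (0 : ℝ) < L0 := by linarith
    exact_mod_cast this
  obtain ⟨q, hqa, hqb⟩ : ∃ q : ℕ, Y ≤ q ∧ (q : ℝ) ≤ 2 * Y := by
    refine ⟨⌈Y⌉₊, Nat.le_ceil Y, ?_⟩
    have := (Nat.ceil_lt_add_one (by linarith : 0 ≤ Y)).le
    linarith
  have hqpos : 0 < q := by
    have : (0 : ℝ) < q := by linarith
    exact_mod_cast this
  have hXY : X * Y = β ^ (1 / 2 + κ + η) := by
    rw [hX, hY, ← Real.rpow_add hβ0]; congr 1; ring
  refine ⟨q * L0, Nat.mul_pos hqpos hL0pos, ?_, ?_, ?_⟩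
  · rw [Nat.cast_mul, ← hXY]
    have := mul_le_mul hqa hL0b (by positivity) (by positivity)
    linarith
  · rw [Nat.cast_mul, ← hXY]
    have := mul_le_mul hqb hL0a (by positivity) (by positivity)
    linarith
  · have hYA : (2 * Y) ^ 3 * β ^ η = 8 * β ^ (3 * κ + 7 * η) := by
      rw [hY, mul_pow, ← Real.rpow_natCast (β ^ (κ + 2 * η)) 3, ← Real.rpow_mul hβ0.le, mul_assoc,
        ← Real.rpow_add hβ0]
      norm_num
      congr 1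
      ring
    have h1 := log_Zt_cube_mul (n := n) (β := β / 2) (t := 0) (by positivity) le_rfl q L0 hL0pos
    have h2 := hcr L0 hL0pos hL0a
    refine h1.trans ?_
    calc (q : ℝ) ^ 3 * Real.log (Zt n (cube L0) (β / 2) 0) ≤ (q : ℝ) ^ 3 * β ^ η :=
          mul_le_mul_of_nonneg_left h2 (by positivity)
      _ ≤ (2 * Y) ^ 3 * β ^ η :=
          mul_le_mul_of_nonneg_right (pow_le_pow_left₀ (by positivity) hqb 3) (pp _).le
      _ = _ := hYA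

/-- The interaction error, `κ = η = 1/200`, field at least `β^{-1/50}/24`. -/
theorem inter_err {β A N W : ℝ} (hβ1 : 1 ≤ β) (hA : A = 8 * β ^ (1 / 20 : ℝ)) (hN0 : 0 ≤ N)
    (hN : N ≤ 48 * (A * β ^ (1 / 50 : ℝ))) (hW0 : 0 ≤ W) (hW : W ≤ 899 * Real.sqrt (A / β)) :
    β * (12 * Real.exp 2 * (N ^ 2 * W ^ 3)) ≤
      12 * Real.exp 2 * (48 ^ 2 * 8 ^ 2) * (899 ^ 3 * Real.sqrt 8 ^ 3) := by
  have hβ0 : 0 < β := by linarith
  have pp : ∀ a : ℝ, 0 < β ^ a := fun a => Real.rpow_pos_of_pos hβ0 a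
  have h1 : N ^ 2 ≤ (48 * (A * β ^ (1 / 50 : ℝ))) ^ 2 := pow_le_pow_left₀ hN0 hN 2
  have h1' : W ^ 3 ≤ (899 * Real.sqrt (A / β)) ^ 3 := pow_le_pow_left₀ hW0 hW 3
  have h2 : N ^ 2 * W ^ 3 ≤ (48 * (A * β ^ (1 / 50 : ℝ))) ^ 2 * (899 * Real.sqrt (A / β)) ^ 3 :=
    mul_le_mul h1 h1' (by positivity) (by positivity)
  have h3 : Real.sqrt (A / β) ^ 3 = Real.sqrt 8 ^ 3 * β ^ (-(57 / 40) : ℝ) := by
    have e1 : A / β = 8 * β ^ (-(19 / 20) : ℝ) := by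
      rw [hA, show (-(19 / 20) : ℝ) = 1 / 20 - 1 by norm_num, Real.rpow_sub hβ0, Real.rpow_one]
      ring
    rw [e1, Real.sqrt_mul (by norm_num), mul_pow, Real.sqrt_eq_rpow (β ^ _),
      ← Real.rpow_mul hβ0.le, ← Real.rpow_natCast (β ^ _), ← Real.rpow_mul hβ0.le]
    congr 2
    norm_num
  have h4 : β * (12 * Real.exp 2 * (N ^ 2 * W ^ 3)) ≤
      β * (12 * Real.exp 2 *
        ((48 * (A * β ^ (1 / 50 : ℝ))) ^ 2 * (899 * Real.sqrt (A / β)) ^ 3)) :=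
    mul_le_mul_of_nonneg_left (mul_le_mul_of_nonneg_left h2 (by positivity)) hβ0.le
  refine h4.trans ?_
  have h5 : β * (12 * Real.exp 2 *
        ((48 * (A * β ^ (1 / 50 : ℝ))) ^ 2 * (899 * Real.sqrt (A / β)) ^ 3)) =
      12 * Real.exp 2 * (48 ^ 2 * 8 ^ 2) * (899 ^ 3 * Real.sqrt 8 ^ 3) *
      (β * (β ^ (1 / 20 : ℝ)) ^ 2 * (β ^ (1 / 50 : ℝ)) ^ 2 * β ^ (-(57 / 40) : ℝ)) := by
    rw [mul_pow 899, h3, hA]
    ring
  rw [h5]
  have h6 : β * (β ^ (1 / 20 : ℝ)) ^ 2 * (β ^ (1 / 50 : ℝ)) ^ 2 * β ^ (-(57 / 40) : ℝ) =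
      β ^ (-(57 / 200) : ℝ) := by
    have e1 : (β ^ (1 / 20 : ℝ)) ^ 2 = β ^ (1 / 10 : ℝ) := by
      rw [← Real.rpow_natCast, ← Real.rpow_mul hβ0.le]; norm_num
    have e2 : (β ^ (1 / 50 : ℝ)) ^ 2 = β ^ (1 / 25 : ℝ) := by
      rw [← Real.rpow_natCast, ← Real.rpow_mul hβ0.le]; norm_num
    rw [e1, e2]
    nth_rewrite 1 [← Real.rpow_one β]
    rw [← Real.rpow_add hβ0, ← Real.rpow_add hβ0, ← Real.rpow_add hβ0]
    norm_num
  rw [h6]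
  have h7 : β ^ (-(57 / 200) : ℝ) ≤ 1 := by
    have := Real.rpow_le_rpow_of_exponent_le hβ1 (show (-(57 / 200) : ℝ) ≤ 0 by norm_num)
    rwa [Real.rpow_zero] at this
  have h8 : 0 ≤ 12 * Real.exp 2 * (48 ^ 2 * 8 ^ 2) * (899 ^ 3 * Real.sqrt 8 ^ 3) := by positivity
  calc _ ≤ 12 * Real.exp 2 * (48 ^ 2 * 8 ^ 2) * (899 ^ 3 * Real.sqrt 8 ^ 3) * 1 :=
        mul_le_mul_of_nonneg_left h7 h8
    _ = _ := mul_one _

end ZF

/-- (Z2) -/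
theorem log_Zt_zf {n : ℕ} (hn : 1 ≤ n) : ∃ C b0 : ℝ, 0 ≤ C ∧ 1 ≤ b0 ∧ ∀ b : ℝ, b0 ≤ b →
    ∃ L : ℕ, 0 < L ∧ b ^ (51 / 100 : ℝ) / 2 ≤ L ∧ (L : ℝ) ≤ 2 * b ^ (51 / 100 : ℝ) ∧
      Real.log (Zt n (cube L) b (n * b / (6 * (L : ℝ) ^ 2))) ≤
        C * (L : ℝ) ^ 3 / b ^ (3 / 2 : ℝ) := by
  have hnR : (1 : ℝ) ≤ n := by exact_mod_cast hn
  obtain ⟨C, hC0, hC⟩ := bosSer_le hn
  have l2 : ∀ᶠ β : ℝ in atTop, 8 ≤ β ^ (19 / 20 : ℝ) :=
    (tendsto_rpow_atTop (by norm_num)).eventually_ge_atTop 8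
  obtain ⟨β₀, hβ₀⟩ := eventually_atTop.1
    ((ZF.exists_cube_ub hn (κ := 1 / 200) (η := 1 / 200) (by norm_num) (by norm_num)
      (by norm_num)).and (l2.and (eventually_ge_atTop 448)))
  have hKnn : 0 ≤ 12 * Real.exp 2 * (48 ^ 2 * 8 ^ 2) * (899 ^ 3 * Real.sqrt 8 ^ 3) := by
    positivity
  have haS := aS_nonneg ((n : ℝ) / 2)
  have hlog3 : 0 ≤ Real.log 3 := Real.log_nonneg (by norm_num)
  refine ⟨8 * Real.log 3 + 8 * (12 * Real.exp 2 * (48 ^ 2 * 8 ^ 2) * (899 ^ 3 * Real.sqrt 8 ^ 3)) +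
    aS ((n : ℝ) / 2) + C * 7 + 200, max β₀ 1, by positivity, le_max_right _ _,
    fun β hβ' => ?_⟩
  have hβ : β₀ ≤ β := (le_max_left _ _).trans hβ'
  obtain ⟨⟨L, hLpos, hLge, hLle, hz1⟩, h8, h448⟩ := hβ₀ β hβ
  rw [show (1 / 2 + 1 / 200 + 1 / 200 : ℝ) = 51 / 100 by norm_num] at hLge hLle
  refine ⟨L, hLpos, hLge, hLle, ?_⟩
  have hβ0 : 0 < β := by linarith
  have hβ1 : 1 ≤ β := by linarith
  have pw : ∀ {a b : ℝ}, a ≤ b → β ^ a ≤ β ^ b := fun h =>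
    Real.rpow_le_rpow_of_exponent_le hβ1 h
  have pp : ∀ a : ℝ, 0 < β ^ a := fun a => Real.rpow_pos_of_pos hβ0 a
  have hLR : (0 : ℝ) < L := by exact_mod_cast hLpos
  set t : ℝ := n * β / (6 * (L : ℝ) ^ 2) with ht
  have ht0 : 0 < t := by positivity
  have htlow : β ^ (-(1 / 50) : ℝ) / 24 ≤ t := by
    rw [ht, le_div_iff₀ (by positivity)]
    have h1 : (L : ℝ) ^ 2 ≤ 4 * β ^ (51 / 50 : ℝ) := by
      calc (L : ℝ) ^ 2 ≤ (2 * β ^ (51 / 100 : ℝ)) ^ 2 := pow_le_pow_left₀ hLR.le hLle 2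
        _ = 4 * β ^ (51 / 50 : ℝ) := by
          rw [mul_pow, ← Real.rpow_natCast (β ^ _), ← Real.rpow_mul hβ0.le]; norm_num
    have h2 : β ^ (-(1 / 50) : ℝ) * β ^ (51 / 50 : ℝ) = β := by
      rw [← Real.rpow_add hβ0]
      nth_rewrite 2 [← Real.rpow_one β]
      norm_num
    have h3 : β ^ (-(1 / 50) : ℝ) * (L : ℝ) ^ 2 ≤ 4 * β := by
      calc _ ≤ β ^ (-(1 / 50) : ℝ) * (4 * β ^ (51 / 50 : ℝ)) :=
            mul_le_mul_of_nonneg_left h1 (pp _).le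
        _ = 4 * (β ^ (-(1 / 50) : ℝ) * β ^ (51 / 50 : ℝ)) := by ring
        _ = 4 * β := by rw [h2]
    nlinarith
  obtain ⟨A, hA⟩ : ∃ A : ℝ, A = 8 * β ^ (1 / 20 : ℝ) := ⟨_, rfl⟩
  rw [show (3 * (1 / 200) + 7 * (1 / 200) : ℝ) = 1 / 20 by norm_num, ← hA] at hz1
  have hA8 : 8 ≤ A := by
    have : 1 ≤ β ^ (1 / 20 : ℝ) := Real.one_le_rpow hβ1 (by norm_num)
    rw [hA]; linarith
  have hz2 : Real.log (Zt n (cube L) β 0) ≤ A :=
    (Real.log_le_log (Zt_pos β 0) (Zt_anti (by linarith) le_rfl)).trans hz1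
  have hAβ : A ≤ β := by
    have h1 : β ^ (1 / 20 : ℝ) * β ^ (19 / 20 : ℝ) = β := by
      rw [← Real.rpow_add hβ0]
      nth_rewrite 2 [← Real.rpow_one β]
      norm_num
    calc A = β ^ (1 / 20 : ℝ) * 8 := by rw [hA]; ring
      _ ≤ β ^ (1 / 20 : ℝ) * β ^ (19 / 20 : ℝ) :=
        mul_le_mul_of_nonneg_left h8 (pp _).le
      _ = β := h1
  have hinvt : 1 / t ≤ 24 * β ^ (1 / 50 : ℝ) := by
    rw [div_le_iff₀ ht0]
    have h3 : β ^ (1 / 50 : ℝ) * β ^ (-(1 / 50) : ℝ) = 1 := by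
      rw [← Real.rpow_add hβ0]; norm_num
    have h4 := mul_le_mul_of_nonneg_left htlow (a := 24 * β ^ (1 / 50 : ℝ))
      (by have := pp (1 / 50); positivity)
    have h5 : 24 * β ^ (1 / 50 : ℝ) * (β ^ (-(1 / 50) : ℝ) / 24) = 1 := by
      linear_combination h3
    linarith
  obtain ⟨N1, hN1a, hN1b⟩ : ∃ N1 : ℕ, A ≤ t * N1 ∧ (N1 : ℝ) ≤ 48 * (A * β ^ (1 / 50 : ℝ)) := by
    refine ⟨⌈A / t⌉₊, ?_, ?_⟩
    · have := Nat.le_ceil (A / t)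
      rwa [div_le_iff₀ ht0, mul_comm] at this
    · have h1 := (Nat.ceil_lt_add_one (by positivity : 0 ≤ A / t)).le
      have h2 : A / t ≤ 24 * (A * β ^ (1 / 50 : ℝ)) := by
        have := mul_le_mul_of_nonneg_left hinvt (a := A) (by linarith)
        calc A / t = A * (1 / t) := by ring
          _ ≤ _ := this
          _ = _ := by ring
      have h5 : 1 ≤ A * β ^ (1 / 50 : ℝ) := by
        have := Real.one_le_rpow hβ1 (show (0 : ℝ) ≤ 1 / 50 by norm_num)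
        nlinarith
      linarith
  have hup := logZt_upper hn hLpos (β := β) (t := t) (E1 := 2 * A / β) hβ0.le ht0
    (by positivity) N1 (hz1.trans (le_of_eq (by field_simp))) (hz2.trans hN1a)
  obtain ⟨sb1, sb2, sb3, sb4⟩ := side_bounds (κ := 1 / 200) (η := 1 / 200) (by norm_num)
    (by norm_num) hβ1 hLpos (by
      rw [show (1 / 2 + 1 / 200 + 1 / 200 : ℝ) = 51 / 100 by norm_num]; exact hLge)
  have hbJ := bJ_param hn hβ0 (by linarith) hAβ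
  have hLinv : 1 / (L : ℝ) ≤ Real.sqrt (A / β) := by
    refine Real.le_sqrt_of_sq_le ?_
    rw [div_pow, one_pow, div_le_div_iff₀ (by positivity) hβ0, one_mul]
    nlinarith
  have hP0 : 0 < Real.sqrt β ^ 3 / (L : ℝ) ^ 3 := by positivity
  have piece2 := ZF.inter_err hβ1 hA (Nat.cast_nonneg N1) hN1b
    (W := 1 / (L : ℝ) + 2 * H.bJ (2 * n / (2 * A / β)))
    (by have := H.bJ_nonneg (2 * n / (2 * A / β)); positivity) (by linarith)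
  have hk1 : β ^ (-(1 / 200) : ℝ) ≤ 1 := by
    have := pw (show (-(1 / 200) : ℝ) ≤ 0 by norm_num)
    rwa [Real.rpow_zero] at this
  have hP3 : Real.sqrt β ^ 3 / (L : ℝ) ^ 3 ≤ 8 * β ^ (-(3 / 100) : ℝ) := by
    have e : (-(3 * (1 / 200)) - 3 * (1 / 200) : ℝ) = -(3 / 100) := by norm_num
    rwa [e] at sb4
  have hP8 : Real.sqrt β ^ 3 / (L : ℝ) ^ 3 ≤ 8 := by
    have h1 : β ^ (-(3 / 100) : ℝ) ≤ 1 := by
      have := pw (show (-(3 / 100) : ℝ) ≤ 0 by norm_num)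
      rwa [Real.rpow_zero] at this
    linarith
  have piece3 := hC β h448 L hLpos t ht0
  have g1 : 1 / β ≤ 1 := by rw [div_le_one hβ0]; exact hβ1
  have g4 : Real.sqrt β ^ 3 / (L : ℝ) ^ 3 / t ≤ 192 := by
    have h1 : Real.sqrt β ^ 3 / (L : ℝ) ^ 3 / t =
        Real.sqrt β ^ 3 / (L : ℝ) ^ 3 * (1 / t) := by ring
    rw [h1]
    calc _ ≤ 8 * β ^ (-(3 / 100) : ℝ) * (24 * β ^ (1 / 50 : ℝ)) :=
          mul_le_mul hP3 hinvt (by positivity) (by have := pp (-(3 / 100)); positivity)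
      _ = 192 * (β ^ (-(3 / 100) : ℝ) * β ^ (1 / 50 : ℝ)) := by ring
      _ = 192 * β ^ (-(1 / 100) : ℝ) := by rw [← Real.rpow_add hβ0]; norm_num
      _ ≤ 192 * 1 := by
          refine mul_le_mul_of_nonneg_left ?_ (by norm_num)
          have := pw (show (-(1 / 100) : ℝ) ≤ 0 by norm_num)
          rwa [Real.rpow_zero] at this
      _ = 192 := by norm_num
  have g5 : C * (1 / β + Real.sqrt β / L + β / (L : ℝ) ^ 2) ≤ C * 7 :=
    mul_le_mul_of_nonneg_left (by linarith) hC0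
  have hFS := FS_le ((n : ℝ) / 2) ht0.le
  set P : ℝ := Real.sqrt β ^ 3 / (L : ℝ) ^ 3 with hP
  have h3 := mul_le_mul_of_nonneg_left hup hP0.le
  rw [mul_add, mul_add] at h3
  generalize 12 * Real.exp 2 * (48 ^ 2 * 8 ^ 2) * (899 ^ 3 * Real.sqrt 8 ^ 3) = K at piece2 hKnn ⊢
  have piece1 : P * Real.log 3 ≤ 8 * Real.log 3 := mul_le_mul_of_nonneg_right hP8 hlog3
  have piece2' : P * (β * (12 * Real.exp 2 *
      ((N1 : ℝ) ^ 2 * (1 / (L : ℝ) + 2 * H.bJ (2 * n / (2 * A / β))) ^ 3))) ≤ 8 * K := by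
    calc _ ≤ P * K := mul_le_mul_of_nonneg_left piece2 hP0.le
      _ ≤ 8 * K := mul_le_mul_of_nonneg_right hP8 hKnn
  have h4 : P * Real.log (Zt n (cube L) β t) ≤
      8 * Real.log 3 + 8 * K + aS ((n : ℝ) / 2) + C * 7 + 200 := by linarith
  have hsβ : Real.sqrt β ^ 3 = β ^ (3 / 2 : ℝ) := by
    rw [Real.sqrt_eq_rpow, ← Real.rpow_natCast, ← Real.rpow_mul hβ0.le]
    norm_num
  rw [le_div_iff₀ (pp _), ← hsβ]
  have h5 : P * (L : ℝ) ^ 3 = Real.sqrt β ^ 3 := by rw [hP]; field_simp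
  have h6 := mul_le_mul_of_nonneg_right h4 (a := (L : ℝ) ^ 3) (by positivity)
  calc Real.log (Zt n (cube L) β t) * Real.sqrt β ^ 3
      = P * Real.log (Zt n (cube L) β t) * (L : ℝ) ^ 3 := by rw [← h5]; ring
    _ ≤ _ := h6

/-- (Z3), from (Z1). -/
theorem log_Zt_zero_of {n : ℕ} (hn : 1 ≤ n)
    (hZ1 : ∀ L : ℕ, 0 < L → ∀ b' b : ℝ, 0 ≤ b' → b' ≤ b →
      Zt n (cube L) b 0 ≤ 2 * ((n : ℝ) * (L : ℝ) ^ 3 + 1) *
        Zt n (cube L) b' ((b - b') * n / (6 * (L : ℝ) ^ 2))) :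
    ∃ C b0 : ℝ, 0 ≤ C ∧ 1 ≤ b0 ∧ ∀ b : ℝ, b0 ≤ b → ∀ l : ℕ,
      Real.log (Zt n (cube l) (2 * b) 0) ≤
        C * (l : ℝ) ^ 3 / b ^ (3 / 2 : ℝ) + C * b ^ (51 / 100 : ℝ) * (l : ℝ) ^ 2 := by
  have hnR : (1 : ℝ) ≤ n := by exact_mod_cast hn
  obtain ⟨C, b1, hC, hb1, h⟩ := log_Zt_zf hn
  -- `log (2 (n L³ + 1)) ≤ L³ / b^{3/2}` for large `b`
  have l1 : Tendsto (fun β : ℝ => (Real.log (32 * n) + 2 * Real.log β) / β ^ (3 / 100 : ℝ)) atTop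
      (𝓝 0) := by
    have h1 := (isLittleO_log_rpow_atTop (show (0 : ℝ) < 3 / 100 by norm_num)).tendsto_div_nhds_zero
    have h2 : Tendsto (fun β : ℝ => Real.log (32 * n) / β ^ (3 / 100 : ℝ)) atTop (𝓝 0) :=
      tendsto_const_nhds.div_atTop (tendsto_rpow_atTop (by norm_num))
    have h3 := h2.add (h1.const_mul 2)
    simp only [mul_zero, add_zero] at h3
    refine h3.congr fun β => ?_
    ring
  obtain ⟨b2, hb2⟩ := eventually_atTop.1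
    (l1.eventually (ge_mem_nhds (show (0 : ℝ) < 1 / 8 by norm_num)))
  have hlogn : 0 ≤ Real.log ((n : ℝ) + 1) := Real.log_nonneg (by linarith)
  refine ⟨C + 1 + 6 * Real.log ((n : ℝ) + 1), max (max b1 b2) 1, by positivity, le_max_right _ _,
    fun b hb l => ?_⟩
  have hbb1 : b1 ≤ b := (le_max_left _ _).trans ((le_max_left _ _).trans hb)
  have hbb2 : b2 ≤ b := (le_max_right _ _).trans ((le_max_left _ _).trans hb)
  have hb1' : 1 ≤ b := (le_max_right _ _).trans hb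
  have hb0 : 0 < b := by linarith
  have pp : ∀ a : ℝ, 0 < b ^ a := fun a => Real.rpow_pos_of_pos hb0 a
  obtain ⟨L, hLpos, hLge, hLle, hZ⟩ := h b hbb1
  have hLR : (0 : ℝ) < L := by exact_mod_cast hLpos
  have hlR : (0 : ℝ) ≤ l := Nat.cast_nonneg l
  -- the cube of side `L`
  have hZL : Real.log (Zt n (cube L) (2 * b) 0) ≤ (C + 1) * (L : ℝ) ^ 3 / b ^ (3 / 2 : ℝ) := by
    have h1 := hZ1 L hLpos b (2 * b) hb0.le (by linarith)
    have e : (2 * b - b) * n / (6 * (L : ℝ) ^ 2) = n * b / (6 * (L : ℝ) ^ 2) := by ring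
    rw [e] at h1
    have h2 := Real.log_le_log (Zt_pos (n := n) (Λ := cube L) (2 * b) 0) h1
    rw [Real.log_mul (by positivity) (Zt_pos b _).ne'] at h2
    have h3 : Real.log (2 * ((n : ℝ) * (L : ℝ) ^ 3 + 1)) ≤ (L : ℝ) ^ 3 / b ^ (3 / 2 : ℝ) := by
      have h4 : (L : ℝ) ^ 3 ≤ 8 * b ^ (2 : ℝ) := by
        calc (L : ℝ) ^ 3 ≤ (2 * b ^ (51 / 100 : ℝ)) ^ 3 := pow_le_pow_left₀ hLR.le hLle 3
          _ = 8 * b ^ (153 / 100 : ℝ) := by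
            rw [mul_pow, ← Real.rpow_natCast (b ^ _), ← Real.rpow_mul hb0.le]; norm_num
          _ ≤ 8 * b ^ (2 : ℝ) :=
            mul_le_mul_of_nonneg_left
              (Real.rpow_le_rpow_of_exponent_le hb1' (by norm_num)) (by norm_num)
      have h5 : 2 * ((n : ℝ) * (L : ℝ) ^ 3 + 1) ≤ 32 * n * b ^ (2 : ℝ) := by
        have h6 : 1 ≤ b ^ (2 : ℝ) := Real.one_le_rpow hb1' (by norm_num)
        have h7 : (n : ℝ) * (L : ℝ) ^ 3 ≤ n * (8 * b ^ (2 : ℝ)) :=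
          mul_le_mul_of_nonneg_left h4 (by positivity)
        have h8 : 1 ≤ (n : ℝ) * b ^ (2 : ℝ) := one_le_mul_of_one_le_of_one_le hnR h6
        nlinarith
      have h6 := Real.log_le_log (by positivity) h5
      rw [Real.log_mul (x := 32 * (n : ℝ)) (by positivity) (by positivity), Real.log_rpow hb0] at h6
      have h7 := hb2 b hbb2
      rw [div_le_iff₀ (pp _)] at h7
      have h8 : b ^ (3 / 100 : ℝ) / 8 ≤ (L : ℝ) ^ 3 / b ^ (3 / 2 : ℝ) := by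
        rw [le_div_iff₀ (pp _)]
        have h9 : (b ^ (51 / 100 : ℝ) / 2) ^ 3 ≤ (L : ℝ) ^ 3 :=
          pow_le_pow_left₀ (by have := pp (51 / 100); positivity) hLge 3
        have h10 : (b ^ (51 / 100 : ℝ) / 2) ^ 3 = b ^ (3 / 100 : ℝ) / 8 * b ^ (3 / 2 : ℝ) := by
          have e1 : b ^ (3 / 100 : ℝ) * b ^ (3 / 2 : ℝ) = b ^ (153 / 100 : ℝ) := by
            rw [← Real.rpow_add hb0]; norm_num
          have e2 : (b ^ (51 / 100 : ℝ)) ^ 3 = b ^ (153 / 100 : ℝ) := by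
            rw [← Real.rpow_natCast, ← Real.rpow_mul hb0.le]; norm_num
          rw [div_pow, e2, div_mul_eq_mul_div, e1]
          norm_num
        rw [← h10]; exact h9
      linarith
    have h9 : (C + 1) * (L : ℝ) ^ 3 / b ^ (3 / 2 : ℝ) =
        C * (L : ℝ) ^ 3 / b ^ (3 / 2 : ℝ) + (L : ℝ) ^ 3 / b ^ (3 / 2 : ℝ) := by ring
    rw [h9]
    linarith
  -- general cubes
  set q : ℕ := l / L with hq
  have hqL : q * L ≤ l := Nat.div_mul_le_self _ _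
  have hqL2 : l ≤ q * L + L := by
    have h1 := Nat.div_add_mod l L
    have h2 := Nat.mod_lt l hLpos
    have h3 : L * (l / L) = q * L := by rw [hq, mul_comm]
    omega
  have hqLR : (q : ℝ) * L ≤ l := by exact_mod_cast hqL
  have hqL2R : (l : ℝ) ≤ q * L + L := by exact_mod_cast hqL2
  have hG := P361.G_cube_mul (G := gset n (2 * b) 0) (gset_superadd (by linarith))
    gset_translate (gset_nonneg (by linarith) le_rfl) L q l hLpos hqL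
  unfold gset at hG
  rw [card_cube, card_cube, ← cube_eq, ← cube_eq] at hG
  push_cast at hG
  have h1 : Real.log (Zt n (cube l) (2 * b) 0) ≤
      (q : ℝ) ^ 3 * Real.log (Zt n (cube L) (2 * b) 0) +
        Real.log ((n : ℝ) + 1) * ((l : ℝ) ^ 3 - ((q : ℝ) * L) ^ 3) := by
    rw [mul_pow]
    nlinarith
  have h2 : (q : ℝ) ^ 3 * Real.log (Zt n (cube L) (2 * b) 0) ≤
      (C + 1) * (l : ℝ) ^ 3 / b ^ (3 / 2 : ℝ) := by
    calc _ ≤ (q : ℝ) ^ 3 * ((C + 1) * (L : ℝ) ^ 3 / b ^ (3 / 2 : ℝ)) :=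
          mul_le_mul_of_nonneg_left hZL (by positivity)
      _ = (C + 1) * ((q : ℝ) * L) ^ 3 / b ^ (3 / 2 : ℝ) := by rw [mul_pow]; ring
      _ ≤ (C + 1) * (l : ℝ) ^ 3 / b ^ (3 / 2 : ℝ) := by
          refine div_le_div_of_nonneg_right ?_ (pp _).le
          exact mul_le_mul_of_nonneg_left (pow_le_pow_left₀ (by positivity) hqLR 3) (by linarith)
  have h3 : (l : ℝ) ^ 3 - ((q : ℝ) * L) ^ 3 ≤ 3 * (l : ℝ) ^ 2 * L := by
    have hx0 : 0 ≤ (q : ℝ) * L := by positivity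
    generalize (q : ℝ) * L = x at hqLR hqL2R hx0
    have e : (l : ℝ) ^ 3 - x ^ 3 = (l - x) * (l ^ 2 + l * x + x ^ 2) := by ring
    rw [e]
    have h4 : (l : ℝ) ^ 2 + l * x + x ^ 2 ≤ 3 * (l : ℝ) ^ 2 := by nlinarith
    have h5 : 0 ≤ (l : ℝ) - x := by linarith
    calc _ ≤ ((l : ℝ) - x) * (3 * (l : ℝ) ^ 2) := mul_le_mul_of_nonneg_left h4 h5
      _ ≤ L * (3 * (l : ℝ) ^ 2) := mul_le_mul_of_nonneg_right (by linarith) (by positivity)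
      _ = _ := by ring
  have h4 : Real.log ((n : ℝ) + 1) * ((l : ℝ) ^ 3 - ((q : ℝ) * L) ^ 3) ≤
      6 * Real.log ((n : ℝ) + 1) * b ^ (51 / 100 : ℝ) * (l : ℝ) ^ 2 := by
    calc _ ≤ Real.log ((n : ℝ) + 1) * (3 * (l : ℝ) ^ 2 * L) :=
          mul_le_mul_of_nonneg_left h3 hlogn
      _ ≤ Real.log ((n : ℝ) + 1) * (3 * (l : ℝ) ^ 2 * (2 * b ^ (51 / 100 : ℝ))) :=
          mul_le_mul_of_nonneg_left (mul_le_mul_of_nonneg_left hLle (by positivity)) hlogn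
      _ = _ := by ring
  have h5 : 0 ≤ 6 * Real.log ((n : ℝ) + 1) * ((l : ℝ) ^ 3 / b ^ (3 / 2 : ℝ)) := by
    have := pp (3 / 2); positivity
  have h6 : 0 ≤ (C + 1) * (b ^ (51 / 100 : ℝ) * (l : ℝ) ^ 2) := by
    have := pp (51 / 100); positivity
  have e1 : (C + 1 + 6 * Real.log ((n : ℝ) + 1)) * (l : ℝ) ^ 3 / b ^ (3 / 2 : ℝ) =
      (C + 1) * (l : ℝ) ^ 3 / b ^ (3 / 2 : ℝ) +
        6 * Real.log ((n : ℝ) + 1) * ((l : ℝ) ^ 3 / b ^ (3 / 2 : ℝ)) := by ring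
  have e2 : (C + 1 + 6 * Real.log ((n : ℝ) + 1)) * b ^ (51 / 100 : ℝ) * (l : ℝ) ^ 2 =
      (C + 1) * (b ^ (51 / 100 : ℝ) * (l : ℝ) ^ 2) +
        6 * Real.log ((n : ℝ) + 1) * b ^ (51 / 100 : ℝ) * (l : ℝ) ^ 2 := by ring
  rw [e1, e2]
  linarith

/-- (Z3), all cubes, all spins. -/
theorem log_Zt_zero {n : ℕ} (hn : 1 ≤ n) :
    ∃ C b0 : ℝ, 0 ≤ C ∧ 1 ≤ b0 ∧ ∀ b : ℝ, b0 ≤ b → ∀ l : ℕ,
      Real.log (Zt n (cube l) (2 * b) 0) ≤
        C * (l : ℝ) ^ 3 / b ^ (3 / 2 : ℝ) + C * b ^ (51 / 100 : ℝ) * (l : ℝ) ^ 2 :=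
  log_Zt_zero_of hn fun _ hL _ _ _ hbb => Zt_su2 (by omega) hL hbb

/-- (Z3), the form with a negative power. -/
theorem log_Zt_zero' {n : ℕ} (hn : 1 ≤ n) :
    ∃ C b0 : ℝ, 0 ≤ C ∧ 1 ≤ b0 ∧ ∀ b : ℝ, b0 ≤ b → ∀ l : ℕ,
      Real.log (Zt n (cube l) (2 * b) 0) ≤
        C * (l : ℝ) ^ 3 * b ^ (-(3 / 2) : ℝ) + C * b ^ (0.51 : ℝ) * (l : ℝ) ^ 2 := by
  obtain ⟨C, b0, hC, hb0, h⟩ := log_Zt_zero hn
  refine ⟨C, b0, hC, hb0, fun b hb l => (h b hb l).trans (le_of_eq ?_)⟩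
  rw [Real.rpow_neg (by linarith), div_eq_mul_inv,
    show (0.51 : ℝ) = 51 / 100 by norm_num]

end Vale.Agent.P361.B
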